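import Crest.Agent.N346.An.UB

/-!
Row 346, An-C: periodic functions, `perFin`, `per`, `limSol`, `ex2`.
-/

set_option autoImplicit false
open MeasureTheory Filter Topology Set Metric
open scoped ContDiff
open Crest.GeometryTopology.CoordMetric
open Crest.MathPhysics.ExteriorData
open Crest.Agent.R238 (HB Ell)

noncomputable section

namespace Crest.Agent.N346.An

variable {n : ℕ} {L : ℝ}

/-! ### periodic functions -/

section per

variable {α β γ : Type} {u : E n → α} {v : E n → β}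

theorem Per.periodic (h : Per L u) (j : Fin n) :
    Function.Periodic u (EuclideanSpace.single j L) := fun x => h x j

theorem Per.const (c : α) : Per L fun _ : E n => c := fun _ _ => rfl

theorem Per.comp (h : Per L u) (g : α → β) : Per L fun x => g (u x) := fun x j => by
  simp only [h x j]

theorem Per.comp₂ (h : Per L u) (h' : Per L v) (g : α → β → γ) :
    Per L fun x => g (u x) (v x) := fun x j => by
  simp only [h x j, h' x j]

theorem Per.prodMk (h : Per L u) (h' : Per L v) : Per L fun x => (u x, v x) := h.comp₂ h' Prod.mk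

theorem Per.pi {ι : Type} {w : E n → ι → α} (h : ∀ i, Per L fun x => w x i) : Per L w :=
  fun x j => funext fun i => h i x j

theorem Per.lattice (h : Per L u) (m : Fin n → ℤ) :
    Function.Periodic u (∑ j, m j • EuclideanSpace.single j L) :=
  Finset.sum_induction _ (Function.Periodic u) (fun _ _ => Function.Periodic.add_period)
    (Function.periodic_with_period_zero u) fun j _ => (h.periodic j).zsmul (m j)

/-- reduction to a fundamental cube -/
theorem exists_reduce (hL : 0 < L) (x : E n) : ∃ y : E n, (∀ j, y j ∈ Ico 0 L) ∧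
    ∃ m : Fin n → ℤ, x = y + ∑ j, m j • EuclideanSpace.single j L := by
  refine ⟨x - ∑ j, ⌊x j / L⌋ • EuclideanSpace.single j L, fun j => ?_, fun j => ⌊x j / L⌋,
    (sub_add_cancel _ _).symm⟩
  have e : (x - ∑ j, ⌊x j / L⌋ • EuclideanSpace.single j L : E n) j = x j - ⌊x j / L⌋ * L := by
    simp [Pi.single_apply]
  rw [e]
  exact ⟨Int.sub_floor_div_mul_nonneg _ hL, Int.sub_floor_div_mul_lt _ hL⟩

theorem norm_le_of_cube {y : E n} (h : ∀ j, y j ∈ Ico 0 L) : ‖y‖ ≤ √(n * L ^ 2) := by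
  rw [EuclideanSpace.norm_eq]
  refine Real.sqrt_le_sqrt ((Finset.sum_le_sum (g := fun _ => L ^ 2) fun j _ => ?_).trans (by simp))
  rw [Real.norm_of_nonneg (h j).1]
  exact pow_le_pow_left₀ (h j).1 (h j).2.le 2

theorem Per.reduce (h : Per L u) (hL : 0 < L) (x : E n) :
    ∃ y ∈ closedBall (0 : E n) (√(n * L ^ 2)), u y = u x := by
  obtain ⟨y, hy, m, rfl⟩ := exists_reduce hL x
  exact ⟨y, mem_closedBall_zero_iff.2 (norm_le_of_cube hy), (h.lattice m y).symm⟩

theorem Per.exists_max {u : E n → ℝ} (h : Per L u) (hL : 0 < L) (hc : Continuous u) :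
    ∃ x0, ∀ x, u x ≤ u x0 := by
  obtain ⟨x0, -, h0⟩ := (isCompact_closedBall (0 : E n) (√(n * L ^ 2))).exists_isMaxOn
    ⟨0, mem_closedBall_self (Real.sqrt_nonneg _)⟩ hc.continuousOn
  refine ⟨x0, fun x => ?_⟩
  obtain ⟨y, hy, e⟩ := h.reduce hL x
  exact e ▸ h0 hy

variable {F : Type} [NormedAddCommGroup F]

theorem Per.bdd {u : E n → F} (h : Per L u) (hL : 0 < L) (hc : Continuous u) :
    ∃ B, ∀ x, ‖u x‖ ≤ B := by
  obtain ⟨x0, h0⟩ := (h.comp norm).exists_max hL hc.norm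
  exact ⟨_, h0⟩

variable [NormedSpace ℝ F]

theorem Per.fderiv {u : E n → F} (h : Per L u) : Per L (fderiv ℝ u) := fun x j => by
  rw [← fderiv_comp_add_right]
  simp only [h _ j]

theorem Per.iter {u : E n → F} (h : Per L u) (k : ℕ) : Per L (iteratedFDeriv ℝ k u) :=
  fun x j => by
    rw [← iteratedFDeriv_comp_add_right]
    simp only [h _ j]

theorem Per.pderiv {u : E n → ℝ} (h : Per L u) (i : Fin n) : Per L (pderiv i u) :=
  h.fderiv.comp fun A => A (EuclideanSpace.single i 1)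

theorem Per.iter_bdd {u : E n → F} (h : Per L u) (hL : 0 < L) (hu : ContDiff ℝ ∞ u) (k : ℕ) :
    ∃ B, ∀ x, ‖iteratedFDeriv ℝ k u x‖ ≤ B :=
  (h.iter k).bdd hL (hu.continuous_iteratedFDeriv (nat_le_inf k))

theorem Per.uc {ι : Type} {u : E n → F} (h : Per L u) (hL : 0 < L) (hu : ContDiff ℝ ∞ u) :
    UC fun _ : ι => u := UC.single hu (h.iter_bdd hL hu)

theorem Per.st2 {f z : E n → ℝ} (hf : Per L f) (hz : Per L z) : Per L fun x => (st f z x).2 :=
  hf.prodMk (hz.prodMk (Per.pi fun k => hf.pderiv k))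

theorem Per.xi {f z : E n → ℝ} (hf : Per L f) (hz : Per L z) : Per L (xi f z) :=
  (Per.pi fun k => hz.pderiv k).prodMk (Per.pi fun k => Per.pi fun l => (hf.pderiv l).pderiv k)

/-- a periodic coefficient along a periodic state -/
theorem Per.along {Θ : Y0 n → α} (h : ∀ s, Per L fun x => Θ (x, s)) {f z : E n → ℝ}
    (hf : Per L f) (hz : Per L z) : Per L fun x => Θ (st f z x) := fun x j => by
  have h1 := hf.st2 hz x j
  have h2 := h (st f z x).2 x j
  simp only at h1 h2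
  change Θ (_, (st f z (x + EuclideanSpace.single j L)).2) = Θ (x, (st f z x).2)
  rw [h1, h2]

theorem Per.along1 {Θ : Y1 n → α} (h : ∀ s ξ, Per L fun x => Θ ((x, s), ξ)) {f z : E n → ℝ}
    (hf : Per L f) (hz : Per L z) : Per L fun x => Θ (st f z x, An.xi f z x) := fun x j => by
  have h1 := hf.st2 hz x j
  have h2 := h (st f z x).2 (An.xi f z x) x j
  simp only at h1 h2
  change Θ ((_, (st f z (x + EuclideanSpace.single j L)).2), _) = Θ ((x, (st f z x).2), _)
  rw [h1, hf.xi hz x j, h2]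

end per

theorem perFin : PerFinStmt := fun _ _ _ hL h => ⟨h.exists_max hL, h.iter_bdd hL⟩

/-! ### the periodisation maps -/

theorem exists_sigma : ∃ σ : ℝ → ℝ, ContDiff ℝ ∞ σ ∧ (∀ t, σ (t + 8) = σ t) ∧
    ∀ t, |t| ≤ 1 → σ t = t := by
  let χ : ContDiffBump (0 : ℝ) := ⟨4 / 5, 9 / 10, by norm_num, by norm_num⟩
  have hl : ContDiff ℝ ∞ fun s => χ s * Real.arcsin s := by
    refine contDiff_iff_contDiffAt.2 fun s => ?_
    by_cases hs : |s| < 1
    · exact χ.contDiff.contDiffAt.mul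
        (Real.contDiffAt_arcsin (abs_lt.1 hs).1.ne' (abs_lt.1 hs).2.ne)
    · refine (contDiffAt_const (c := (0 : ℝ))).congr_of_eventuallyEq ?_
      have : ∀ᶠ r in 𝓝 s, (9 / 10 : ℝ) < |r| :=
        continuous_abs.continuousAt.eventually (lt_mem_nhds (by linarith [not_lt.1 hs]))
      filter_upwards [this] with r hr
      rw [χ.zero_of_le_dist (by simpa [χ] using hr.le), zero_mul]
  have hpi := Real.pi_pos
  refine ⟨fun t => 4 / Real.pi * (χ (Real.sin (t * Real.pi / 4)) *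
    Real.arcsin (Real.sin (t * Real.pi / 4))), contDiff_const.mul (hl.comp (by fun_prop)),
    fun t => ?_, fun t ht => ?_⟩
  · simp only [show (t + 8) * Real.pi / 4 = t * Real.pi / 4 + 2 * Real.pi by ring,
      Real.sin_add_two_pi]
  · have h1 : |t * Real.pi / 4| ≤ Real.pi / 4 := by
      rw [abs_div, abs_mul, abs_of_pos hpi, abs_of_pos (by norm_num : (0 : ℝ) < 4)]
      gcongr
      nlinarith
    have h2 : χ (Real.sin (t * Real.pi / 4)) = 1 := χ.one_of_mem_closedBall (by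
      simp only [mem_closedBall, dist_zero_right, Real.norm_eq_abs, χ]
      linarith [Real.abs_sin_le_abs (x := t * Real.pi / 4), Real.pi_lt_d2])
    simp only
    rw [h2, Real.arcsin_sin (by linarith [(abs_le.1 h1).1]) (by linarith [(abs_le.1 h1).2])]
    field_simp

theorem nd_comp_clm {Y Z F : Type} [NormedAddCommGroup Y] [NormedSpace ℝ Y] [NormedAddCommGroup Z]
    [NormedSpace ℝ Z] [NormedAddCommGroup F] [NormedSpace ℝ F] (A : Z →L[ℝ] Y) {g : Y → F}
    (hg : ContDiff ℝ ∞ g) (k : ℕ) (y : Z) :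
    ‖iteratedFDeriv ℝ k (fun y => g (A y)) y‖ ≤ ‖iteratedFDeriv ℝ k g (A y)‖ * ‖A‖ ^ k := by
  have := A.iteratedFDeriv_comp_right hg y (nat_le_inf k)
  rw [show (fun y => g (A y)) = g ∘ A from rfl, this]
  simpa using ContinuousMultilinearMap.norm_compContinuousLinearMap_le
    (iteratedFDeriv ℝ k g (A y)) fun _ => A

theorem per : PerStmt := by
  intro n
  obtain ⟨σ, hσ, hp, h1⟩ := exists_sigma
  let τ : E n → E n := fun x => WithLp.toLp 2 fun i => σ (x i)
  have hτ : ContDiff ℝ ∞ τ := contDiff_euclidean.2 fun i => hσ.comp (by fun_prop)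
  have hP : Per 8 τ := fun x j => by
    ext i
    by_cases hij : i = j
    · subst hij; simp [τ, hp]
    · simp [τ, hij]
  have hm : ∀ m : ℕ, (0 : ℝ) < m + 1 := fun m => by positivity
  refine ⟨fun m x => (m + 1 : ℝ) • τ ((m + 1 : ℝ)⁻¹ • x), ⟨fun m => by fun_prop,
    fun k M hk => ?_⟩, fun m => ⟨fun x j => ?_, fun x hx => ?_⟩⟩
  · obtain ⟨B, hB⟩ := hP.iter_bdd (by norm_num) hτ k
    refine ⟨B, fun m x _ => ?_⟩
    have hB0 : 0 ≤ B := (norm_nonneg _).trans (hB 0)
    have a1 := nd_clm ((m + 1 : ℝ) • ContinuousLinearMap.id ℝ (E n))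
      (f := fun x => τ ((m + 1 : ℝ)⁻¹ • x)) (by fun_prop) k x
    have a2 := nd_comp_clm ((m + 1 : ℝ)⁻¹ • ContinuousLinearMap.id ℝ (E n)) hτ k x
    have n1 : ∀ c : ℝ, 0 ≤ c → ‖c • ContinuousLinearMap.id ℝ (E n)‖ ≤ c := fun c hc => by
      rw [norm_smul, Real.norm_of_nonneg hc]
      exact mul_le_of_le_one_right hc ContinuousLinearMap.norm_id_le
    have a3 : ‖(m + 1 : ℝ)⁻¹ • ContinuousLinearMap.id ℝ (E n)‖ ^ k ≤ (m + 1 : ℝ)⁻¹ :=
      (pow_le_pow_left₀ (norm_nonneg _) (n1 _ (inv_pos.2 (hm m)).le) k).trans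
        (pow_le_of_le_one (inv_pos.2 (hm m)).le
          (inv_le_one_of_one_le₀ (by linarith [Nat.cast_nonneg (α := ℝ) m])) (by omega))
    refine a1.trans ((mul_le_mul (n1 _ (hm m).le)
      (a2.trans (mul_le_mul (hB _) a3 (by positivity) hB0)) (norm_nonneg _) (hm m).le).trans_eq ?_)
    field_simp
  · have : (m + 1 : ℝ)⁻¹ • (x + EuclideanSpace.single j (8 * (m + 1 : ℝ)))
        = (m + 1 : ℝ)⁻¹ • x + EuclideanSpace.single j 8 := by
      ext i
      by_cases hij : i = j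
      · subst hij; simp; field_simp
      · simp [hij]
    simp only [this, hP _ j]
  · ext i
    have : |(m + 1 : ℝ)⁻¹ * x i| ≤ 1 := by
      rw [abs_mul, abs_of_pos (inv_pos.2 (hm m)), inv_mul_le_iff₀ (hm m), mul_one]
      exact (PiLp.norm_apply_le x i).trans hx
    simp only [τ, PiLp.smul_apply, smul_eq_mul, h1 _ this]
    field_simp

/-! ### limits -/

namespace Lm

theorem pd_pd_eq {u : E n → ℝ} (hu : ContDiff ℝ ∞ u) (x : E n) (i j : Fin n) :
    pderiv i (pderiv j u) x = fderiv ℝ (fderiv ℝ u) x (EuclideanSpace.single i 1)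
      (EuclideanSpace.single j 1) := by
  have h1 : DifferentiableAt ℝ (fderiv ℝ u) x :=
    ((hu.fderiv_right (m := ∞) (by simp)).differentiable (by simp)) x
  unfold pderiv
  rw [fderiv_clm_apply h1 (differentiableAt_const _)]
  simp

section lim

variable {u : ℕ → E n → ℝ} {v : E n → ℝ}
  (h : ∀ k : ℕ, TendstoLocallyUniformly (fun j => iteratedFDeriv ℝ k (u j))
    (iteratedFDeriv ℝ k v) atTop)

include h

theorem tlu_apply (k : ℕ) (x : E n) (m : Fin k → E n) :
    Tendsto (fun j => iteratedFDeriv ℝ k (u j) x m) atTop (𝓝 (iteratedFDeriv ℝ k v x m)) :=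
  ((continuous_eval_const m).tendsto _).comp
    ((h k).tendstoLocallyUniformlyOn.tendsto_at (mem_univ x))

theorem tlu0 (x : E n) : Tendsto (fun j => u j x) atTop (𝓝 (v x)) := by
  simpa only [iteratedFDeriv_zero_apply] using tlu_apply h 0 x ![]

theorem tlu1 (x : E n) (i : Fin n) :
    Tendsto (fun j => pderiv i (u j) x) atTop (𝓝 (pderiv i v x)) := by
  have := tlu_apply h 1 x ![EuclideanSpace.single i 1]
  simp only [iteratedFDeriv_one_apply] at this
  exact this

theorem tlu2 (hu : ∀ j, ContDiff ℝ ∞ (u j)) (hv : ContDiff ℝ ∞ v) (x : E n) (i l : Fin n) :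
    Tendsto (fun j => pderiv i (pderiv l (u j)) x) atTop (𝓝 (pderiv i (pderiv l v) x)) := by
  have := tlu_apply h 2 x ![EuclideanSpace.single i 1, EuclideanSpace.single l 1]
  simp only [iteratedFDeriv_two_apply] at this
  simp only [pd_pd_eq (hu _), pd_pd_eq hv]
  exact this

end lim

theorem tlu_sub {X F : Type} [TopologicalSpace X] [UniformSpace F] {g : ℕ → X → F} {G : X → F}
    (h : TendstoLocallyUniformly g G atTop) {φ : ℕ → ℕ} (hφ : StrictMono φ) :
    TendstoLocallyUniformly (fun j => g (φ j)) G atTop := fun w hw x => by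
  obtain ⟨t, ht, H⟩ := h w hw x
  exact ⟨t, ht, hφ.tendsto_atTop.eventually H⟩

end Lm

open Lm in
theorem limSol (hlim : LimStmt) : LimSolStmt := by
  intro n S T f z hT hS hf hz hST
  obtain ⟨φ1, f0, hφ1, sf, tf⟩ := hlim n ℝ f hf
  obtain ⟨φ2, z0, hφ2, sz, tz⟩ := hlim n ℝ (fun j => z (φ1 j)) (hz.reindex φ1)
  have tf' := fun k => tlu_sub (tf k) hφ2
  have hφ : StrictMono fun j => φ1 (φ2 j) := hφ1.comp hφ2
  refine ⟨fun j => φ1 (φ2 j), f0, z0, hφ, ?_, fun k => ⟨tf' k, tz k⟩⟩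
  have t1 : ∀ x, Tendsto (fun j => st (f (φ1 (φ2 j))) (z (φ1 (φ2 j))) x) atTop (𝓝 (st f0 z0 x)) :=
    fun x => tendsto_const_nhds.prodMk_nhds ((tlu0 tf' x).prodMk_nhds ((tlu0 tz x).prodMk_nhds
      (tendsto_pi_nhds.2 fun i => tlu1 tf' x i)))
  have t2 : ∀ x, Tendsto (fun j => xi (f (φ1 (φ2 j))) (z (φ1 (φ2 j))) x) atTop (𝓝 (xi f0 z0 x)) :=
    fun x => (tendsto_pi_nhds.2 fun i => tlu1 tz x i).prodMk_nhds (tendsto_pi_nhds.2 fun i =>
      tendsto_pi_nhds.2 fun l => tlu2 tf' (fun j => hf.1 _) sf x i l)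
  refine ⟨sf, sz, fun x => ?_, fun x => ?_⟩
  · refine tendsto_nhds_unique_of_eventuallyEq (l := atTop)
      (tendsto_finsetSum _ fun i _ => tendsto_finsetSum _ fun l _ =>
        ((((hT.a1 i l).1 ()).continuous.tendsto _).comp (t1 x)).mul
          (tlu2 tf' (fun j => hf.1 _) sf x i l))
      ((((hT.c1.1 ()).continuous.tendsto _).comp (t1 x)).add (tendsto_finsetSum _ fun i _ =>
        ((((hT.b1 i).1 ()).continuous.tendsto _).comp (t1 x)).mul (tlu1 tz x i))) ?_
    filter_upwards [hφ.tendsto_atTop.eventually (hST x)] with j hj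
    obtain ⟨e1, e2, e3, -⟩ := hj (st (f (φ1 (φ2 j))) (z (φ1 (φ2 j))) x).2
    have := (hS (φ1 (φ2 j))).e1 x
    unfold aD2 at this
    change ∑ i, ∑ l, (S _).a1 (x, (st _ _ x).2) i l * _
      = (S _).c1 (x, (st _ _ x).2) + ∑ i, (S _).b1 (x, (st _ _ x).2) i * _ at this
    rw [e1, e2, e3] at this
    exact this
  · refine tendsto_nhds_unique_of_eventuallyEq (l := atTop)
      (tendsto_finsetSum _ fun i _ => tendsto_finsetSum _ fun l _ =>
        ((((hT.a2 i l).1 ()).continuous.tendsto _).comp (t1 x)).mul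
          (tlu2 tz (fun j => hz.1 _) sz x i l))
      (((hT.F2.ub.1 ()).continuous.tendsto _).comp ((t1 x).prodMk_nhds (t2 x))) ?_
    filter_upwards [hφ.tendsto_atTop.eventually (hST x)] with j hj
    obtain ⟨-, -, -, e4, e5⟩ := hj (st (f (φ1 (φ2 j))) (z (φ1 (φ2 j))) x).2
    have := (hS (φ1 (φ2 j))).e2 x
    unfold aD2 at this
    change ∑ i, ∑ l, (S _).a2 (x, (st _ _ x).2) i l * _ = (S _).F2 ((x, (st _ _ x).2), _) at this
    rw [e4, e5] at this
    exact this

/-! ### the Schaefer stage -/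

theorem Sys.sch_one (S : Sys n) : S.sch 1 = S := by
  cases S
  simp [Sys.sch]

theorem Adm.sch {ι : Type} {S : ι → Sys n} (h : Adm S) {σ : ι → ℝ} (hσ : ∃ C, ∀ i, ‖σ i‖ ≤ C) :
    Adm fun i => (S i).sch (σ i) := by
  have h1 : UB N0 fun i (_ : Y0 n) => σ i := UB.const hσ
  have h2 : UB N0 fun i (_ : Y0 n) => 1 - σ i := (UB.const' 1).sub h1
  exact ⟨h.a1, fun k => h1.mul (h.b1 k), (h2.mul ub_f).add (h1.mul h.c1), h.a2,
    (Pol.coef' (h2.mul ub_z) 2).add (h.F2.cmul h1), h.ell⟩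

theorem Sys.Per.sch {S : Sys n} (h : S.Per L) (s : ℝ) : (S.sch s).Per L :=
  ⟨h.a1, fun y => (h.b1 y).comp fun b k => s * b k,
    fun y => (h.c1 y).comp fun c => (1 - s) * y.1 + s * c, h.a2,
    fun y ξ => (h.F2 y ξ).comp fun c => (1 - s) * y.2.1 + s * c⟩

theorem ex2 (hex : ExStmt) : Ex2Stmt := by
  intro n L hL S hA hP hC h1 h2
  have m1 : ∀ t ∈ Icc (0 : ℝ) 1, max (2 * t - 1) 0 ∈ Icc (0 : ℝ) 1 := fun t ht =>
    ⟨le_max_right _ _, max_le (by linarith [ht.2]) zero_le_one⟩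
  have m2 : ∀ t ∈ Icc (0 : ℝ) 1, min (2 * t) 1 ∈ Icc (0 : ℝ) 1 := fun t ht =>
    ⟨le_min (by linarith [ht.1]) zero_le_one, min_le_right _ _⟩
  have c1 : ContinuousOn (fun t : ℝ => max (2 * t - 1) 0) (Icc 0 1) := by fun_prop
  have c2 : ContinuousOn (fun t : ℝ => min (2 * t) 1) (Icc 0 1) := by fun_prop
  have := hex n L hL (fun t => (S (max (2 * t - 1) 0)).sch (min (2 * t) 1))
    ((hA.reindex fun t : Icc (0 : ℝ) 1 => ⟨_, m1 t t.2⟩).sch ⟨1, fun t =>
      abs_le.2 ⟨by linarith [(m2 t t.2).1], (m2 t t.2).2⟩⟩)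
    (fun t ht => (hP _ (m1 t ht)).sch _)
    ⟨fun y k l => (hC.a1 y k l).comp c1 m1, fun y k => c2.mul ((hC.b1 y k).comp c1 m1),
      fun y => ((continuousOn_const.sub c2).mul continuousOn_const).add
        (c2.mul ((hC.c1 y).comp c1 m1)),
      fun y k l => (hC.a2 y k l).comp c1 m1,
      fun y => ((continuousOn_const.sub c2).mul continuousOn_const).add
        (c2.mul ((hC.F2 y).comp c1 m1))⟩
    (fun y => by simp [Sys.sch]) (fun y k => by simp [Sys.sch]) (fun y => by simp [Sys.sch]) ?_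
  · norm_num [Sys.sch_one] at this
    exact this
  · obtain ⟨M1, h1⟩ := h1
    obtain ⟨M2, h2⟩ := h2
    refine ⟨max M1 M2, fun t ht f z hs pf pz x => ?_⟩
    rcases le_total (2 * t) 1 with h | h
    · simp only [max_eq_right (sub_nonpos.2 h)] at hs
      exact (h2 _ (m2 t ht) f z hs pf pz x).trans (le_max_right _ _)
    · simp only [min_eq_right h, Sys.sch_one] at hs
      exact (h1 _ (m1 t ht) f z hs pf pz x).trans (le_max_left _ _)

end Crest.Agent.N346.An

end
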