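import Crest.Agent.N346.An.Defs
import Crest.Agent.N346.Basic
import Crest.Agent.NLib.Ell.OY

/-!
Row 346, An-B (helper16): dictionary `pderiv ↔ D2`, `H2 ↔ C2A`, and the linear theory
`gSch`, `maxS`, `solve`, `solve0`, `lim`, `landau`, `decay`.
-/

set_option autoImplicit false
open MeasureTheory Filter Topology Set Metric
open scoped ContDiff
open Crest.GeometryTopology.CoordMetric
open Crest.Agent.R238 (HB Ell)
open Crest.Agent.R238.Sch (D2 ee)
open Crest.Agent.R273.SchA_152 Crest.Agent.R273.SchD_152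
open Crest.Agent.R273.SchB_152 (P2)

noncomputable section

namespace Crest.Agent.N346.An

variable {n : ℕ} {a M : ℝ} {u : E n → ℝ}

/-! ### dictionary -/

theorem pd_eq_fderiv (u : E n → ℝ) (i : Fin n) (x : E n) : pderiv i u x = fderiv ℝ u x (ee i) := rfl

theorem pd2_eq_D2_at {x : E n} (hu : ContDiffAt ℝ 2 u x) (i j : Fin n) :
    pderiv i (pderiv j u) x = D2 u x (ee i) (ee j) := by
  have h1 : DifferentiableAt ℝ (fderiv ℝ u) x :=
    (hu.fderiv_right (m := 1) (by norm_num)).differentiableAt one_ne_zero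
  have h2 : HasFDerivAt (fun y => fderiv ℝ u y (ee j))
      ((ContinuousLinearMap.apply ℝ ℝ (ee j : E n)).comp (fderiv ℝ (fderiv ℝ u) x)) x :=
    (ContinuousLinearMap.apply ℝ ℝ (ee j : E n)).hasFDerivAt.comp x h1.hasFDerivAt
  show fderiv ℝ (fun y => fderiv ℝ u y (ee j)) x (ee i) = _
  rw [h2.fderiv]
  rfl

theorem pd2_eq_D2 (hu : ContDiff ℝ 2 u) (i j : Fin n) (x : E n) :
    pderiv i (pderiv j u) x = D2 u x (ee i) (ee j) := pd2_eq_D2_at hu.contDiffAt i j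

theorem aD2_eq_P2_fun (hu : ContDiff ℝ 2 u) (A : E n → Matrix (Fin n) (Fin n) ℝ) :
    aD2 A u = P2 A u := by
  funext x
  simp only [aD2, P2, pd2_eq_D2 hu]

theorem aD2_one (u : E n → ℝ) (x : E n) : aD2 (fun _ => 1) u x = lap u x := by
  simp [aD2, lap, Matrix.one_apply]

theorem hb_iff_ho : HB a M u ↔ HO a M univ u :=
  ⟨fun h => ⟨fun x _ => h.1 x, fun x _ y _ => h.2 x y⟩,
    fun h => ⟨fun x => h.bdd x trivial, fun x y => h.hol x trivial y trivial⟩⟩

theorem hb_iff_sch : HB a M u ↔ R238.Sch.HB a M u :=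
  ⟨fun h => ⟨h.1, h.2⟩, fun h => ⟨h.bdd, h.hol⟩⟩

theorem ho_apply_ee {s : Set (E n)} {L : E n → E n →L[ℝ] ℝ} (h : HO a M s L) (i : Fin n) :
    HO a M s fun x => L x (ee i) := by
  have k : ∀ B : E n →L[ℝ] ℝ, ‖B (ee i)‖ ≤ ‖B‖ := fun B => by
    simpa [R238.Sch.norm_ee] using B.le_opNorm (ee i)
  exact ⟨fun x hx => (k _).trans (h.bdd x hx), fun x hx y hy => (k (L x - L y)).trans
    (h.hol x hx y hy)⟩

theorem h2_of_c2a (hu : ContDiff ℝ 2 u) (h : C2A a M univ u) : H2 a M u :=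
  ⟨hb_iff_ho.2 h.h0, fun i => hb_iff_ho.2 (ho_apply_ee h.h1 i), fun i j => hb_iff_ho.2
    ((R273.SchB_152.HO.entry h.h2 i j).congr fun x _ => pd2_eq_D2 hu i j x)⟩

theorem norm_lin_le (B : E n →L[ℝ] ℝ) : ‖B‖ ≤ ∑ i, |B (ee i)| := by
  refine B.opNorm_le_bound (by positivity) fun v => ?_
  conv_lhs => rw [R238.Sch.sum_ee v]
  rw [map_sum, Finset.sum_mul]
  refine (norm_sum_le _ _).trans (Finset.sum_le_sum fun i _ => ?_)
  rw [map_smul, norm_smul, mul_comm]
  exact mul_le_mul_of_nonneg_left (PiLp.norm_apply_le v i) (abs_nonneg _)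

theorem c2a_of_h2 (hu : ContDiff ℝ 2 u) (h : H2 a M u) :
    C2A a ((n : ℝ) ^ 2 * M + n * M + M) univ u := by
  have hM : 0 ≤ M := (abs_nonneg _).trans (h.1.1 0)
  have h1 : 0 ≤ (n : ℝ) * M := by positivity
  have h2 : 0 ≤ (n : ℝ) ^ 2 * M := by positivity
  refine ⟨(hb_iff_ho.1 h.1).mono (by linarith), HO.mono (M := n * M) ⟨fun x _ => ?_,
    fun x _ y _ => ?_⟩ (by linarith), HO.mono (HO.of_hb (R238.Sch.HB.of_entry (M := M)
      fun i j => ?_)) (by linarith)⟩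
  · refine (norm_lin_le _).trans ?_
    simpa [pd_eq_fderiv] using Finset.sum_le_sum fun i (_ : i ∈ Finset.univ) => (h.2.1 i).1 x
  · refine (norm_lin_le _).trans ?_
    simpa [mul_assoc, pd_eq_fderiv] using
      Finset.sum_le_sum fun i (_ : i ∈ Finset.univ) => (h.2.1 i).2 x y
  · have := hb_iff_sch.1 (h.2.2 i j)
    rwa [show pderiv i (pderiv j u) = fun x => D2 u x (ee i) (ee j) from
      funext (pd2_eq_D2 hu i j)] at this

theorem eq_iter0 (u : E n → ℝ) (x : E n) : u x = iteratedFDeriv ℝ 0 u x ![] := by simp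

theorem pd_eq_iter1 (u : E n → ℝ) (i : Fin n) (x : E n) :
    pderiv i u x = iteratedFDeriv ℝ 1 u x ![ee i] := by
  simp [pd_eq_fderiv]

theorem pd2_eq_iter2 (hu : ContDiff ℝ 2 u) (i j : Fin n) (x : E n) :
    pderiv i (pderiv j u) x = iteratedFDeriv ℝ 2 u x ![ee i, ee j] := by
  simp [pd2_eq_D2 hu, iteratedFDeriv_two_apply, D2]

theorem abs_eq_iter0 (u : E n → ℝ) (x : E n) : |u x| = ‖iteratedFDeriv ℝ 0 u x‖ := by simp

theorem abs_pd_le_iter1 (u : E n → ℝ) (i : Fin n) (x : E n) :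
    |pderiv i u x| ≤ ‖iteratedFDeriv ℝ 1 u x‖ := by
  rw [norm_iteratedFDeriv_one]; exact Bs.abs_pd_le i u x

theorem norm_D2_eq (u : E n → ℝ) (x : E n) : ‖D2 u x‖ = ‖iteratedFDeriv ℝ 2 u x‖ := by
  rw [← norm_iteratedFDeriv_fderiv, norm_iteratedFDeriv_one]; rfl

theorem abs_pd2_le_iter2 (hu : ContDiff ℝ 2 u) (i j : Fin n) (x : E n) :
    |pderiv i (pderiv j u) x| ≤ ‖iteratedFDeriv ℝ 2 u x‖ := by
  rw [pd2_eq_D2 hu, ← norm_D2_eq]; exact R238.Sch.norm_entry_le _ i j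

theorem tendsto_iter_apply {k : ℕ} {w : ℕ → E n → ℝ} {v : E n → ℝ}
    (h : TendstoLocallyUniformly (fun j => iteratedFDeriv ℝ k (w j)) (iteratedFDeriv ℝ k v) atTop)
    (x : E n) (m : Fin k → E n) :
    Tendsto (fun j => iteratedFDeriv ℝ k (w j) x m) atTop (𝓝 (iteratedFDeriv ℝ k v x m)) :=
  ((ContinuousMultilinearMap.apply ℝ (fun _ : Fin k => E n) ℝ m).continuous.tendsto _).comp
    (NLib.Ell.tlu_tendsto h x)

theorem tendsto_val {w : ℕ → E n → ℝ} {v : E n → ℝ}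
    (h : TendstoLocallyUniformly (fun j => iteratedFDeriv ℝ 0 (w j)) (iteratedFDeriv ℝ 0 v) atTop)
    (x : E n) : Tendsto (fun j => w j x) atTop (𝓝 (v x)) := by
  simpa using tendsto_iter_apply h x ![]

theorem tendsto_pd {w : ℕ → E n → ℝ} {v : E n → ℝ}
    (h : TendstoLocallyUniformly (fun j => iteratedFDeriv ℝ 1 (w j)) (iteratedFDeriv ℝ 1 v) atTop)
    (i : Fin n) (x : E n) : Tendsto (fun j => pderiv i (w j) x) atTop (𝓝 (pderiv i v x)) := by
  simpa only [pd_eq_iter1] using tendsto_iter_apply h x ![ee i]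

theorem tendsto_pd2 {w : ℕ → E n → ℝ} {v : E n → ℝ} (hw : ∀ j, ContDiff ℝ 2 (w j))
    (hv : ContDiff ℝ 2 v)
    (h : TendstoLocallyUniformly (fun j => iteratedFDeriv ℝ 2 (w j)) (iteratedFDeriv ℝ 2 v) atTop)
    (i k : Fin n) (x : E n) :
    Tendsto (fun j => pderiv i (pderiv k (w j)) x) atTop (𝓝 (pderiv i (pderiv k v) x)) := by
  simpa only [pd2_eq_iter2 (hw _), pd2_eq_iter2 hv] using tendsto_iter_apply h x ![ee i, ee k]

theorem sqrt_gsq_eq_norm (u : E n → ℝ) (x : E n) : √(gsq u x) = ‖fderiv ℝ u x‖ := by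
  have : gsq u x = ‖fderiv ℝ u x‖ ^ 2 := by
    rw [← Bs.sum_pd_sq]; simp only [gsq, sq]
  rw [this, Real.sqrt_sq (norm_nonneg _)]

/-! ### linear theory -/

theorem ho_of_one {F : Type} [NormedAddCommGroup F] [NormedSpace ℝ F] {g : E n → F}
    (h1 : ContDiff ℝ 1 g) (ha : 0 < a) (ha1 : a ≤ 1) (c : E n) :
    ∃ V, HO a V (closedBall c 1) g := by
  obtain ⟨B0, h0⟩ := (isCompact_closedBall c 1).exists_bound_of_continuousOn
    h1.continuous.continuousOn
  obtain ⟨B1, hB1⟩ := (isCompact_closedBall c 1).exists_bound_of_continuousOn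
    (h1.continuous_fderiv one_ne_zero).continuousOn
  have p0 : 0 ≤ B0 := le_trans (norm_nonneg (g c)) (h0 c (mem_closedBall_self zero_le_one))
  have p1 : 0 ≤ B1 :=
    le_trans (norm_nonneg (fderiv ℝ g c)) (hB1 c (mem_closedBall_self zero_le_one))
  refine ⟨B0 + 3 * B1, fun x hx => (h0 x hx).trans (by linarith), fun x hx y hy => ?_⟩
  have h2 := (convex_closedBall c 1).norm_image_sub_le_of_norm_fderiv_le
    (fun w _ => h1.differentiable one_ne_zero w) hB1 hy hx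
  have h3 : ‖x - y‖ ≤ 2 * 1 := by
    rw [← dist_eq_norm]
    have := dist_triangle_right x y c
    rw [mem_closedBall] at hx hy
    linarith
  have h4 := R238.Sch.le_rpow_of_le (norm_nonneg _) h3 ha ha1
  have hp : 0 ≤ ‖x - y‖ ^ a := Real.rpow_nonneg (norm_nonneg _) _
  nlinarith [mul_le_mul_of_nonneg_left h4 p1, mul_nonneg p0 hp]

theorem ho_D2_of_three (hu : ContDiff ℝ 3 u) (ha : 0 < a) (ha1 : a ≤ 1) (c : E n) :
    ∃ V, HO a V (closedBall c 1) (D2 u) :=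
  ho_of_one ((hu.fderiv_right (m := 2) (by norm_num)).fderiv_right (m := 1) (by norm_num)) ha ha1 c

theorem gSch : GSchStmt := by
  intro n a lo hi M ha ha1 hlo hlohi
  obtain ⟨C, hC, H⟩ := int_schauder_on n ha ha1 hlo hlohi M one_pos le_rfl
  refine ⟨4 * C, by positivity, fun A u N S hell hA hu hq hN hS => ?_⟩
  rw [mul_assoc]
  refine h2_of_c2a hu (NLib.Ell.c2a_glob ha.le ha1.le fun c => ?_)
  refine H c A (fun x _ => hell x) (fun i j => (hb_iff_ho.1 (hA i j)).subset (subset_univ _)) univ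
    isOpen_univ (subset_univ _) u N S hu.contDiffOn ?_ ?_ fun x _ => hS x
  · rcases hq with h3 | ⟨V, hV⟩
    · exact ho_D2_of_three h3 ha ha1.le c
    · exact ⟨_, (c2a_of_h2 hu hV).h2.subset (subset_univ _)⟩
  · rw [← aD2_eq_P2_fun hu]; exact (hb_iff_ho.1 hN).subset (subset_univ _)

theorem maxS : MaxStmt := by
  intro n Λ N B A u hell hu hB h
  rw [aD2_eq_P2_fun hu] at h
  exact NLib.Ell.maxP n 0 Λ le_rfl A u N hell hu ⟨B, hB⟩ h

theorem solve (hS : NLib.Ell.SolveStmt) : SolveStmt := by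
  intro n a lo hi M N ha ha1 hlo hlohi A F hell hA hF
  obtain ⟨z, hz, ⟨V, hV⟩, he⟩ := hS n a lo hi M ha ha1 hlo hlohi A F N hell
    (fun i j => hb_iff_ho.1 (hA i j)) (hb_iff_ho.1 hF)
  exact ⟨z, V, hz, h2_of_c2a hz hV, by rwa [aD2_eq_P2_fun hz]⟩

theorem solve' : SolveStmt := solve NLib.Ell.solve_all

theorem solve0 : Solve0Stmt := by
  intro n a N F ha ha1 hF
  obtain ⟨z, hz, ⟨V, hV⟩, he⟩ := NLib.Ell.solve0' NLib.Ell.gSch' n a ha ha1 F N (hb_iff_ho.1 hF)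
  exact ⟨z, V, hz, h2_of_c2a hz hV, fun x => by rw [← aD2_one, aD2_eq_P2_fun hz]; exact he x⟩

theorem lim (h : NLib.Ell.ArzelaStmt) : LimStmt := by
  intro n F _ _ _ u hu
  exact h n F u hu.1 fun j _ => (hu.2 j 0).imp fun C hC k x _ => hC k x le_rfl

theorem lim' : LimStmt := lim NLib.Ell.arzela

theorem landau : LandauStmt := by
  intro n u x h A B hu hh hA hB i
  exact (Bs.abs_pd_le i u x).trans (R238.Sch.norm_fderiv_le hu hh hA fun y hy => by
    rw [norm_D2_eq]; exact hB y hy)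

theorem decay : DecayStmt := by
  intro n u G A Λ c R M hc hu hM hG H ε hε
  set δ := max M 0 + 1 with hδ
  have hδ0 : 0 < δ := by positivity
  have hl : Tendsto (fun ρ : ℝ => 2 * δ / ρ ^ 2 * (n * |Λ|) + |Λ| * (2 * δ / ρ)) atTop
      (𝓝 (0 * (n * |Λ|) + |Λ| * 0)) :=
    ((tendsto_const_nhds.div_atTop (tendsto_pow_atTop two_ne_zero)).mul_const _).add
      ((tendsto_const_nhds.div_atTop tendsto_id).const_mul _)
  rw [zero_mul, mul_zero, add_zero] at hl
  obtain ⟨ρ, hρ1, hρ⟩ := ((hl.eventually (gt_mem_nhds (half_pos (mul_pos hc hε)))).and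
    (eventually_gt_atTop 0)).exists
  have hGe := hG.eventually (gt_mem_nhds (half_pos (mul_pos hc hε)))
  rw [← Metric.cobounded_eq_cocompact, ← comap_norm_atTop] at hGe ⊢
  rw [eventually_comap] at hGe ⊢
  obtain ⟨T, hT⟩ := eventually_atTop.1 hGe
  filter_upwards [eventually_ge_atTop (max T R + ρ)] with t ht x0 hx0
  by_contra hcon
  push Not at hcon
  obtain ⟨x, h0, h1, h2, h3⟩ := NLib.Ell.oy n u x0 M δ ρ hρ hu.contDiffOn (fun y _ => hM y)
    (by linarith [le_max_left M 0])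
  have hx : max T R ≤ ‖x‖ := by
    have := norm_sub_norm_le x0 x
    rw [norm_sub_rev] at this
    linarith
  obtain ⟨hell, h4⟩ := H x ((le_max_right _ _).trans hx) (by linarith)
  have h5 := NLib.Ell.contr_le le_rfl (by positivity)
    (NLib.Ell.ell_mono hell le_rfl (le_abs_self Λ)) (D2 u x) (NLib.Ell.D2_symm hu.contDiffAt) h3
  rw [aD2_eq_P2_fun hu, sqrt_gsq_eq_norm] at h4
  unfold P2 at h4
  have h6 : Λ * ‖fderiv ℝ u x‖ ≤ |Λ| * (2 * δ / ρ) :=
    mul_le_mul (le_abs_self Λ) h2 (norm_nonneg _) (abs_nonneg _)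
  have h7 := hT ‖x‖ ((le_max_left _ _).trans hx) x rfl
  have h8 : c * ε ≤ c * u x := mul_le_mul_of_nonneg_left (by linarith) hc.le
  linarith

end Crest.Agent.N346.An

end
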