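import Crest.Agent.N346.An.UB
import Crest.Agent.R273.CRegC_933

/-!
Row 346, abstract analysis, task An-K (helper26): `C^{2,a}` solutions of an admissible triangular
system are smooth (bootstrap with the local linear regularity theorem `lin_reg`).
-/

set_option autoImplicit false
open MeasureTheory Filter Topology Set Metric
open scoped ContDiff
open Crest.GeometryTopology.CoordMetric
open Crest.MathPhysics.ExteriorData
open Crest.Agent.R238 (HB Ell Hs)
open Crest.Agent.R273.CReg_933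

noncomputable section

namespace Crest.Agent.N346.An

namespace Smo

variable {n : ℕ} {a : ℝ} {k : ℕ}

/-- vector valued version of `LCK a k univ` -/
def VL {Y : Type} [NormedAddCommGroup Y] [NormedSpace ℝ Y] (a : ℝ) (k : ℕ) (J : E n → Y) : Prop :=
  ∀ L : Y →L[ℝ] ℝ, LCK a k univ fun x => L (J x)

theorem VL.real {u : E n → ℝ} (h : LCK a k univ u) : VL a k u := by
  intro L
  refine (h.mul isOpen_univ (LCK.const (L 1) k univ)).congr isOpen_univ fun x _ => ?_
  have : L (u x) = L (u x • (1 : ℝ)) := by simp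
  rw [this, map_smul, smul_eq_mul]

theorem VL.id (ha : 0 < a) (ha1 : a < 1) : VL a k fun x : E n => x := fun L =>
  lck_of_contDiffOn ha.le ha1.le isOpen_univ k L.contDiff.contDiffOn

theorem VL.prod {Y Z : Type} [NormedAddCommGroup Y] [NormedSpace ℝ Y] [NormedAddCommGroup Z]
    [NormedSpace ℝ Z] {J : E n → Y} {K : E n → Z} (hJ : VL a k J) (hK : VL a k K) :
    VL a k fun x => (J x, K x) := by
  intro L
  refine ((hJ (L.comp (ContinuousLinearMap.inl ℝ Y Z))).add isOpen_univ
    (hK (L.comp (ContinuousLinearMap.inr ℝ Y Z)))).congr isOpen_univ fun x _ => ?_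
  simp only [ContinuousLinearMap.comp_apply, ContinuousLinearMap.inl_apply,
    ContinuousLinearMap.inr_apply]
  rw [← map_add]
  simp

theorem VL.pi {Y : Type} [NormedAddCommGroup Y] [NormedSpace ℝ Y] {J : Fin n → E n → Y}
    (hJ : ∀ i, VL a k (J i)) : VL a k fun x i => J i x := by
  intro L
  refine (LCK.sum isOpen_univ Finset.univ fun i _ =>
    hJ i (L.comp (ContinuousLinearMap.single ℝ (fun _ : Fin n => Y) i))).congr isOpen_univ
      fun x _ => ?_
  simp only [ContinuousLinearMap.comp_apply, ContinuousLinearMap.single_apply]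
  rw [← map_sum, Finset.univ_sum_single]

theorem VL.comp (ha : 0 < a) {Y : Type} [NormedAddCommGroup Y] [NormedSpace ℝ Y]
    [FiniteDimensional ℝ Y] {J : E n → Y} (hJ : VL a k J) {Θ : Y → ℝ} (hΘ : ContDiff ℝ ∞ Θ) :
    LCK a k univ fun x => Θ (J x) := by
  let e := (Module.finBasis ℝ Y).equivFunL
  have h1 : ∀ l, LCK a k univ fun x => e (J x) l := fun l =>
    hJ ((ContinuousLinearMap.proj l).comp (e : Y →L[ℝ] (Fin (Module.finrank ℝ Y) → ℝ)))
  have h2 := LCK.comp ha isOpen_univ h1 (Θ := fun w => Θ (e.symm w))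
    (hΘ.comp e.symm.contDiff)
  refine h2.congr isOpen_univ fun x _ => ?_
  show Θ (e.symm (e (J x))) = Θ (J x)
  rw [e.symm_apply_apply]

theorem vl_st (ha : 0 < a) (ha1 : a < 1) {f z : E n → ℝ} (hf : LCK a (k + 1) univ f)
    (hz : LCK a k univ z) : VL a k (st f z) :=
  (VL.id ha ha1).prod ((VL.real hf.of_succ).prod ((VL.real hz).prod
    (VL.pi fun i => VL.real (hf.pd i))))

theorem vl_xi {f z : E n → ℝ} (hf : LCK a (k + 2) univ f) (hz : LCK a (k + 1) univ z) :
    VL a k (xi f z) :=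
  (VL.pi fun i => VL.real (hz.pd i)).prod
    (VL.pi fun i => VL.pi fun j => VL.real ((hf.pd j).pd i))

theorem lck_two {V : ℝ} {f : E n → ℝ} (hf : ContDiff ℝ 2 f) (h : H2 a V f) : LCK a 2 univ f := by
  refine ⟨LH.of_hb h.1 _, (hf.differentiable (by norm_num)).differentiableOn, fun j =>
    ⟨LH.of_hb (h.2.1 j) _, ?_, fun i => LH.of_hb (h.2.2 i j) _⟩⟩
  have h1 : ContDiff ℝ 1 (fderiv ℝ f) := hf.fderiv_right (m := 1) (by norm_num)
  exact ((h1.clm_apply contDiff_const).differentiable one_ne_zero).differentiableOn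

theorem pd_of_ell {lo hi : ℝ} (hlo : 0 < lo) {A : Matrix (Fin n) (Fin n) ℝ} (h : Ell lo hi A) :
    PD A :=
  ⟨h.1, fun z hz => (mul_pos hlo (sum_sq_pos hz)).trans_le (h.2 z).1⟩

theorem aD2_hs {A : E n → Matrix (Fin n) (Fin n) ℝ} {u : E n → ℝ} (hu : ContDiff ℝ 2 u)
    (x : E n) : ∑ i, ∑ j, A x i j * Hs u x i j = aD2 A u x :=
  Finset.sum_congr rfl fun i _ => Finset.sum_congr rfl fun j _ => by
    rw [← Crest.Agent.R238.Boot.pd_pd_eq hu i j x]; rfl

theorem smooth_of_lck (ha : 0 < a) {u : E n → ℝ} (h : ∀ k, LCK a k univ u) : ContDiff ℝ ∞ u :=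
  contDiff_infty.2 fun k => contDiffOn_univ.1 ((h k).contDiffOn ha isOpen_univ)

end Smo

open Smo in
/-- `C^{2,a}` solutions of an admissible system are smooth. -/
theorem solSmooth {n : ℕ} {S : Sys n} (hA : Adm fun _ : Unit => S) {a V : ℝ} (ha : 0 < a)
    (ha1 : a < 1) {f z : E n → ℝ} (hf : ContDiff ℝ 2 f) (hz : ContDiff ℝ 2 z) (hf2 : H2 a V f)
    (hz2 : H2 a V z)
    (e1 : ∀ x, aD2 (fun y => S.a1 (st f z y)) f x
      = S.c1 (st f z x) + ∑ i, S.b1 (st f z x) i * pderiv i z x)
    (e2 : ∀ x, aD2 (fun y => S.a2 (st f z y)) z x = S.F2 (st f z x, xi f z x)) :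
    S.Sol f z := by
  have hpd : ∀ x, PD (S.a1 (st f z x)) ∧ PD (S.a2 (st f z x)) := by
    intro x
    obtain ⟨lo, hi, hlo, -, h⟩ := hA.ell (N0 (st f z x))
    exact ⟨pd_of_ell hlo (h () _ le_rfl).1, pd_of_ell hlo (h () _ le_rfl).2⟩
  have f2 := lck_two hf hf2
  have z2 := lck_two hz hz2
  have key : ∀ k, LCK a (k + 2) univ f ∧ LCK a (k + 2) univ z := by
    intro k
    induction k with
    | zero => exact ⟨f2, z2⟩
    | succ k ih =>
      obtain ⟨hfk, hzk⟩ := ih
      have hst : VL a (k + 1) (st f z) := vl_st ha ha1 hfk hzk.of_succ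
      have hf3 : LCK a (k + 3) univ f := by
        refine lin_reg ha ha1 isOpen_univ (A := fun y => S.a1 (st f z y))
          (fun x _ => (hpd x).1) k
          (g := fun x => S.c1 (st f z x) + ∑ i, S.b1 (st f z x) i * pderiv i z x) f2
          (fun i j => hst.comp ha ((hA.a1 i j).smooth ())) ?_ fun x _ => ?_
        · exact (hst.comp ha (hA.c1.smooth ())).add isOpen_univ
            (LCK.sum isOpen_univ _ fun i _ =>
              (hst.comp ha ((hA.b1 i).smooth ())).mul isOpen_univ (hzk.pd i))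
        · exact (aD2_hs (A := fun y => S.a1 (st f z y)) hf x).trans (e1 x)
      refine ⟨hf3, ?_⟩
      have hxi : VL a (k + 1) (xi f z) := vl_xi hf3 hzk
      refine lin_reg ha ha1 isOpen_univ (A := fun y => S.a2 (st f z y))
        (fun x _ => (hpd x).2) k (g := fun x => S.F2 (st f z x, xi f z x)) z2
        (fun i j => hst.comp ha ((hA.a2 i j).smooth ()))
        ((hst.prod hxi).comp ha (hA.F2.ub.smooth ())) fun x _ => ?_
      exact (aD2_hs (A := fun y => S.a2 (st f z y)) hz x).trans (e2 x)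
  exact ⟨smooth_of_lck ha fun k => (key k).1.of_le (by omega),
    smooth_of_lck ha fun k => (key k).2.of_le (by omega), e1, e2⟩

end Crest.Agent.N346.An

end
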