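import Crest.Agent.N346.An.ExS
import Crest.Agent.N346.An.Smooth
import Crest.Agent.NLib.Ell.FixedPt

/-!
Row 346, An-EX (helper53): `ex : ExStmt` by the Leray-Schauder theorem.
-/

set_option autoImplicit false
open MeasureTheory Filter Topology Set Metric
open scoped ContDiff BoundedContinuousFunction
open Crest.GeometryTopology.CoordMetric
open Crest.Agent.R238 (HB Ell)
open Crest.Agent.R238.Sch (D2 ee)
open Crest.Agent.R273.SchA_152 Crest.Agent.R273.SchD_152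
open Crest.Agent.R273.SchB_152 (P2)

noncomputable section

namespace Crest.Agent.N346.An.Ex

variable {n : ℕ} {a L M : ℝ}

/-- pairs of jet fields -/
abbrev XX (n : ℕ) : Type := (E n →ᵇ J2 n) × (E n →ᵇ J2 n)

/-- the full state of a pair of jet fields -/
def ys (p : XX n) (x : E n) : Y1 n :=
  ((x, (p.1 x).1, (p.2 x).1, (p.1 x).2.1), (p.2 x).2.1, (p.1 x).2.2)

theorem continuous_ys (x : E n) : Continuous fun p : XX n => ys p x := by
  have h1 : Continuous fun p : XX n => p.1 x := (continuous_eval_const x).comp continuous_fst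
  have h2 : Continuous fun p : XX n => p.2 x := (continuous_eval_const x).comp continuous_snd
  unfold ys
  fun_prop

theorem ys_eq {Q1 W1 Q2 W2 : ℝ} {p : XX n} (hp : p ∈ KK n a L Q1 W1 ×ˢ KK n a L Q2 W2) (x : E n) :
    ys p x = (st (val p.1) (val p.2) x, xi (val p.1) (val p.2) x) := by
  unfold ys
  rw [hp.1.2 x, hp.2.2 x]
  simp only [jet, st, xi, pd2_eq_D2 hp.1.1.c2, pd_eq_fderiv]

/-- dropping the Hessian -/
def drp (n : ℕ) : J2 n →L[ℝ] ℝ × (Fin n → ℝ) :=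
  (ContinuousLinearMap.fst ℝ _ _).prod
    ((ContinuousLinearMap.fst ℝ _ _).comp (ContinuousLinearMap.snd ℝ _ _))

/-- size of a pair of jet fields -/
def sz (p : XX n) : ℝ := max ‖p.1‖ ‖(drp n).compLeftContinuousBounded (E n) p.2‖

theorem continuous_sz : Continuous (sz : XX n → ℝ) :=
  continuous_fst.norm.max
    (((drp n).compLeftContinuousBounded (E n)).continuous.comp continuous_snd).norm

theorem sz_le_iff (hM : 0 ≤ M) {p : XX n} : sz p ≤ M ↔ ∀ x, N1 (ys p x) ≤ M := by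
  simp only [sz, max_le_iff, BoundedContinuousFunction.norm_le hM, N1, ys, Prod.norm_def,
    ContinuousLinearMap.compLeftContinuousBounded_apply, drp, ContinuousLinearMap.prod_apply,
    ContinuousLinearMap.comp_apply, ContinuousLinearMap.coe_fst', ContinuousLinearMap.coe_snd']
  exact ⟨fun h x => ⟨⟨(h.1 x).1, (h.2 x).1, (h.1 x).2.1⟩, (h.2 x).2, (h.1 x).2.2⟩,
    fun h => ⟨fun x => ⟨(h x).1.1, (h x).1.2.2, (h x).2.2⟩, fun x => ⟨(h x).1.2.1, (h x).2.1⟩⟩⟩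

/-- the linear problems in terms of jets -/
def RelJ (S : Sys n) (p q : XX n) : Prop := ∀ x,
  ∑ k, ∑ l, S.a1 (ys p x).1 k l * (q.1 x).2.2 k l - (q.1 x).1
    = S.c1 (ys p x).1 + ∑ i, S.b1 (ys p x).1 i * (q.2 x).2.1 i - (p.1 x).1 ∧
  ∑ k, ∑ l, S.a2 (ys p x).1 k l * (q.2 x).2.2 k l - (q.2 x).1 = S.F2 (ys p x) - (p.2 x).1

theorem relJ_iff {S : Sys n} {Q1 W1 Q2 W2 : ℝ} {p q : XX n}
    (hp : p ∈ KK n a L Q1 W1 ×ˢ KK n a L Q2 W2) (hq : q ∈ KK n a L Q1 W1 ×ˢ KK n a L Q2 W2) :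
    RelJ S p q ↔ Rel S (val p.1) (val p.2) (val q.1) (val q.2) := by
  unfold RelJ
  simp only [ys_eq hp]
  constructor
  · intro h
    refine ⟨fun x => ?_, fun x => ?_⟩
    · have := (h x).1
      rw [hq.1.2 x, hq.2.2 x] at this
      exact this
    · have := (h x).2
      rw [hq.2.2 x] at this
      exact this
  · intro h x
    rw [hq.1.2 x, hq.2.2 x]
    exact ⟨h.e1 x, h.e2 x⟩

/-- joint continuity of coefficients -/
theorem tendsto_coef {Y α : Type} [NormedAddCommGroup Y] [NormedSpace ℝ Y] {N : Y → ℝ}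
    {θ : ℝ → Y → ℝ} (h : UB N fun t : Icc (0 : ℝ) 1 => θ t) (hc : ∀ M, Convex ℝ {y | N y ≤ M})
    (ht : ∀ y, ContinuousOn (fun t => θ t y) (Icc 0 1)) {l : Filter α} {σ : α → ℝ} {y : α → Y}
    {σ0 : ℝ} {y0 : Y} (h0 : σ0 ∈ Icc (0 : ℝ) 1) (hσ : Tendsto σ l (𝓝[Icc 0 1] σ0))
    (hy : Tendsto y l (𝓝 y0)) (hb : ∀ᶠ i in l, N (y i) ≤ M) (hb0 : N y0 ≤ M) :
    Tendsto (fun i => θ (σ i) (y i)) l (𝓝 (θ σ0 y0)) := by
  obtain ⟨C, -, hC⟩ := h.lip hc M
  have t1 : Tendsto (fun i => θ (σ i) y0) l (𝓝 (θ σ0 y0)) := (ht y0 σ0 h0).tendsto.comp hσ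
  have t2 : Tendsto (fun i => θ (σ i) (y i) - θ (σ i) y0) l (𝓝 0) := by
    have t3 : Tendsto (fun i => C * ‖y i - y0‖) l (𝓝 0) := by
      simpa using (tendsto_iff_norm_sub_tendsto_zero.1 hy).const_mul C
    refine squeeze_zero_norm' ?_ t3
    filter_upwards [hb, hσ.eventually self_mem_nhdsWithin] with i h1 h2
    exact hC ⟨σ i, h2⟩ _ _ h1 hb0
  simpa using t2.add t1

theorem relJ_lim {S : ℝ → Sys n} (hA : Adm fun t : Icc (0 : ℝ) 1 => S t) (hC : SysCont S)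
    {α : Type} {l : Filter α} [l.NeBot] {σ : α → ℝ} {p q : α → XX n} {σ0 : ℝ} {p0 q0 : XX n}
    (h0 : σ0 ∈ Icc (0 : ℝ) 1) (hσ : Tendsto σ l (𝓝[Icc 0 1] σ0)) (hp : Tendsto p l (𝓝 p0))
    (hq : Tendsto q l (𝓝 q0)) (hb : ∀ᶠ i in l, ∀ x, N1 (ys (p i) x) ≤ M)
    (hb0 : ∀ x, N1 (ys p0 x) ≤ M) (h : ∀ᶠ i in l, RelJ (S (σ i)) (p i) (q i)) :
    RelJ (S σ0) p0 q0 := by
  intro x
  have ty := ((continuous_ys x).tendsto p0).comp hp
  have ty0 := (continuous_fst.tendsto _).comp ty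
  have c1 : Continuous fun p : XX n => p.1 x := (continuous_eval_const x).comp continuous_fst
  have c2 : Continuous fun p : XX n => p.2 x := (continuous_eval_const x).comp continuous_snd
  have b1 : ∀ᶠ i in l, N1 (ys (p i) x) ≤ M := hb.mono fun i hi => hi x
  have b0 : ∀ᶠ i in l, N0 (ys (p i) x).1 ≤ M := b1.mono fun i hi => (n0_le_n1 _).trans hi
  have b00 := (n0_le_n1 _).trans (hb0 x)
  have k : ∀ {θ : ℝ → Y0 n → ℝ}, (UB N0 fun t : Icc (0 : ℝ) 1 => θ t) →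
      (∀ y, ContinuousOn (fun t => θ t y) (Icc 0 1)) →
      Tendsto (fun i => θ (σ i) (ys (p i) x).1) l (𝓝 (θ σ0 (ys p0 x).1)) := fun h1 h2 =>
    tendsto_coef h1 convex_N0 h2 h0 hσ ty0 b0 b00
  have tq : ∀ {g : XX n → ℝ}, Continuous g → Tendsto (fun i => g (q i)) l (𝓝 (g q0)) :=
    fun hg => (hg.tendsto _).comp hq
  have tp : ∀ {g : XX n → ℝ}, Continuous g → Tendsto (fun i => g (p i)) l (𝓝 (g p0)) :=
    fun hg => (hg.tendsto _).comp hp
  constructor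
  · refine tendsto_nhds_unique_of_eventuallyEq (l := l)
      ((tendsto_finsetSum _ fun j _ => tendsto_finsetSum _ fun m _ =>
        (k (θ := fun t y => (S t).a1 y j m) (hA.a1 j m) fun y => hC.a1 y j m).mul
          (tq (g := fun q => (q.1 x).2.2 j m) (by fun_prop))).sub
        (tq (g := fun q => (q.1 x).1) (by fun_prop)))
      (((k (θ := fun t y => (S t).c1 y) hA.c1 hC.c1).add (tendsto_finsetSum _ fun j _ =>
        (k (θ := fun t y => (S t).b1 y j) (hA.b1 j) fun y => hC.b1 y j).mul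
          (tq (g := fun q => (q.2 x).2.1 j) (by fun_prop)))).sub
        (tp (g := fun q => (q.1 x).1) (by fun_prop))) (h.mono fun i hi => (hi x).1)
  · refine tendsto_nhds_unique_of_eventuallyEq (l := l)
      ((tendsto_finsetSum _ fun j _ => tendsto_finsetSum _ fun m _ =>
        (k (θ := fun t y => (S t).a2 y j m) (hA.a2 j m) fun y => hC.a2 y j m).mul
          (tq (g := fun q => (q.2 x).2.2 j m) (by fun_prop))).sub
        (tq (g := fun q => (q.2 x).1) (by fun_prop)))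
      ((tendsto_coef (θ := fun t y => (S t).F2 y) hA.F2.ub convex_N1 hC.F2 h0 hσ ty b1
        (hb0 x)).sub (tp (g := fun q => (q.2 x).1) (by fun_prop))) (h.mono fun i hi => (hi x).2)

end Ex

open Ex in
theorem ex : ExStmt := by
  classical
  intro n L hL S hA hP hC hc0 hb0 hF0 hM
  obtain ⟨M0, hM0⟩ := hM
  set M := max M0 0 + 1 with hM
  have pM : 0 < M := by positivity
  have ha : (0 : ℝ) < 1 / 2 := by norm_num
  have ha1 : (1 / 2 : ℝ) < 1 := by norm_num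
  obtain ⟨Qf, Qz, W, pf, pz, pW, hstep⟩ := step (L := L) hA (fun t => hP t t.2) ha ha1 M
  obtain ⟨lo, hi, hlo, -, hell⟩ := hA.ell M
  set K : Set (XX n) := KK n (1 / 2) L Qf Qf ×ˢ KK n (1 / 2) L Qz W with hK
  set U : Set (XX n) := {p | sz p < M} with hU
  have oU : IsOpen U := isOpen_lt continuous_sz continuous_const
  have cU : ∀ p ∈ closure U, ∀ x, N1 (ys p x) ≤ M := fun p hp => (sz_le_iff pM.le).1
    (closure_minimal (fun q (hq : sz q < M) => hq.le)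
      (isClosed_le continuous_sz continuous_const) hp)
  have hcomp : IsCompact K := (isCompact_KK ha hL).prod (isCompact_KK ha hL)
  have h0K : (0 : XX n) ∈ K := ⟨zero_mem_KK pf pf, zero_mem_KK pz pW⟩
  have hex : ∀ p ∈ K ∩ closure U, ∀ σ ∈ Icc (0 : ℝ) 1, ∃ q ∈ K, RelJ (S σ) p q := by
    intro p hp σ hσ
    obtain ⟨f', z', cf, cz, hR⟩ := hstep ⟨σ, hσ⟩ _ _ hp.1.1.1 hp.1.2.1 fun x => by
      rw [← ys_eq hp.1]; exact cU p hp.2 x
    obtain ⟨J1, h1, rfl⟩ := cf.exists_mem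
    obtain ⟨J2, h2, rfl⟩ := cz.exists_mem
    exact ⟨(J1, J2), ⟨h1, h2⟩, (relJ_iff hp.1 ⟨h1, h2⟩).2 hR⟩
  have huq : ∀ p ∈ K ∩ closure U, ∀ σ ∈ Icc (0 : ℝ) 1, ∀ q ∈ K, ∀ q' ∈ K, RelJ (S σ) p q →
      RelJ (S σ) p q' → q = q' := by
    intro p hp σ hσ q hq q' hq' h h'
    obtain ⟨e1, e2⟩ := Rel.uniq hlo.le (fun x => hell ⟨σ, hσ⟩ _ (by
      have := cU p hp.2 x
      rw [ys_eq hp.1] at this
      exact (n0_le_n1 (_, _)).trans this)) ((relJ_iff hp.1 hq).1 h) ((relJ_iff hp.1 hq').1 h')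
      hq.1.1 hq.2.1 hq'.1.1 hq'.2.1
    exact Prod.ext (KK.ext hq.1 hq'.1 e1) (KK.ext hq.2 hq'.2 e2)
  let T : XX n → ℝ → XX n := fun p σ => if h : ∃ q ∈ K, RelJ (S σ) p q then h.choose else 0
  have hT : ∀ p ∈ K ∩ closure U, ∀ σ ∈ Icc (0 : ℝ) 1, T p σ ∈ K ∧ RelJ (S σ) p (T p σ) := by
    intro p hp σ hσ
    simp only [T, dif_pos (hex p hp σ hσ)]
    exact (hex p hp σ hσ).choose_spec
  have hfix : ∀ p ∈ K ∩ closure U, ∀ σ ∈ Icc (0 : ℝ) 1, T p σ = p →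
      (S σ).Sol (val p.1) (val p.2) := by
    intro p hp σ hσ e
    have hR := (hT p hp σ hσ).2
    rw [e, relJ_iff hp.1 hp.1] at hR
    have c1 := hp.1.1.1
    have c2 := hp.1.2.1
    refine solSmooth (hA.reindex fun _ : Unit => ⟨σ, hσ⟩) (V := max Qf Qz) ha ha1 c1.c2 c2.c2
      (h2_of_c2a c1.c2 (c1.hq.mono (le_max_left _ _)))
      (h2_of_c2a c2.c2 (c2.hq.mono (le_max_right _ _))) (fun x => ?_) fun x => ?_
    · rw [aD2_eq_P2_fun c1.c2]; linarith [hR.e1 x]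
    · rw [aD2_eq_P2_fun c2.c2]; linarith [hR.e2 x]
  suffices h : ∃ p ∈ K ∩ U, T p 1 = p by
    obtain ⟨p, hp, e⟩ := h
    exact ⟨_, _, hfix p ⟨hp.1, subset_closure hp.2⟩ 1 (right_mem_Icc.2 zero_le_one) e,
      hp.1.1.1.per, hp.1.2.1.per⟩
  refine NLib.Ell.leray_schauder_rel (C := K) (K := K) (U := U)
    (convex_KK.prod convex_KK) hcomp Subset.rfl oU h0K (by simpa [hU, sz] using pM) (T := T)
    (fun w hw => ?_) (fun p hp σ hσ => (hT p hp σ hσ).1) (fun p hp => ?_) fun p hp σ hσ e => ?_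
  · refine hcomp.tendsto_nhds_of_unique_mapClusterPt
      (eventually_mem_nhdsWithin.mono fun v hv => (hT _ hv.1 _ hv.2).1) fun q hq hcl => ?_
    obtain ⟨𝒰, hle, htq⟩ := mapClusterPt_iff_ultrafilter.1 hcl
    have hev : ∀ᶠ v in (𝒰 : Filter (XX n × ℝ)), v ∈ (K ∩ closure U) ×ˢ Icc (0 : ℝ) 1 :=
      hle self_mem_nhdsWithin
    have hid : Tendsto (fun v : XX n × ℝ => v) 𝒰 (𝓝 w) := hle.trans nhdsWithin_le_nhds
    refine huq _ hw.1 _ hw.2 _ hq _ (hT _ hw.1 _ hw.2).1 ?_ (hT _ hw.1 _ hw.2).2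
    exact relJ_lim hA hC (l := (𝒰 : Filter (XX n × ℝ))) (σ := Prod.snd) (p := Prod.fst) hw.2
      (tendsto_nhdsWithin_iff.2 ⟨(continuous_snd.tendsto w).comp hid, hev.mono fun v hv => hv.2⟩)
      ((continuous_fst.tendsto w).comp hid) htq (hev.mono fun v hv => cU _ hv.1.2)
      (cU _ hw.1.2) (hev.mono fun v hv => (hT _ hv.1 _ hv.2).2)
  · have hp' : p ∈ K ∩ closure U := ⟨hp.1, hp.2.1⟩
    have h01 : (0 : ℝ) ∈ Icc (0 : ℝ) 1 := left_mem_Icc.2 zero_le_one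
    refine huq _ hp' _ h01 _ (hT _ hp' _ h01).1 _ h0K (hT _ hp' _ h01).2 fun x => ?_
    simp [hc0, hb0, hF0, ys]
  · have hp' : p ∈ K ∩ closure U := ⟨hp.1, hp.2.1⟩
    refine hp.2.2 ?_
    rw [oU.interior_eq]
    refine lt_of_le_of_lt ((sz_le_iff (le_max_right M0 0)).2 fun x => ?_) (lt_add_one _)
    rw [ys_eq hp.1]
    exact (hM0 σ hσ _ _ (hfix p hp' σ hσ e) hp.1.1.1.per hp.1.2.1.per x).trans (le_max_left _ _)

theorem ex2' : Ex2Stmt := ex2 ex

end Crest.Agent.N346.An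

end
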