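import Crest.Agent.N346.An.UH

/-!
Row 346, An-J (helper28): the bootstrap `boot : GSchStmt → BootStmt`.
-/

set_option autoImplicit false
set_option linter.unusedSectionVars false
open MeasureTheory Filter Topology Set Metric
open scoped ContDiff
open Crest.GeometryTopology.CoordMetric
open Crest.MathPhysics.ExteriorData
open Crest.Agent.R238 (HB Ell)

noncomputable section

namespace Crest.Agent.N346.An

variable {n : ℕ} {ι : Type} {a : ℝ}

theorem three_le_inf : (3 : WithTop ℕ∞) ≤ ∞ := nat_le_inf 3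

theorem two_le_inf : (2 : WithTop ℕ∞) ≤ ∞ := nat_le_inf 2

/-- differentiating `A : d²u` -/
theorem pd_aD2 {A : E n → Matrix (Fin n) (Fin n) ℝ} {u : E n → ℝ}
    (hA : ∀ k l, ContDiff ℝ ∞ fun x => A x k l) (hu : ContDiff ℝ ∞ u) (j : Fin n) (x : E n) :
    aD2 A (pderiv j u) x = pderiv j (aD2 A u) x
      - ∑ k, ∑ l, pderiv j (fun x => A x k l) x * pderiv k (pderiv l u) x := by
  have h2 : ∀ k l, ContDiff ℝ ∞ (pderiv k (pderiv l u)) := fun k l =>
    Bs.contDiff_pd (Bs.contDiff_pd hu l) k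
  have e : pderiv j (aD2 A u) x = ∑ k, ∑ l, (pderiv j (fun x => A x k l) x
      * pderiv k (pderiv l u) x + A x k l * pderiv j (pderiv k (pderiv l u)) x) := by
    unfold aD2
    rw [Bs.pd_sum fun k _ => Bs.smooth_diff (ContDiff.sum fun l _ => (hA k l).mul (h2 k l)) x]
    refine Finset.sum_congr rfl fun k _ => ?_
    rw [Bs.pd_sum fun l _ => Bs.smooth_diff ((hA k l).mul (h2 k l)) x]
    exact Finset.sum_congr rfl fun l _ =>
      Bs.pd_mul (Bs.smooth_diff (hA k l) x) (Bs.smooth_diff (h2 k l) x) j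
  have c : ∀ k l, pderiv j (pderiv k (pderiv l u)) x = pderiv k (pderiv l (pderiv j u)) x := by
    intro k l
    rw [Bs.pd_comm ((Bs.contDiff_pd hu l).of_le two_le_inf).contDiffAt,
      show pderiv j (pderiv l u) = pderiv l (pderiv j u) from
        funext fun y => Bs.pd_comm (hu.of_le two_le_inf).contDiffAt j l]
  simp only [e, c, Finset.sum_add_distrib, aD2]
  ring

/-- linear higher order Schauder estimate -/
theorem lin_uh (hG : GSchStmt) (ha : 0 < a) (ha1 : a < 1) {lo hi : ℝ} (hlo : 0 < lo)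
    (hhi : lo ≤ hi) {A : ι → E n → Matrix (Fin n) (Fin n) ℝ} (hE : ∀ i x, Ell lo hi (A i x)) :
    ∀ (k : ℕ) {u : ι → E n → ℝ}, (∀ p q, UH a k fun i x => A i x p q) →
      (∀ i, ContDiff ℝ ∞ (u i)) → (∃ S, ∀ i x, |u i x| ≤ S) →
      (UH a k fun i => aD2 (A i) (u i)) → UH a (k + 2) u := by
  intro k
  induction k with
  | zero =>
    intro u hA hu ⟨S, hS⟩ hg
    obtain ⟨M, -, hM⟩ := hb_common fun p : Fin n × Fin n => (hA p.1 p.2).u0.2
    obtain ⟨N, hN⟩ := hg.u0.2
    obtain ⟨C, -, hC⟩ := hG n a lo hi M ha ha1 hlo hhi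
    exact UH.of_H2 hu fun i => hC (A i) (u i) N S (hE i) (fun p q => hM (p, q) i)
      ((hu i).of_le two_le_inf) (Or.inl ((hu i).of_le three_le_inf)) (hN i) (hS i)
  | succ k ih =>
    intro u hA hu hS hg
    have h2 : UH a (k + 2) u := ih (fun p q => (hA p q).pred) hu hS hg.pred
    refine ⟨h2.u0, fun j => ih (fun p q => (hA p q).pred) (fun i => Bs.contDiff_pd (hu i) j)
      (h2.pd j).u0.bdd ?_⟩
    exact ((hg.pd j).sub (UH.sum Finset.univ fun p _ => UH.sum Finset.univ fun q _ =>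
      ((hA p q).pd j).mul ((h2.pd q).pd p))).congr fun i x =>
        pd_aD2 (fun p q => (hA p q).smooth i) (hu i) j x

/-- **R5** -/
theorem boot (hG : GSchStmt) : BootStmt := by
  intro n ι S f z hA hS β K hβ hβ1 hH
  have hf2 : UH β 2 f := UH.of_H2 (fun i => (hS i).sf) fun i => (hH i).1
  have hz2 : UH β 2 z := UH.of_H2 (fun i => (hS i).sz) fun i => (hH i).2
  obtain ⟨M, hM⟩ := n0_bdd hf2.pred hz2.pred.pred
  obtain ⟨lo, hi, hlo, hhi, hE⟩ := hA.ell M
  have key : ∀ k, UH β (k + 2) f ∧ UH β (k + 1) z := by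
    intro k
    induction k with
    | zero => exact ⟨hf2, hz2.pred⟩
    | succ k ih =>
      obtain ⟨hf, hz⟩ := ih
      have hz' : UH β (k + 2) z := lin_uh hG hβ hβ1 hlo hhi
        (A := fun i y => (S i).a2 (st (f i) (z i) y)) (fun i x => (hE i _ (hM i x)).2) k
        (fun p q => (hA.a2 p q).along_uh hβ hβ1.le hf.pred hz.pred) hz.smooth hz.u0.bdd
        ((hA.F2.ub.along1_uh hβ hβ1.le hf hz).congr fun i x => (hS i).e2 x)
      refine ⟨lin_uh hG hβ hβ1 hlo hhi
        (A := fun i y => (S i).a1 (st (f i) (z i) y)) (fun i x => (hE i _ (hM i x)).1) (k + 1)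
        (fun p q => (hA.a1 p q).along_uh hβ hβ1.le hf hz) hf.smooth hf.u0.bdd ?_, hz'⟩
      exact ((hA.c1.along_uh hβ hβ1.le hf hz).add (UH.sum Finset.univ fun p _ =>
        ((hA.b1 p).along_uh hβ hβ1.le hf hz).mul (hz'.pd p))).congr fun i x => (hS i).e1 x
  exact ⟨uc_of_uh fun k => (key k).1.le (by omega), uc_of_uh fun k => (key k).2.pred⟩

end Crest.Agent.N346.An

end
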