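import Crest.Agent.N346.An.UB

/-!
Row 346, An-H: freezing the coefficients, `freeze : FreezeStmt`.
-/

set_option autoImplicit false
open MeasureTheory Filter Topology Set Metric
open scoped ContDiff
open Crest.GeometryTopology.CoordMetric
open Crest.MathPhysics.ExteriorData
open Crest.Agent.R238 (HB Ell)

noncomputable section

namespace Crest.Agent.N346.An

variable {n : ℕ} {ι : Type}

/-- finitely many families form one family -/
theorem UB.fin {Y F α : Type} [NormedAddCommGroup Y] [NormedSpace ℝ Y] [NormedAddCommGroup F]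
    [NormedSpace ℝ F] [Finite α] {N : Y → ℝ} {Θ : α → ι → Y → F} (h : ∀ a, UB N (Θ a)) :
    UB N fun p : α × ι => Θ p.1 p.2 := by
  refine ⟨fun p => (h p.1).1 p.2, fun k M => ?_⟩
  choose C hC using fun a => (h a).2 k M
  obtain ⟨B, hB⟩ := (Set.finite_range C).bddAbove
  exact ⟨B, fun p y hy => (hC p.1 p.2 y hy).trans (hB ⟨p.1, rfl⟩)⟩

theorem ell_mono {lo hi lo' hi' : ℝ} {A : Matrix (Fin n) (Fin n) ℝ} (h : Ell lo hi A)
    (h1 : lo' ≤ lo) (h2 : hi ≤ hi') : Ell lo' hi' A := by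
  refine ⟨h.1, fun w => ?_⟩
  have h0 : 0 ≤ ∑ i, w i ^ 2 := Finset.sum_nonneg fun _ _ => sq_nonneg _
  exact ⟨(mul_le_mul_of_nonneg_right h1 h0).trans (h.2 w).1,
    (h.2 w).2.trans (mul_le_mul_of_nonneg_right h2 h0)⟩

theorem abs_f_le (y : Y0 n) : |y.2.1| ≤ N0 y := norm_fst_le y.2

theorem abs_z_le (y : Y0 n) : |y.2.2.1| ≤ N0 y := (norm_fst_le y.2.2).trans (norm_snd_le y.2)

theorem abs_p_le (y : Y0 n) (k : Fin n) : |y.2.2.2 k| ≤ N0 y :=
  (norm_le_pi_norm y.2.2.2 k).trans ((norm_snd_le y.2.2).trans (norm_snd_le y.2))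

theorem norm_fderiv_le_of_pd {u : E n → ℝ} {x : E n} {M : ℝ} (hM : 0 ≤ M)
    (h : ∀ k, |pderiv k u x| ≤ M) : ‖fderiv ℝ u x‖ ≤ n * M := by
  refine ContinuousLinearMap.opNorm_le_bound _ (by positivity) fun w => ?_
  rw [Bs.fderiv_eq_sum]
  refine (Finset.abs_sum_le_sum_abs _ _).trans ?_
  calc ∑ i, |pderiv i u x * w i| ≤ ∑ _i : Fin n, M * ‖w‖ := Finset.sum_le_sum fun i _ => by
        rw [abs_mul]
        exact mul_le_mul (h i) (PiLp.norm_apply_le w i) (abs_nonneg _) hM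
    _ = _ := by simp [mul_assoc]

theorem osc_nonneg (f z : E n → ℝ) (zb : ℝ) (pb : Fin n → ℝ) (x : E n) :
    0 ≤ osc f z zb pb x := Real.sqrt_nonneg _

theorem abs_z_le_osc (f z : E n → ℝ) (zb : ℝ) (pb : Fin n → ℝ) (x : E n) :
    |z x - zb| ≤ osc f z zb pb x :=
  Real.abs_le_sqrt (le_add_of_nonneg_right (Finset.sum_nonneg fun _ _ => sq_nonneg _))

theorem abs_p_le_osc (f z : E n → ℝ) (zb : ℝ) (pb : Fin n → ℝ) (x : E n) (k : Fin n) :
    |pderiv k f x - pb k| ≤ osc f z zb pb x :=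
  Real.abs_le_sqrt (le_add_of_nonneg_of_le (sq_nonneg _)
    (Finset.single_le_sum (f := fun i => (pderiv i f x - pb i) ^ 2) (fun _ _ => sq_nonneg _)
      (Finset.mem_univ k)))

namespace Frz

/-- the frozen state -/
def yb (f : E n → ℝ) (x0 : E n) (zb : ℝ) (pb : Fin n → ℝ) : Y0 n := (x0, f x0, zb, pb)

/-- distance from the frozen state -/
def dd (f z : E n → ℝ) (x0 : E n) (zb : ℝ) (pb : Fin n → ℝ) (x : E n) : ℝ :=
  ‖x - x0‖ + osc f z zb pb x

theorem dd_nonneg (f z : E n → ℝ) (x0 : E n) (zb : ℝ) (pb : Fin n → ℝ) (x : E n) :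
    0 ≤ dd f z x0 zb pb x := add_nonneg (norm_nonneg _) (osc_nonneg _ _ _ _ _)

variable {f z : E n → ℝ} {M zb : ℝ} {pb : Fin n → ℝ}

theorem n0_yb (hb : ∀ x, N0 (st f z x) ≤ M) (x0 : E n) (hz : |zb| ≤ M) (hp : ∀ k, |pb k| ≤ M) :
    N0 (yb f x0 zb pb) ≤ M :=
  norm_prod_le_iff.2 ⟨(abs_f_le (st f z x0)).trans (hb x0), norm_prod_le_iff.2
    ⟨hz, (pi_norm_le_iff_of_nonneg ((abs_nonneg _).trans hz)).2 hp⟩⟩

theorem st_sub_le (hf : ContDiff ℝ ∞ f) (hM : 0 ≤ M) (hb : ∀ x, N0 (st f z x) ≤ M) (x0 x : E n) :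
    ‖st f z x - yb f x0 zb pb‖ ≤ (1 + n * M) * dd f z x0 zb pb x := by
  have h1 : ‖f x - f x0‖ ≤ n * M * ‖x - x0‖ :=
    convex_univ.norm_image_sub_le_of_norm_fderiv_le (fun y _ => Bs.smooth_diff hf y)
      (fun y _ => norm_fderiv_le_of_pd hM fun k => (abs_p_le (st f z y) k).trans (hb y))
      (mem_univ x0) (mem_univ x)
  have h2 := osc_nonneg f z zb pb x
  have h3 := norm_nonneg (x - x0)
  have h4 : 0 ≤ n * M := by positivity
  have h5 : osc f z zb pb x ≤ (1 + n * M) * dd f z x0 zb pb x := by unfold dd; nlinarith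
  refine norm_prod_le_iff.2 ⟨?_, norm_prod_le_iff.2 ⟨h1.trans ?_, norm_prod_le_iff.2
    ⟨(abs_z_le_osc f z zb pb x).trans h5, (pi_norm_le_iff_of_nonneg (h2.trans h5)).2 fun k =>
      (abs_p_le_osc f z zb pb x k).trans h5⟩⟩⟩
  · show ‖x - x0‖ ≤ _
    unfold dd; nlinarith
  · unfold dd; nlinarith

theorem lip_frz {Θ : ι → Y0 n → ℝ} (h : UB N0 Θ) (hM : 0 ≤ M) :
    ∃ L, 0 ≤ L ∧ ∀ i (f z : E n → ℝ), ContDiff ℝ ∞ f → (∀ x, N0 (st f z x) ≤ M) →
      ∀ x0 zb pb, |zb| ≤ M → (∀ k, |pb k| ≤ M) → ∀ x,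
        |Θ i (st f z x) - Θ i (yb f x0 zb pb)| ≤ L * dd f z x0 zb pb x := by
  obtain ⟨C, hC0, hC⟩ := h.lip convex_N0 M
  refine ⟨C * (1 + n * M), by positivity, fun i f z hf hb x0 zb pb hz hp x => ?_⟩
  rw [mul_assoc]
  exact (hC i _ _ (hb x) (n0_yb hb x0 hz hp)).trans
    (mul_le_mul_of_nonneg_left (st_sub_le hf hM hb x0 x) hC0)

/-- null Lagrangian -/
theorem null_div {W : Fin n → E n → ℝ} (hW : ∀ k, ContDiff ℝ ∞ (W k)) (w : Fin n → ℝ) (x : E n) :
    ∑ k, pderiv k (fun x => ∑ j, (w j * pderiv j (W k) x - w k * pderiv j (W j) x)) x = 0 := by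
  have h1 : ∀ k, pderiv k (fun x => ∑ j, (w j * pderiv j (W k) x - w k * pderiv j (W j) x)) x
      = ∑ j, (w j * pderiv k (pderiv j (W k)) x - w k * pderiv k (pderiv j (W j)) x) := by
    intro k
    rw [Bs.pd_sum fun j _ => Bs.smooth_diff (by have := hW k; have := hW j; fun_prop) x]
    refine Finset.sum_congr rfl fun j _ => ?_
    rw [Bs.pd_sub (Bs.smooth_diff (by have := hW k; fun_prop) x)
      (Bs.smooth_diff (by have := hW j; fun_prop) x), Bs.pd_const_mul, Bs.pd_const_mul]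
  simp only [h1]
  simp only [Finset.sum_sub_distrib]
  rw [Finset.sum_comm, sub_eq_zero]
  exact Finset.sum_congr rfl fun k _ => Finset.sum_congr rfl fun j _ => by
    rw [Bs.pd_comm ((hW j).of_le (nat_le_inf 2)).contDiffAt]

theorem abs_sum_le {α : Type} [Fintype α] {u : α → ℝ} {B : ℝ} (h : ∀ a, |u a| ≤ B) :
    |∑ a, u a| ≤ Fintype.card α * B :=
  (Finset.abs_sum_le_sum_abs _ _).trans ((Finset.sum_le_sum fun a _ => h a).trans (by simp))

theorem abs_sum_fin {u : Fin n → ℝ} {B : ℝ} (h : ∀ a, |u a| ≤ B) : |∑ a, u a| ≤ n * B := by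
  simpa using abs_sum_le h

theorem abs_mul_le' {a b A B : ℝ} (ha : |a| ≤ A) (hb : |b| ≤ B) : |a * b| ≤ A * B := by
  rw [abs_mul]; exact mul_le_mul ha hb (abs_nonneg _) ((abs_nonneg _).trans ha)

theorem cacc_part {f z : ι → E n → ℝ} (sf : ∀ i, ContDiff ℝ ∞ (f i))
    (sz : ∀ i, ContDiff ℝ ∞ (z i)) (hM : 0 ≤ M) (hb : ∀ i x, N0 (st (f i) (z i) x) ≤ M)
    {c C : ℝ} {VE VG : ι → VectorField n} {ρ : ι → Y0 n → ℝ} {W1 W2 : ι → Y0 n → Fin n → ℝ}
    (hc : 0 < c) (hC : 0 ≤ C) (hρ : UB N0 ρ) (hρ0 : ∀ i y, 0 ≤ ρ i y)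
    (h1 : ∀ k, UB N0 fun i y => W1 i y k) (h2 : ∀ k, UB N0 fun i y => W2 i y k)
    (hE : ∀ i k, ContDiff ℝ 1 fun x => VE i x k) (hG : ∀ i k, ContDiff ℝ 1 fun x => VG i x k)
    (a1 : ∀ i x, c * en (f i) (z i) x - C ≤ divE (VE i) x)
    (a2 : ∀ i x, divE (VG i) x ≤ C - c * en (f i) (z i) x)
    (a4 : ∀ i x k, |VG i x k| ≤ C * (1 + √(gsq (z i) x)))
    (a5 : ∀ i x k, |VE i x k - ρ i (st (f i) (z i) x) * VG i x k
        - ∑ j, (W1 i (st (f i) (z i) x) j * pderiv j (fun y => W2 i (st (f i) (z i) y) k) x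
          - W1 i (st (f i) (z i) x) k * pderiv j (fun y => W2 i (st (f i) (z i) y) j) x)| ≤ C) :
    ∃ K0, ∀ K, K0 ≤ K → ∀ i (x0 : E n) (zb : ℝ) (pb : Fin n → ℝ), |zb| ≤ M →
      (∀ k, |pb k| ≤ M) → ∃ V : VectorField n, (∀ k, ContDiff ℝ 1 fun x => V x k) ∧ ∀ x,
      c * en (f i) (z i) x - K ≤ divE V x ∧ ∀ k, |V x k| ≤
        K * (1 + (‖x - x0‖ + osc (f i) (z i) zb pb x) * (1 + √(en (f i) (z i) x))) := by
  obtain ⟨B, hB0, hB⟩ := hρ.bdd M
  obtain ⟨L, hL0, hL⟩ := lip_frz hρ hM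
  obtain ⟨L1, hL10, hL1⟩ := lip_frz (UB.fin h1) hM
  obtain ⟨D, hD0, hD⟩ := (UB.fin h2).pd_along_le M
  refine ⟨C + B * C + L * C + n * (2 * (L1 * D)), fun K hK i x0 zb pb hz hp => ?_⟩
  have hn : 0 ≤ n * (2 * (L1 * D)) := by positivity
  have hBC := mul_nonneg hB0 hC
  have hLC := mul_nonneg hL0 hC
  have hW : ∀ k, ContDiff ℝ ∞ fun y => W2 i (st (f i) (z i) y) k := fun k =>
    ((h2 k).1 i).comp (contDiff_st (sf i) (sz i))
  set y0 := yb (f i) x0 zb pb with hy0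
  have hN : ∀ k, ContDiff ℝ ∞ fun x => ∑ j,
      (W1 i y0 j * pderiv j (fun y => W2 i (st (f i) (z i) y) k) x
        - W1 i y0 k * pderiv j (fun y => W2 i (st (f i) (z i) y) j) x) := fun k =>
    ContDiff.sum fun j _ => (contDiff_const.mul (Bs.contDiff_pd (hW k) j)).sub
      (contDiff_const.mul (Bs.contDiff_pd (hW j) j))
  refine ⟨fun x k => VE i x k - ρ i y0 * VG i x k - ∑ j,
      (W1 i y0 j * pderiv j (fun y => W2 i (st (f i) (z i) y) k) x
        - W1 i y0 k * pderiv j (fun y => W2 i (st (f i) (z i) y) j) x),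
    fun k => ((hE i k).sub (contDiff_const.mul (hG i k))).sub (Bs.smooth_one (hN k)),
    fun x => ⟨?_, fun k => ?_⟩⟩
  · have e : ∀ k, pderiv k (fun x => VE i x k - ρ i y0 * VG i x k - ∑ j,
        (W1 i y0 j * pderiv j (fun y => W2 i (st (f i) (z i) y) k) x
          - W1 i y0 k * pderiv j (fun y => W2 i (st (f i) (z i) y) j) x)) x
        = pderiv k (fun x => VE i x k) x - ρ i y0 * pderiv k (fun x => VG i x k) x
          - pderiv k (fun x => ∑ j,
            (W1 i y0 j * pderiv j (fun y => W2 i (st (f i) (z i) y) k) x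
              - W1 i y0 k * pderiv j (fun y => W2 i (st (f i) (z i) y) j) x)) x := by
      intro k
      have d1 := (hE i k).differentiable one_ne_zero x
      have d2 := (hG i k).differentiable one_ne_zero x
      rw [Bs.pd_sub (d1.fun_sub (d2.const_mul _)) (Bs.smooth_diff (hN k) x),
        Bs.pd_sub d1 (d2.const_mul _), Bs.pd_const_mul]
    simp only [divE, e]
    rw [Finset.sum_sub_distrib, null_div hW, Finset.sum_sub_distrib, ← Finset.mul_sum]
    have b1 := a1 i x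
    have b2 := mul_le_mul_of_nonneg_left (a2 i x) (hρ0 i y0)
    have b3 : ρ i y0 ≤ B := (le_abs_self _).trans (hB i y0 (n0_yb (hb i) x0 hz hp))
    have b4 := mul_nonneg (hρ0 i y0) (mul_nonneg hc.le (en_nonneg (f i) (z i) x))
    have b5 := mul_le_mul_of_nonneg_right b3 hC
    unfold divE at b1 b2
    linarith
  · change _ ≤ K * (1 + dd (f i) (z i) x0 zb pb x * _)
    have b0 := dd_nonneg (f i) (z i) x0 zb pb x
    have b1 := hL i _ _ (sf i) (hb i) x0 zb pb hz hp x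
    have b2 := fun j => hL1 (j, i) _ _ (sf i) (hb i) x0 zb pb hz hp x
    have b3 := fun j l => hD (l, i) _ _ (sf i) (sz i) x j (hb i x)
    have b4 : |VG i x k| ≤ C * (1 + √(en (f i) (z i) x)) := (a4 i x k).trans (by
      gcongr; exact gsq_le_en _ _ _)
    have b5 := a5 i x k
    have hs : 0 ≤ 1 + √(en (f i) (z i) x) := by positivity
    simp only [← hy0] at b1 b2 b3
    generalize dd (f i) (z i) x0 zb pb x = δ at *
    generalize 1 + √(en (f i) (z i) x) = s at *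
    have b6 := abs_mul_le' b1 b4
    have b7 : |∑ j, ((W1 i (st (f i) (z i) x) j - W1 i y0 j) *
        pderiv j (fun y => W2 i (st (f i) (z i) y) k) x
        - (W1 i (st (f i) (z i) x) k - W1 i y0 k) *
          pderiv j (fun y => W2 i (st (f i) (z i) y) j) x)| ≤ n * (2 * (L1 * δ * (D * s))) :=
      abs_sum_fin fun j => (abs_sub _ _).trans (by
        linarith [abs_mul_le' (b2 j) (b3 j k), abs_mul_le' (b2 k) (b3 j j)])
    have b8 := (abs_add_three _ _ _).trans (add_le_add (add_le_add b5 b6) b7)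
    have hδ := mul_nonneg b0 hs
    calc _ = _ := by
          congr 1
          simp only [sub_mul, Finset.sum_sub_distrib]
          ring
      _ ≤ _ := b8
      _ = C + (L * C + n * (2 * (L1 * D))) * (δ * s) := by ring
      _ ≤ K + K * (δ * s) := by gcongr <;> linarith
      _ = _ := by ring

theorem frz_part {S : ι → Sys n} {f z : ι → E n → ℝ} (hA : Adm S)
    (hs : ∀ i, (S i).Sol (f i) (z i)) (hM : 0 ≤ M) (hb : ∀ i x, N0 (st (f i) (z i) x) ≤ M) :
    ∃ c0 K0, 0 < c0 ∧ ∀ c K, c ≤ c0 → K0 ≤ K → ∀ i (x0 : E n) (zb : ℝ) (pb : Fin n → ℝ),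
      |zb| ≤ M → (∀ k, |pb k| ≤ M) →
      ∃ (A1 A2 : Matrix (Fin n) (Fin n) ℝ) (b : Fin n → ℝ) (G : VectorField n),
      Ell c K A1 ∧ Ell c K A2 ∧ (∀ k, |b k| ≤ K) ∧ (∀ k, ContDiff ℝ 1 fun x => G x k) ∧ ∀ x,
      |aD2 (fun _ => A2) (z i) x - divE G x| ≤ K * (1 + en (f i) (z i) x) ∧
      (∀ k, |G x k| ≤ K * ((‖x - x0‖ + osc (f i) (z i) zb pb x) * √(en (f i) (z i) x))) ∧
      |aD2 (fun _ => A1) (f i) x - ∑ k, b k * pderiv k (z i) x|
        ≤ K * (1 + (‖x - x0‖ + osc (f i) (z i) zb pb x) * √(en (f i) (z i) x)) := by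
  obtain ⟨lo, hi, hlo, hlh, hell⟩ := hA.ell M
  obtain ⟨L1, hL10, hL1⟩ := lip_frz (UB.fin fun p : Fin n × Fin n => hA.a1 p.1 p.2) hM
  obtain ⟨L2, hL20, hL2⟩ := lip_frz (UB.fin fun p : Fin n × Fin n => hA.a2 p.1 p.2) hM
  obtain ⟨L3, hL30, hL3⟩ := lip_frz (UB.fin hA.b1) hM
  obtain ⟨B, hB0, hB⟩ := (UB.fin hA.b1).bdd M
  obtain ⟨B', hB0', hB'⟩ := hA.c1.bdd M
  obtain ⟨D, hD0, hD⟩ := (UB.fin fun p : Fin n × Fin n => hA.a2 p.1 p.2).pd_along_le M
  obtain ⟨P, hP0, hP⟩ := hA.F2.bound M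
  refine ⟨lo, hi + B + B' + n * L2 + (n * (n * L1) + n * L3) + (2 * P + n * (n * (2 * D))), hlo,
    fun c K hc hK i x0 zb pb hz hp => ?_⟩
  have p1 : 0 ≤ n * L2 := by positivity
  have p2 : 0 ≤ n * (n * L1) + n * L3 := by positivity
  have p3 : 0 ≤ 2 * P + n * (n * (2 * D)) := by positivity
  have hhi : 0 < hi := hlo.trans_le hlh
  have sf := (hs i).sf
  have sz := (hs i).sz
  have hy := n0_yb (hb i) x0 hz hp
  set y0 := yb (f i) x0 zb pb with hy0
  have ha : ∀ k j, ContDiff ℝ ∞ fun x => (S i).a2 (st (f i) (z i) x) k j := fun k j =>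
    ((hA.a2 k j).1 i).comp (contDiff_st sf sz)
  have hg : ∀ k j, ContDiff ℝ ∞ fun x =>
      ((S i).a2 y0 k j - (S i).a2 (st (f i) (z i) x) k j) * pderiv j (z i) x := fun k j =>
    (contDiff_const.sub (ha k j)).mul (Bs.contDiff_pd sz j)
  refine ⟨(S i).a1 y0, (S i).a2 y0, (S i).b1 y0, fun x k => ∑ j,
      ((S i).a2 y0 k j - (S i).a2 (st (f i) (z i) x) k j) * pderiv j (z i) x,
    ell_mono (hell i y0 hy).1 hc (by linarith), ell_mono (hell i y0 hy).2 hc (by linarith),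
    fun k => (hB (k, i) y0 hy).trans (by linarith),
    fun k => Bs.smooth_one (ContDiff.sum fun j _ => hg k j), fun x => ?_⟩
  change _ ∧ (∀ k, _ ≤ K * (dd (f i) (z i) x0 zb pb x * _)) ∧
    _ ≤ K * (1 + dd (f i) (z i) x0 zb pb x * _)
  have b0 := dd_nonneg (f i) (z i) x0 zb pb x
  have b1 := fun k j => hL1 ((k, j), i) _ _ sf (hb i) x0 zb pb hz hp x
  have b2 := fun k j => hL2 ((k, j), i) _ _ sf (hb i) x0 zb pb hz hp x
  have b3 := fun k => hL3 (k, i) _ _ sf (hb i) x0 zb pb hz hp x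
  have b4 := fun k j => hD ((k, j), i) _ _ sf sz x k (hb i x)
  have b5 := fun k => (abs_pd_le_gsq (z i) x k).trans (Real.sqrt_le_sqrt (gsq_le_en (f i) (z i) x))
  have b6 := abs_pd2_le_en (f i) (z i) x
  have b7 : |(S i).F2 (st (f i) (z i) x, xi (f i) (z i) x)| ≤ P * (1 + √(en (f i) (z i) x)) ^ 2 :=
    (hP i _ (hb i x)).trans (by gcongr; exact norm_xi_le _ _ _)
  have b8 : |(S i).c1 (st (f i) (z i) x)| ≤ B' := hB' i _ (hb i x)
  have e1 := (hs i).e1 x
  have e2 := (hs i).e2 x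
  have hsq := Real.sq_sqrt (en_nonneg (f i) (z i) x)
  have hs0 := Real.sqrt_nonneg (en (f i) (z i) x)
  simp only [← hy0] at b1 b2 b3 b4
  generalize dd (f i) (z i) x0 zb pb x = δ at *
  generalize √(en (f i) (z i) x) = s at *
  have hδ := mul_nonneg b0 hs0
  refine ⟨?_, fun k => ?_, ?_⟩
  · have e : ∀ k, pderiv k (fun x => ∑ j,
        ((S i).a2 y0 k j - (S i).a2 (st (f i) (z i) x) k j) * pderiv j (z i) x) x
        = ∑ j, (-pderiv k (fun x => (S i).a2 (st (f i) (z i) x) k j) x * pderiv j (z i) x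
          + ((S i).a2 y0 k j - (S i).a2 (st (f i) (z i) x) k j)
            * pderiv k (pderiv j (z i)) x) := by
      intro k
      rw [Bs.pd_sum fun j _ => Bs.smooth_diff (hg k j) x]
      refine Finset.sum_congr rfl fun j _ => ?_
      rw [Bs.pd_mul (Bs.smooth_diff (contDiff_const.sub (ha k j)) x)
        (Bs.smooth_diff (Bs.contDiff_pd sz j) x), Bs.pd_const_sub]
    have c1 : |∑ k, ∑ j, pderiv k (fun x => (S i).a2 (st (f i) (z i) x) k j) x
        * pderiv j (z i) x| ≤ n * (n * (D * (1 + s) * s)) :=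
      abs_sum_fin fun k => abs_sum_fin fun j => abs_mul_le' (b4 k j) (b5 j)
    have c2 := (abs_add_le _ _).trans (add_le_add b7 c1)
    have c3 : (1 + s) ^ 2 ≤ 2 * (1 + s ^ 2) := by nlinarith [sq_nonneg (s - 1)]
    have c4 : (1 + s) * s ≤ 2 * (1 + s ^ 2) := by nlinarith [sq_nonneg (s - 1)]
    calc _ = _ := by
          congr 1
          rw [← e2]
          simp only [divE, e]
          simp only [aD2, sub_mul, neg_mul, Finset.sum_add_distrib,
            Finset.sum_sub_distrib, Finset.sum_neg_distrib]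
          ring
      _ ≤ _ := c2
      _ = P * (1 + s) ^ 2 + n * (n * D) * ((1 + s) * s) := by ring
      _ ≤ P * (2 * (1 + s ^ 2)) + n * (n * D) * (2 * (1 + s ^ 2)) := by gcongr
      _ = (2 * P + n * (n * (2 * D))) * (1 + s ^ 2) := by ring
      _ ≤ K * (1 + s ^ 2) := by gcongr; linarith
      _ = _ := by rw [hsq]
  · calc _ ≤ n * (L2 * δ * s) :=
          abs_sum_fin fun j => abs_mul_le' ((abs_sub_comm _ _).trans_le (b2 k j)) (b5 j)
      _ = n * L2 * (δ * s) := by ring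
      _ ≤ _ := by gcongr; linarith
  · have c1 : |∑ k, ∑ j, ((S i).a1 y0 k j - (S i).a1 (st (f i) (z i) x) k j)
        * pderiv k (pderiv j (f i)) x| ≤ n * (n * (L1 * δ * s)) :=
      abs_sum_fin fun k => abs_sum_fin fun j =>
        abs_mul_le' ((abs_sub_comm _ _).trans_le (b1 k j)) (b6 k j)
    have c2 : |∑ k, ((S i).b1 (st (f i) (z i) x) k - (S i).b1 y0 k) * pderiv k (z i) x|
        ≤ n * (L3 * δ * s) := abs_sum_fin fun k => abs_mul_le' (b3 k) (b5 k)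
    have c3 := (abs_add_three _ _ _).trans (add_le_add (add_le_add b8 c1) c2)
    calc _ = _ := by
          congr 1
          simp only [aD2, sub_mul, Finset.sum_sub_distrib] at e1 ⊢
          linarith
      _ ≤ _ := c3
      _ = B' + (n * (n * L1) + n * L3) * (δ * s) := by ring
      _ ≤ K + K * (δ * s) := by gcongr <;> linarith
      _ = _ := by ring

end Frz

/-- **R0** -/
theorem freeze : FreezeStmt := by
  intro n ι S f z hA hR
  obtain ⟨M0, hM0⟩ := hR.bdd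
  obtain ⟨c, C0, VE, VG, ρ, W1, W2, hc, hρ, hρ0, h1, h2, hE, hG, H⟩ := hR.str
  have hM : 0 ≤ max M0 0 := le_max_right _ _
  have hb : ∀ i x, N0 (st (f i) (z i) x) ≤ max M0 0 := fun i x => (hM0 i x).trans (le_max_left _ _)
  have hC : 0 ≤ max C0 0 := le_max_right _ _
  have hC' : C0 ≤ max C0 0 := le_max_left _ _
  generalize max M0 0 = M at *
  generalize max C0 0 = C at *
  have a4 : ∀ i x k, |VG i x k| ≤ C * (1 + √(gsq (z i) x)) := fun i x k =>
    ((H i x).2.2.2.1 k).trans (by gcongr)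
  obtain ⟨K1, hK1⟩ := Frz.cacc_part (fun i => (hR.sol i).sf) (fun i => (hR.sol i).sz) hM hb hc hC
    hρ hρ0 h1 h2 hE hG (fun i x => by linarith [(H i x).1]) (fun i x => by linarith [(H i x).2.1])
    a4 (fun i x k => ((H i x).2.2.2.2 k).trans hC')
  obtain ⟨c0, K2, hc0, hK2⟩ := Frz.frz_part hA hR.sol hM hb
  have m1 := min_le_left c c0
  have m2 := min_le_right c c0
  have m0 := lt_min hc hc0
  have k1 : K1 ≤ max (max K1 K2) (max C c) := (le_max_left _ _).trans (le_max_left _ _)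
  have k2 : K2 ≤ max (max K1 K2) (max C c) := (le_max_right _ _).trans (le_max_left _ _)
  have k3 : C ≤ max (max K1 K2) (max C c) := (le_max_left _ _).trans (le_max_right _ _)
  have k4 : c ≤ max (max K1 K2) (max C c) := (le_max_right _ _).trans (le_max_right _ _)
  generalize min c c0 = c' at *
  generalize max (max K1 K2) (max C c) = K at *
  refine ⟨M, K, c', m0, m1.trans k4, fun i => ⟨(hR.sol i).sf, (hR.sol i).sz,
    fun x => (abs_z_le (st (f i) (z i) x)).trans (hb i x),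
    fun x k => (abs_p_le (st (f i) (z i) x) k).trans (hb i x), fun x0 zb pb hz hp => ?_,
    ⟨VG i, hG i, fun x => ⟨?_, ?_, fun k => (a4 i x k).trans (by gcongr)⟩⟩,
    hK2 c' K m2 k2 i⟩⟩
  · obtain ⟨V, hV, hV'⟩ := hK1 K k1 i x0 zb pb hz hp
    refine ⟨V, hV, fun x => ⟨?_, (hV' x).2⟩⟩
    linarith [(hV' x).1, mul_le_mul_of_nonneg_right m1 (en_nonneg (f i) (z i) x)]
  · linarith [(H i x).2.1, mul_le_mul_of_nonneg_right m1 (en_nonneg (f i) (z i) x)]
  · linarith [(H i x).2.2.1, mul_le_mul_of_nonneg_right m1 (gsq_nonneg (z i) x)]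

end Crest.Agent.N346.An

end
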