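import Crest.Agent.N346.An.Boot

/-!
Row 346, An-I (helper28): `grad : GSchStmt → GradStmt` (interpolation and scaling).
-/

set_option autoImplicit false
set_option linter.unusedSectionVars false
open MeasureTheory Filter Topology Set Metric
open scoped ContDiff
open Crest.GeometryTopology.CoordMetric
open Crest.MathPhysics.ExteriorData
open Crest.Agent.R238 (HB Ell)

noncomputable section

namespace Crest.Agent.N346.An

open Crest.Agent.R238.Boot (hb_sum hb_of_lip)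

variable {n : ℕ} {β h K : ℝ} {u : E n → ℝ}

theorem mvt_pd (hu : ContDiff ℝ ∞ u) (x : E n) (i : Fin n) (h0 : 0 < h) :
    ∃ s, 0 < s ∧ s < h ∧ u (x + EuclideanSpace.single i h) - u x
      = h * pderiv i u (x + EuclideanSpace.single i s) := by
  have e : ∀ t : ℝ, (EuclideanSpace.single i t : E n) = t • EuclideanSpace.single i 1 := by
    intro t
    ext j
    simp
  have hd : ∀ t : ℝ, HasDerivAt (fun t : ℝ => u (x + t • EuclideanSpace.single i 1))
      (pderiv i u (x + t • EuclideanSpace.single i 1)) t := fun t =>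
    (Bs.smooth_diff hu _).hasFDerivAt.comp_hasDerivAt t (by
      simpa using ((hasDerivAt_id t).smul_const (EuclideanSpace.single i (1 : ℝ) : E n)).const_add x)
  obtain ⟨s, hs, hs'⟩ := exists_hasDerivAt_eq_slope _ _ h0
    (fun t _ => (hd t).continuousAt.continuousWithinAt) (fun t _ => hd t)
  refine ⟨s, hs.1, hs.2, ?_⟩
  rw [e h, e s, hs']
  simp only [zero_smul, add_zero, sub_zero]
  field_simp

theorem norm_single' (i : Fin n) {s : ℝ} (hs : 0 ≤ s) :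
    ‖(EuclideanSpace.single i s : E n)‖ = s := by
  simp [abs_of_nonneg hs]

theorem hb_step (hK : HB β K u) (x : E n) (i : Fin n) (h0 : 0 ≤ h) :
    |u (x + EuclideanSpace.single i h) - u x| ≤ K * h ^ β := by
  have := hK.2 (x + EuclideanSpace.single i h) x
  rwa [add_sub_cancel_left, norm_single' i h0] at this

/-- first order interpolation -/
theorem pd_interp (hu : ContDiff ℝ ∞ u) (hK : HB β K u) (h0 : 0 < h) (x : E n) (i : Fin n) {Q : ℝ}
    (hQ : ∀ y, ‖y - x‖ ≤ h → |pderiv i u y - pderiv i u x| ≤ Q) :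
    |pderiv i u x| ≤ K * (h ^ β * h⁻¹) + Q := by
  obtain ⟨s, hs0, hs1, hs⟩ := mvt_pd hu x i h0
  have h1 := hb_step hK x i h0.le
  have h2 := hQ (x + EuclideanSpace.single i s) (by
    rw [add_sub_cancel_left, norm_single' i hs0.le]; exact hs1.le)
  rw [hs, abs_mul, abs_of_pos h0, mul_comm, ← le_mul_inv_iff₀ h0, mul_assoc] at h1
  have h3 := abs_sub_abs_le_abs_sub (pderiv i u x) (pderiv i u (x + EuclideanSpace.single i s))
  rw [abs_sub_comm] at h3
  linarith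

/-- second order interpolation -/
theorem pd2_interp (hβ : 0 < β) (hβ1 : β ≤ 1) (hu : ContDiff ℝ ∞ u) (hK : HB β K u) (h0 : 0 < h)
    {i j : Fin n} {N : ℝ} (hN : HB β N (pderiv j (pderiv i u))) (x : E n) :
    |pderiv j (pderiv i u) x| ≤ 2 * K * (h ^ β * h⁻¹ * h⁻¹) + 2 * N * h ^ β := by
  set c : E n := EuclideanSpace.single j h with hc
  have hu' : ContDiff ℝ ∞ fun y => u (y + c) := hu.comp (contDiff_id.add contDiff_const)
  obtain ⟨s, hs0, hs1, hs⟩ := mvt_pd (hu'.sub hu) x i h0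
  rw [Bs.pd_sub (Bs.smooth_diff hu' _) (Bs.smooth_diff hu _),
    show pderiv i (fun y => u (y + c)) (x + EuclideanSpace.single i s)
      = pderiv i u (x + EuclideanSpace.single i s + c) from by
        unfold pderiv; rw [fderiv_comp_add_right]] at hs
  obtain ⟨t, ht0, ht1, ht⟩ :=
    mvt_pd (Bs.contDiff_pd hu i) (x + EuclideanSpace.single i s) j h0
  rw [ht] at hs
  set y : E n := x + EuclideanSpace.single i s + EuclideanSpace.single j t with hy
  have h1 := hb_step hK (x + EuclideanSpace.single i h) j h0.le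
  have h2 := hb_step hK x j h0.le
  have h3 : |h * (h * pderiv j (pderiv i u) y)| ≤ 2 * K * h ^ β := by
    rw [← hs]
    exact (abs_sub _ _).trans (by linarith)
  rw [abs_mul, abs_mul, abs_of_pos h0, mul_comm, ← le_mul_inv_iff₀ h0, mul_comm,
    ← le_mul_inv_iff₀ h0] at h3
  have h4 : ‖x - y‖ ≤ 2 * h := by
    rw [norm_sub_rev, hy, add_assoc, add_sub_cancel_left]
    refine (norm_add_le _ _).trans ?_
    rw [norm_single' i hs0.le, norm_single' j ht0.le]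
    linarith
  have h5 : ‖x - y‖ ^ β ≤ 2 * h ^ β := by
    refine (Real.rpow_le_rpow (norm_nonneg _) h4 hβ.le).trans ?_
    rw [Real.mul_rpow zero_le_two h0.le]
    exact mul_le_mul_of_nonneg_right (Real.rpow_le_self_of_one_le one_le_two hβ1)
      (Real.rpow_nonneg h0.le _)
  have h6 := (hN.2 x y).trans (mul_le_mul_of_nonneg_left h5 (R238.Boot.HB.nonneg hN))
  have h7 := abs_sub_abs_le_abs_sub (pderiv j (pderiv i u) x) (pderiv j (pderiv i u) y)
  linarith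

theorem lip_of_pd (hu : ContDiff ℝ ∞ u) {B : ℝ} (hB0 : 0 ≤ B) (hB : ∀ j x, |pderiv j u x| ≤ B)
    (x y : E n) : |u x - u y| ≤ n * B * ‖x - y‖ :=
  Convex.norm_image_sub_le_of_norm_fderiv_le (𝕜 := ℝ) (f := u) (s := univ)
    (fun w _ => Bs.smooth_diff hu w)
    (fun w _ => R238.Boot.norm_fderiv_le (fun j => hB j w) hB0) convex_univ
    (mem_univ y) (mem_univ x)

/-- Hölder constant at scale `h` -/
theorem hol_scale (hβ : 0 < β) (hβ1 : β ≤ 1) (h0 : 0 < h) {G L : ℝ} (hL : 0 ≤ L)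
    (hb : ∀ x, |u x| ≤ G * h ^ β) (hl : ∀ x y, |u x - u y| ≤ L * (h ^ β * h⁻¹) * ‖x - y‖)
    (x y : E n) : |u x - u y| ≤ (2 * G + L) * ‖x - y‖ ^ β := by
  have hq : 0 < h ^ β := Real.rpow_pos_of_pos h0 _
  have hG : 0 ≤ G := nonneg_of_mul_nonneg_left ((abs_nonneg _).trans (hb 0)) hq
  have hr : 0 ≤ ‖x - y‖ ^ β := Real.rpow_nonneg (norm_nonneg _) _
  rcases le_or_gt ‖x - y‖ h with h1 | h1
  · have h2 : ‖x - y‖ / h ≤ (‖x - y‖ / h) ^ β :=
      Real.self_le_rpow_of_le_one (by positivity) ((div_le_one h0).2 h1) hβ1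
    rw [Real.div_rpow (norm_nonneg _) h0.le, le_div_iff₀ hq] at h2
    calc |u x - u y| ≤ L * (‖x - y‖ / h * h ^ β) := (hl x y).trans_eq (by ring)
      _ ≤ L * ‖x - y‖ ^ β := mul_le_mul_of_nonneg_left h2 hL
      _ ≤ _ := mul_le_mul_of_nonneg_right (by linarith) hr
  · have h2 : h ^ β ≤ ‖x - y‖ ^ β := Real.rpow_le_rpow h0.le h1.le hβ.le
    calc |u x - u y| ≤ |u x| + |u y| := abs_sub _ _
      _ ≤ 2 * G * h ^ β := by linarith [hb x, hb y]
      _ ≤ 2 * G * ‖x - y‖ ^ β := mul_le_mul_of_nonneg_left h2 (by linarith)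
      _ ≤ _ := mul_le_mul_of_nonneg_right (by linarith) hr

/-- the gradient at scale `h` -/
theorem dz_est (hβ : 0 < β) (hβ1 : β ≤ 1) (hK0 : 0 ≤ K) : ∃ D, 0 ≤ D ∧ ∀ (u : E n → ℝ) (h : ℝ),
    ContDiff ℝ ∞ u → HB β K u → 0 < h → h ≤ 1 →
    (∀ k l, HB β (h⁻¹ * h⁻¹) (pderiv k (pderiv l u))) →
    ∀ k, (∀ x, |pderiv k u x| ≤ D * (h ^ β * h⁻¹)) ∧ HB β (D * h⁻¹) (pderiv k u) := by
  refine ⟨2 * (K + n * (2 * K + 2)) + n * (2 * K + 2), by positivity,
    fun u h hu hK h0 h1 hN k => ?_⟩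
  have hq : 0 < h ^ β := Real.rpow_pos_of_pos h0 _
  have hq1 : h ^ β ≤ 1 := Real.rpow_le_one h0.le h1 hβ.le
  have hr : 0 < h⁻¹ := inv_pos.2 h0
  have hB : ∀ j x, |pderiv j (pderiv k u) x| ≤ (2 * K + 2) * (h ^ β * h⁻¹ * h⁻¹) := fun j x =>
    (pd2_interp hβ hβ1 hu hK h0 (hN j k) x).trans_eq (by ring)
  have hL := lip_of_pd (Bs.contDiff_pd hu k) (by positivity) hB
  have hA : ∀ x, |pderiv k u x| ≤ (K + n * (2 * K + 2)) * (h ^ β * h⁻¹) := fun x => by
    refine (pd_interp hu hK h0 x k (Q := n * (2 * K + 2) * (h ^ β * h⁻¹)) fun y hy =>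
      (hL y x).trans ((mul_le_mul_of_nonneg_left hy (by positivity)).trans_eq ?_)).trans_eq
      (by ring)
    field_simp
  have hA' : ∀ x, |pderiv k u x|
      ≤ (2 * (K + n * (2 * K + 2)) + n * (2 * K + 2)) * (h ^ β * h⁻¹) := fun x =>
    (hA x).trans (mul_le_mul_of_nonneg_right (by
      have : 0 ≤ (n : ℝ) * (2 * K + 2) := by positivity
      linarith) (by positivity))
  refine ⟨hA', fun x => (hA' x).trans (mul_le_mul_of_nonneg_left ?_ (by positivity)),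
    fun x y => ?_⟩
  · exact mul_le_of_le_one_left hr.le hq1
  · exact (hol_scale hβ hβ1 h0 (G := (K + n * (2 * K + 2)) * h⁻¹) (L := n * (2 * K + 2) * h⁻¹)
      (by positivity) (fun x => (hA x).trans_eq (by ring))
      (fun x y => (hL x y).trans_eq (by ring)) x y).trans_eq (by ring)

theorem H2.mono {M M' : ℝ} (h : H2 β M u) (hM : M ≤ M') : H2 β M' u :=
  ⟨R238.Boot.HB.mono h.1 hM, fun i => R238.Boot.HB.mono (h.2.1 i) hM,
    fun i j => R238.Boot.HB.mono (h.2.2 i j) hM⟩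

/-- the estimate at scale `h` -/
theorem grad_step (hG : GSchStmt) {ι : Type} {S : ι → Sys n} {f z : ι → E n → ℝ} (hA : Adm S)
    (hS : ∀ i, (S i).Sol (f i) (z i)) {M : ℝ} (hM : ∀ i x, N0 (st (f i) (z i) x) ≤ M)
    (hβ : 0 < β) (hβ1 : β < 1) (hK0 : 0 ≤ K) (hM0 : 0 ≤ M)
    (hK : ∀ i, HB β K (z i) ∧ ∀ k, HB β K (pderiv k (f i))) :
    ∃ C, 0 ≤ C ∧ ∀ i (h : ℝ), 0 < h → h ≤ 1 →
      (∀ k l, HB β (h⁻¹ * h⁻¹) (pderiv k (pderiv l (z i)))) →
      H2 β (C * h⁻¹) (f i) ∧ H2 β (C * (h ^ β * h⁻¹ * h⁻¹)) (z i) := by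
  have hfM : ∀ i x, |f i x| ≤ M := fun i x => (norm_fst_le (st (f i) (z i) x).2).trans (hM i x)
  have hl : LH β fun i => st (f i) (z i) := lh_st hβ1.le
    ⟨_, fun i => hb_of_lip hβ hβ1.le (hfM i)
      (lip_of_pd (hS i).sf hK0 fun j => ((hK i).2 j).1)⟩ ⟨K, fun i => (hK i).1⟩
    fun k => ⟨K, fun i => (hK i).2 k⟩
  have hc : ∀ {Θ : ι → Y0 n → ℝ}, UB N0 Θ → ∃ M, ∀ i, HB β M fun x => Θ i (st (f i) (z i) x) :=
    fun h => h.comp_hb hβ.le convex_N0 ⟨M, hM⟩ hl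
  obtain ⟨A1, -, hA1⟩ := hb_common fun p : Fin n × Fin n => hc (hA.a1 p.1 p.2)
  obtain ⟨A2, -, hA2⟩ := hb_common fun p : Fin n × Fin n => hc (hA.a2 p.1 p.2)
  obtain ⟨B1, hB10, hB1⟩ := hb_common fun k => hc (hA.b1 k)
  obtain ⟨G1, hG10, hG1⟩ := hb_common fun _ : Unit => hc hA.c1
  obtain ⟨L, hL0, hL⟩ := hl
  obtain ⟨lo, hi, hlo, hhi, hE⟩ := hA.ell M
  obtain ⟨C1, hC10, hC1⟩ := hG n β lo hi A1 hβ hβ1 hlo hhi
  obtain ⟨C2, hC20, hC2⟩ := hG n β lo hi A2 hβ hβ1 hlo hhi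
  obtain ⟨D, hD0, hD⟩ := dz_est (n := n) hβ hβ1.le hK0
  obtain ⟨Pb, hPb0, hPb⟩ := hA.F2.bound M
  obtain ⟨Pd, hPd0, hPd⟩ := hA.F2.diff M
  obtain ⟨Cf, hCf⟩ : ∃ Cf, Cf = C1 * (G1 + n * (2 * (B1 * D)) + M) := ⟨_, rfl⟩
  have hCf0 : 0 ≤ Cf := by rw [hCf]; positivity
  obtain ⟨T, hT⟩ : ∃ T, T = 1 + (D + (K + Cf)) := ⟨_, rfl⟩
  have hT0 : 0 ≤ T := by rw [hT]; positivity
  obtain ⟨Cz, hCz⟩ : ∃ Cz, Cz = C2 * (2 * (Pb * T ^ 2) + Pd * (T ^ 2 * L + 2 * T * (D + Cf)) + K) :=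
    ⟨_, rfl⟩
  have hCz0 : 0 ≤ Cz := by rw [hCz]; positivity
  refine ⟨Cf + Cz, by positivity, fun i h h0 h1 hN => ?_⟩
  have hsf := (hS i).sf
  have hsz := (hS i).sz
  have hd := hD (z i) h hsz (hK i).1 h0 h1 hN
  have hq : 0 < h ^ β := Real.rpow_pos_of_pos h0 _
  have hr1 : 1 ≤ h⁻¹ := (one_le_inv₀ h0).2 h1
  have hp1 : 1 ≤ h ^ β * h⁻¹ := by
    rw [le_mul_inv_iff₀ h0, one_mul]
    exact Real.self_le_rpow_of_le_one h0.le h1 hβ1.le
  have hpr : h ^ β * h⁻¹ ≤ h⁻¹ :=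
    mul_le_of_le_one_left (by positivity) (Real.rpow_le_one h0.le h1 hβ.le)
  -- the equation for `f`
  have hf : H2 β (Cf * h⁻¹) (f i) := by
    have h2 := R238.Boot.HB.add (hG1 () i) (hb_sum Finset.univ fun k _ =>
      R238.Boot.HB.mul (hB1 k i) (hd k).2)
    rw [← funext (hS i).e1] at h2
    refine (hC1 _ _ _ M (fun x => (hE i _ (hM i x)).1) (fun k l => hA1 (k, l) i)
      (hsf.of_le two_le_inf) (Or.inl (hsf.of_le three_le_inf)) h2 (hfM i)).mono ?_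
    rw [hCf, mul_assoc, Finset.sum_const, Finset.card_univ, Fintype.card_fin, nsmul_eq_mul]
    refine mul_le_mul_of_nonneg_left ?_ hC10.le
    nlinarith [mul_le_mul_of_nonneg_left hr1 (add_nonneg (zero_le_one.trans hG10) hM0)]
  have hf2 : ∀ k l x, |pderiv k (pderiv l (f i)) x| ≤ (K + Cf) * (h ^ β * h⁻¹) := fun k l x => by
    refine (pd_interp (Bs.contDiff_pd hsf l) ((hK i).2 l) h0 x k (Q := Cf * h⁻¹ * h ^ β)
      fun y hy => ((hf.2.2 k l).2 y x).trans (mul_le_mul_of_nonneg_left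
        (Real.rpow_le_rpow (norm_nonneg _) hy hβ.le) (by positivity))).trans_eq (by ring)
  generalize h ^ β * h⁻¹ = p at *
  generalize h⁻¹ = r at *
  have hp0 : 0 ≤ p := zero_le_one.trans hp1
  have hr0 : 0 ≤ r := zero_le_one.trans hr1
  have hx : ∀ x, ‖xi (f i) (z i) x‖ ≤ (D + (K + Cf)) * p := fun x => by
    have h2 : 0 ≤ (D + (K + Cf)) * p := by positivity
    refine norm_prod_le_iff.2 ⟨(pi_norm_le_iff_of_nonneg h2).2 fun k => ((hd k).1 x).trans ?_,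
      (pi_norm_le_iff_of_nonneg h2).2 fun k => (pi_norm_le_iff_of_nonneg h2).2 fun l =>
        (hf2 k l x).trans ?_⟩ <;>
    exact mul_le_mul_of_nonneg_right (by linarith) hp0
  have hxd : ∀ x y, ‖xi (f i) (z i) x - xi (f i) (z i) y‖ ≤ (D + Cf) * r * ‖x - y‖ ^ β :=
    fun x y => by
    have h3 : 0 ≤ ‖x - y‖ ^ β := Real.rpow_nonneg (norm_nonneg _) _
    have h2 : 0 ≤ (D + Cf) * r * ‖x - y‖ ^ β := by positivity
    refine norm_prod_le_iff.2 ⟨(pi_norm_le_iff_of_nonneg h2).2 fun k => ((hd k).2.2 x y).trans ?_,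
      (pi_norm_le_iff_of_nonneg h2).2 fun k => (pi_norm_le_iff_of_nonneg h2).2 fun l =>
        ((hf.2.2 k l).2 x y).trans ?_⟩ <;>
    exact mul_le_mul_of_nonneg_right (mul_le_mul_of_nonneg_right (by linarith) hr0) h3
  have hR : 1 + (D + (K + Cf)) * p ≤ T * p := by rw [hT]; linarith
  have hR0 : 0 ≤ 1 + (D + (K + Cf)) * p := by positivity
  have hR2 : (1 + (D + (K + Cf)) * p) ^ 2 ≤ T ^ 2 * (p * r) :=
    (pow_le_pow_left₀ hR0 hR 2).trans (by
      rw [mul_pow, sq p]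
      exact mul_le_mul_of_nonneg_left (mul_le_mul_of_nonneg_left hpr hp0) (sq_nonneg T))
  have hF : HB β (2 * (Pb * T ^ 2 * (p * r)) + Pd * (T ^ 2 * L + 2 * T * (D + Cf)) * (p * r))
      fun x => (S i).F2 (st (f i) (z i) x, xi (f i) (z i) x) := by
    refine hb_of_loc hβ.le (by positivity)
      (fun x => (hPb i (st (f i) (z i) x, xi (f i) (z i) x) (hM i x)).trans ?_)
      fun x y hxy => (hPd i (st (f i) (z i) x, xi (f i) (z i) x)
        (st (f i) (z i) y, xi (f i) (z i) y) _ (hM i x) (hM i y) (hx x) (hx y)).trans ?_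
    · rw [mul_assoc]
      refine mul_le_mul_of_nonneg_left (le_trans ?_ hR2) hPb0
      exact pow_le_pow_left₀ (by positivity) (add_le_add_right (hx x) 1) 2
    · have h3 : 0 ≤ ‖x - y‖ ^ β := Real.rpow_nonneg (norm_nonneg _) _
      have h4 := mul_le_mul hR2 (hL i x y hxy) (norm_nonneg _) (by positivity)
      have h5 := mul_le_mul hR (hxd x y) (norm_nonneg _) (by positivity)
      rw [mul_assoc Pd, mul_assoc Pd]
      refine mul_le_mul_of_nonneg_left ?_ hPd0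
      simp only [Nat.cast_ofNat, Nat.add_one_sub_one, pow_one]
      linarith
  rw [← funext (hS i).e2] at hF
  have hpr1 : 1 ≤ p * r := one_le_mul_of_one_le_of_one_le hp1 hr1
  refine ⟨hf.mono (mul_le_mul_of_nonneg_right (by linarith) hr0),
    (hC2 _ _ _ K (fun x => (hE i _ (hM i x)).2) (fun k l => hA2 (k, l) i)
      (hsz.of_le two_le_inf) (Or.inl (hsz.of_le three_le_inf)) hF (hK i).1.1).mono ?_⟩
  refine le_trans ?_ (mul_le_mul_of_nonneg_right (le_add_of_nonneg_left hCf0) (by positivity))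
  rw [hCz, mul_assoc C2]
  refine mul_le_mul_of_nonneg_left ?_ hC20.le
  linarith [mul_le_mul_of_nonneg_left hpr1 hK0]

/-- **R4** -/
theorem grad (hG : GSchStmt) : GradStmt := by
  intro n ι S f z hA hR β K hβ hβ1 hK
  obtain ⟨M, hM⟩ := hR.bdd
  obtain ⟨C, hC0, hC⟩ := grad_step (K := max K 0) hG hA hR.sol (M := max M 0)
    (fun i x => (hM i x).trans (le_max_left _ _)) hβ hβ1 (le_max_right _ _) (le_max_right _ _)
    fun i => ⟨R238.Boot.HB.mono (hK i).1 (le_max_left _ _),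
      fun k => R238.Boot.HB.mono ((hK i).2 k) (le_max_left _ _)⟩
  obtain ⟨r0, hr0⟩ : ∃ r0 : ℝ, r0 = (C + 1) ^ β⁻¹ := ⟨_, rfl⟩
  refine ⟨C * (r0 * r0), fun i => ?_⟩
  set P : Set ℝ := {N | 0 ≤ N ∧ ∀ k l, HB β N (pderiv k (pderiv l (z i)))} with hP
  have hne : P.Nonempty := by
    have hu : UC fun _ : Unit => z i :=
      UC.single (hR.sol i).sz fun k => (hR.fin i k).imp fun _ hB x => (hB x).2
    obtain ⟨N, hN1, hN⟩ := hb_common fun p : Fin n × Fin n =>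
      (UC.u0 hβ hβ1.le (UB.pd (UB.pd hu p.2) p.1)).2
    exact ⟨N, zero_le_one.trans hN1, fun k l => hN (k, l) ()⟩
  have hm0 : 0 ≤ sInf P := le_csInf hne fun N hN => hN.1
  obtain ⟨N, hN, hNm⟩ := exists_lt_of_csInf_lt hne (lt_add_one (sInf P))
  obtain ⟨r, hr⟩ : ∃ r, r = √(sInf P + 1) := ⟨_, rfl⟩
  have hrr : r * r = sInf P + 1 := by rw [hr]; exact Real.mul_self_sqrt (by linarith)
  have hr1 : 1 ≤ r := by rw [hr]; exact Real.one_le_sqrt.2 (by linarith)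
  have hrp : 0 < r := zero_lt_one.trans_le hr1
  obtain ⟨h1, h2⟩ := hC i r⁻¹ (inv_pos.2 hrp) (inv_le_one_of_one_le₀ hr1) fun k l => by
    rw [inv_inv, hrr]
    exact R238.Boot.HB.mono (hN.2 k l) hNm.le
  rw [inv_inv] at h1 h2
  have hq : 0 < r ^ β := Real.rpow_pos_of_pos hrp _
  have hq1 : 1 ≤ r ^ β := Real.one_le_rpow hr1 hβ.le
  have hq2 : r ^ β ≤ r * r :=
    (Real.rpow_le_self_of_one_le hr1 hβ1.le).trans (le_mul_of_one_le_left hrp.le hr1)
  rw [Real.inv_rpow hrp.le] at h2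
  have h3 : sInf P ≤ C * ((r ^ β)⁻¹ * r * r) :=
    csInf_le ⟨0, fun N hN => hN.1⟩ ⟨by positivity, h2.2.2⟩
  have h4 : r ^ β ≤ C + 1 := by
    have h5 : r ^ β * (r * r - 1) ≤ C * (r * r) := by
      rw [show r * r - 1 = sInf P by linarith]
      refine (mul_le_mul_of_nonneg_left h3 hq.le).trans_eq ?_
      field_simp
    exact le_of_mul_le_mul_right (by nlinarith) (mul_pos hrp hrp)
  have h5 : r ≤ r0 := by
    rw [hr0, ← Real.rpow_rpow_inv hrp.le hβ.ne']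
    exact Real.rpow_le_rpow hq.le h4 (inv_nonneg.2 hβ.le)
  have h6 : r * r ≤ r0 * r0 := mul_self_le_mul_self hrp.le h5
  refine ⟨h1.mono (mul_le_mul_of_nonneg_left ?_ hC0), h2.mono (mul_le_mul_of_nonneg_left ?_ hC0)⟩
  · exact (le_mul_of_one_le_left hrp.le hr1).trans h6
  · refine le_trans ?_ h6
    rw [mul_assoc]
    exact mul_le_of_le_one_left (by positivity) (inv_le_one_of_one_le₀ hq1)

end Crest.Agent.N346.An

end
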