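import Crest.Agent.N346.An.Hol
import Crest.Agent.N346.An.Freeze
import Crest.Agent.N346.An.Grad
import Crest.Agent.N346.An.Boot
import Crest.Agent.N346.An.Ex

/-!
Row 346, abstract analysis (helper53): the main theorems.
`reg : RegStmt`, `ex : ExStmt`, `ex2' : Ex2Stmt`, `limSol' : LimSolStmt`, `lim' : LimStmt`,
`per : PerStmt`, `perFin : PerFinStmt`, `decay : DecayStmt`, `landau : LandauStmt`.
-/

namespace Crest.Agent.N346.An

theorem reg : RegStmt := reg_of freeze hol (grad gSch) (boot gSch)

theorem limSol' : LimSolStmt := limSol lim'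

end Crest.Agent.N346.An
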