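import Crest.Agent.N346.An.Defs
import Crest.Agent.N346.Basic

/-!
Row 346, An: calculus of the classes `UB`, `UB1`, `UC` on general spaces.
-/

set_option autoImplicit false
set_option linter.unusedSectionVars false
open MeasureTheory Filter Topology Set Metric
open scoped ContDiff
open Crest.GeometryTopology.CoordMetric
open Crest.MathPhysics.ExteriorData
open Crest.Agent.R238 (HB Ell)

noncomputable section

namespace Crest.Agent.N346.An

section general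

variable {ι κ Y Z F G : Type} [NormedAddCommGroup Y] [NormedSpace ℝ Y] [NormedAddCommGroup Z]
  [NormedSpace ℝ Z] [NormedAddCommGroup F] [NormedSpace ℝ F] [NormedAddCommGroup G]
  [NormedSpace ℝ G] {N : Y → ℝ} {N' : Z → ℝ} {Θ Ψ : ι → Y → F} {u v : ι → Y → ℝ}

theorem nat_le_inf (k : ℕ) : (k : WithTop ℕ∞) ≤ ∞ := by exact_mod_cast le_top

theorem nd_add {f g : Y → F} (hf : ContDiff ℝ ∞ f) (hg : ContDiff ℝ ∞ g) (k : ℕ) (y : Y) :
    ‖iteratedFDeriv ℝ k (fun y => f y + g y) y‖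
      ≤ ‖iteratedFDeriv ℝ k f y‖ + ‖iteratedFDeriv ℝ k g y‖ := by
  rw [fun_iteratedFDeriv_add_apply (hf.of_le (nat_le_inf k)).contDiffAt
    (hg.of_le (nat_le_inf k)).contDiffAt]
  exact norm_add_le _ _

theorem nd_clm (L : F →L[ℝ] G) {f : Y → F} (hf : ContDiff ℝ ∞ f) (k : ℕ) (y : Y) :
    ‖iteratedFDeriv ℝ k (fun y => L (f y)) y‖ ≤ ‖L‖ * ‖iteratedFDeriv ℝ k f y‖ :=
  L.norm_iteratedFDeriv_comp_left hf.contDiffAt (nat_le_inf k)

theorem nd_lin (L : Y →L[ℝ] F) {k : ℕ} (hk : 1 ≤ k) (y : Y) :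
    ‖iteratedFDeriv ℝ k (fun y => L y) y‖ ≤ ‖L‖ := by
  obtain ⟨k, rfl⟩ := Nat.exists_eq_add_of_le' hk
  rw [← norm_iteratedFDeriv_fderiv]
  have : fderiv ℝ (fun y => L y) = fun _ => L := funext fun y => L.fderiv
  rw [this]
  cases k with
  | zero => simp
  | succ k => simp [iteratedFDeriv_succ_const]

/-- a bound for finitely many orders -/
theorem upto {Q : ℕ → ℝ → Prop} (hm : ∀ k C C', C ≤ C' → Q k C → Q k C')
    (h : ∀ k, ∃ C, Q k C) (k : ℕ) : ∃ C, 1 ≤ C ∧ ∀ j ≤ k, Q j C := by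
  choose C hC using h
  refine ⟨1 + ∑ j ∈ Finset.range (k + 1), |C j|,
    le_add_of_nonneg_right (Finset.sum_nonneg fun _ _ => abs_nonneg _), fun j hj => ?_⟩
  refine hm j _ _ ?_ (hC j)
  have := Finset.single_le_sum (f := fun j => |C j|) (fun _ _ => abs_nonneg _)
    (Finset.mem_range.2 (Nat.lt_succ_of_le hj))
  linarith [le_abs_self (C j)]

theorem UB.upto (h : UB N Θ) (k : ℕ) (M : ℝ) :
    ∃ C, 1 ≤ C ∧ ∀ j ≤ k, ∀ i y, N y ≤ M → ‖iteratedFDeriv ℝ j (Θ i) y‖ ≤ C :=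
  An.upto (Q := fun j C => ∀ i y, N y ≤ M → ‖iteratedFDeriv ℝ j (Θ i) y‖ ≤ C)
    (fun _ _ _ hC h i y hy => (h i y hy).trans hC) (fun j => h.2 j M) k

theorem UB1.upto (h : UB1 N Θ) (k : ℕ) (M : ℝ) :
    ∃ D, ∀ i y, N y ≤ M → ∀ j, 1 ≤ j → j ≤ k → ‖iteratedFDeriv ℝ j (Θ i) y‖ ≤ D ^ j := by
  obtain ⟨D, hD1, hD⟩ := An.upto
    (Q := fun j C => 1 ≤ j → ∀ i y, N y ≤ M → ‖iteratedFDeriv ℝ j (Θ i) y‖ ≤ C)
    (fun _ _ _ hC h hj i y hy => (h hj i y hy).trans hC) (fun j => by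
      by_cases hj : 1 ≤ j
      · exact (h.2 j M hj).imp fun C hC _ => hC
      · exact ⟨0, fun h => absurd h hj⟩) k
  exact ⟨D, fun i y hy j h1 hj => (hD j hj h1 i y hy).trans (le_self_pow₀ hD1 (by omega))⟩

theorem UB.smooth (h : UB N Θ) (i : ι) : ContDiff ℝ ∞ (Θ i) := h.1 i

theorem UB.congr (h : UB N Θ) (e : ∀ i y, Ψ i y = Θ i y) : UB N Ψ := by
  have : Ψ = Θ := funext fun i => funext (e i)
  rwa [this]

theorem UB.monoN {N₁ : Y → ℝ} (h : UB N Θ) (hN : ∀ M, ∃ M', ∀ y, N₁ y ≤ M → N y ≤ M') :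
    UB N₁ Θ := by
  refine ⟨h.1, fun k M => ?_⟩
  obtain ⟨M', hM⟩ := hN M
  obtain ⟨C, hC⟩ := h.2 k M'
  exact ⟨C, fun i y hy => hC i y (hM y hy)⟩

theorem UB.reindex (h : UB N Θ) (e : κ → ι) : UB N fun k => Θ (e k) :=
  ⟨fun _ => h.1 _, fun k M => (h.2 k M).imp fun _ hC i => hC (e i)⟩

theorem UB.bdd (h : UB N Θ) (M : ℝ) : ∃ C, 0 ≤ C ∧ ∀ i y, N y ≤ M → ‖Θ i y‖ ≤ C := by
  obtain ⟨C, hC⟩ := h.2 0 M
  refine ⟨max C 0, le_max_right _ _, fun i y hy => ?_⟩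
  have := hC i y hy
  rw [norm_iteratedFDeriv_zero] at this
  exact this.trans (le_max_left _ _)

theorem UB.bdd1 (h : UB N Θ) (M : ℝ) :
    ∃ C, 0 ≤ C ∧ ∀ i y, N y ≤ M → ‖fderiv ℝ (Θ i) y‖ ≤ C := by
  obtain ⟨C, hC⟩ := h.2 1 M
  refine ⟨max C 0, le_max_right _ _, fun i y hy => ?_⟩
  have := hC i y hy
  rw [norm_iteratedFDeriv_one] at this
  exact this.trans (le_max_left _ _)

theorem UB.ub1 (h : UB N Θ) : UB1 N Θ := ⟨h.1, fun k M _ => h.2 k M⟩

theorem UB1.ub (h : UB1 N Θ) (hb : ∀ M, ∃ C, ∀ i y, N y ≤ M → ‖Θ i y‖ ≤ C) : UB N Θ := by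
  refine ⟨h.1, fun k M => ?_⟩
  rcases Nat.eq_zero_or_pos k with rfl | hk
  · simpa only [norm_iteratedFDeriv_zero] using hb M
  · exact h.2 k M hk

theorem UB1.reindex (h : UB1 N Θ) (e : κ → ι) : UB1 N fun k => Θ (e k) := by
  exact ⟨fun _ => h.1 _, fun k M hk => (h.2 k M hk).imp fun _ hC i => hC (e i)⟩

theorem UB1.clm (L : Y →L[ℝ] F) : UB1 N fun (_ : ι) y => L y := by
  exact ⟨fun _ => L.contDiff, fun k _ hk => ⟨‖L‖, fun _ y _ => nd_lin L hk y⟩⟩

theorem UB1.id : UB1 N fun (_ : ι) (y : Y) => y := UB1.clm (ContinuousLinearMap.id ℝ Y)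

theorem UB1.add (h : UB1 N Θ) (h' : UB1 N Ψ) : UB1 N fun i y => Θ i y + Ψ i y := by
  refine ⟨fun i => (h.1 i).add (h'.1 i), fun k M hk => ?_⟩
  obtain ⟨C, hC⟩ := h.2 k M hk
  obtain ⟨C', hC'⟩ := h'.2 k M hk
  exact ⟨C + C', fun i y hy =>
    (nd_add (h.1 i) (h'.1 i) k y).trans (add_le_add (hC i y hy) (hC' i y hy))⟩

theorem UB1.comp_clm (L : F →L[ℝ] G) (h : UB1 N Θ) : UB1 N fun i y => L (Θ i y) := by
  refine ⟨fun i => L.contDiff.comp (h.1 i), fun k M hk => ?_⟩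
  obtain ⟨C, hC⟩ := h.2 k M hk
  exact ⟨‖L‖ * C, fun i y hy =>
    (nd_clm L (h.1 i) k y).trans (mul_le_mul_of_nonneg_left (hC i y hy) (norm_nonneg _))⟩

theorem UB1.congr (h : UB1 N Θ) (e : ∀ i y, Ψ i y = Θ i y) : UB1 N Ψ := by
  have : Ψ = Θ := funext fun i => funext (e i)
  rwa [this]

theorem UB1.monoN {N₁ : Y → ℝ} (h : UB1 N Θ) (hN : ∀ M, ∃ M', ∀ y, N₁ y ≤ M → N y ≤ M') :
    UB1 N₁ Θ := by
  refine ⟨h.1, fun k M hk => ?_⟩
  obtain ⟨M', hM⟩ := hN M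
  obtain ⟨C, hC⟩ := h.2 k M' hk
  exact ⟨C, fun i y hy => hC i y (hM y hy)⟩

theorem UB1.prodMk {Φ : ι → Y → G} (h : UB1 N Θ) (h' : UB1 N Φ) :
    UB1 N fun i y => (Θ i y, Φ i y) := by
  refine ((h.comp_clm (ContinuousLinearMap.inl ℝ F G)).add
    (h'.comp_clm (ContinuousLinearMap.inr ℝ F G))).congr fun i y => ?_
  simp

theorem UB.const {c : ι → F} (hc : ∃ C, ∀ i, ‖c i‖ ≤ C) : UB N fun i _ => c i := by
  obtain ⟨C, hC⟩ := hc
  refine ⟨fun _ => contDiff_const, fun k M => ⟨max C 0, fun i y _ => ?_⟩⟩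
  cases k with
  | zero => simpa using Or.inl (hC i)
  | succ k => simp [iteratedFDeriv_succ_const]

theorem UB.const' (c : F) : UB N fun (_ : ι) _ => c := UB.const ⟨‖c‖, fun _ => le_rfl⟩

theorem UB.add (h : UB N Θ) (h' : UB N Ψ) : UB N fun i y => Θ i y + Ψ i y := by
  refine ⟨fun i => (h.1 i).add (h'.1 i), fun k M => ?_⟩
  obtain ⟨C, hC⟩ := h.2 k M
  obtain ⟨C', hC'⟩ := h'.2 k M
  exact ⟨C + C', fun i y hy =>
    (nd_add (h.1 i) (h'.1 i) k y).trans (add_le_add (hC i y hy) (hC' i y hy))⟩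

theorem UB.clm0 (L : F →L[ℝ] G) (h : UB N Θ) : UB N fun i y => L (Θ i y) := by
  refine ⟨fun i => L.contDiff.comp (h.1 i), fun k M => ?_⟩
  obtain ⟨C, hC⟩ := h.2 k M
  exact ⟨‖L‖ * C, fun i y hy =>
    (nd_clm L (h.1 i) k y).trans (mul_le_mul_of_nonneg_left (hC i y hy) (norm_nonneg _))⟩

theorem UB.smul0 (h : UB N u) (h' : UB N Θ) : UB N fun i y => u i y • Θ i y := by
  refine ⟨fun i => (h.1 i).smul (h'.1 i), fun k M => ?_⟩
  obtain ⟨C, hC1, hC⟩ := h.upto k M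
  obtain ⟨C', -, hC'⟩ := h'.upto k M
  refine ⟨∑ j ∈ Finset.range (k + 1), (k.choose j : ℝ) * C * C', fun i y hy =>
    (norm_iteratedFDeriv_smul_le (h.1 i) (h'.1 i) y (nat_le_inf k)).trans
      (Finset.sum_le_sum fun j hj => ?_)⟩
  have hj' : j ≤ k := Nat.lt_succ_iff.1 (Finset.mem_range.1 hj)
  exact mul_le_mul (mul_le_mul_of_nonneg_left (hC j hj' i y hy) (Nat.cast_nonneg _))
    (hC' _ (Nat.sub_le _ _) i y hy) (norm_nonneg _) (by positivity)

theorem UB.neg (h : UB N Θ) : UB N fun i y => -Θ i y := by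
  exact (h.clm0 (-ContinuousLinearMap.id ℝ F)).congr fun i y => by simp

theorem UB.sub (h : UB N Θ) (h' : UB N Ψ) : UB N fun i y => Θ i y - Ψ i y := by
  exact (h.add h'.neg).congr fun i y => sub_eq_add_neg _ _

theorem UB.mul (h : UB N u) (h' : UB N v) : UB N fun i y => u i y * v i y := h.smul0 h' 

theorem UB.smul (h : UB N u) (h' : UB N Θ) : UB N fun i y => u i y • Θ i y := h.smul0 h' 

theorem UB.const_mul (c : ℝ) (h : UB N u) : UB N fun i y => c * u i y := (UB.const' c).mul h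

theorem UB.pow (h : UB N u) (m : ℕ) : UB N fun i y => u i y ^ m := by
  induction m with
  | zero => exact (UB.const' (1 : ℝ)).congr fun i y => pow_zero _
  | succ m ih => exact (ih.mul h).congr fun i y => pow_succ _ _

theorem UB.sum {α : Type*} (s : Finset α) {w : α → ι → Y → F} (h : ∀ a ∈ s, UB N (w a)) :
    UB N fun i y => ∑ a ∈ s, w a i y := by
  classical
  induction s using Finset.induction_on with
  | empty => exact (UB.const' (0 : F)).congr fun i y => Finset.sum_empty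
  | insert a s ha ih =>
    exact ((h a (Finset.mem_insert_self _ _)).add
      (ih fun b hb => h b (Finset.mem_insert_of_mem hb))).congr fun i y => Finset.sum_insert ha

theorem UB.prod {α : Type*} (s : Finset α) {w : α → ι → Y → ℝ} (h : ∀ a ∈ s, UB N (w a)) :
    UB N fun i y => ∏ a ∈ s, w a i y := by
  classical
  induction s using Finset.induction_on with
  | empty => exact (UB.const' (1 : ℝ)).congr fun i y => Finset.prod_empty
  | insert a s ha ih =>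
    exact ((h a (Finset.mem_insert_self _ _)).mul
      (ih fun b hb => h b (Finset.mem_insert_of_mem hb))).congr fun i y => Finset.prod_insert ha

theorem UB.clm (L : F →L[ℝ] G) (h : UB N Θ) : UB N fun i y => L (Θ i y) := h.clm0 L

theorem UB.prodMk {Φ : ι → Y → G} (h : UB N Θ) (h' : UB N Φ) :
    UB N fun i y => (Θ i y, Φ i y) := by
  refine ((h.clm (ContinuousLinearMap.inl ℝ F G)).add
    (h'.clm (ContinuousLinearMap.inr ℝ F G))).congr fun i y => ?_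
  simp

theorem UB.pi {α : Type} [Fintype α] {w : ι → Y → α → F} (h : ∀ a, UB N fun i y => w i y a) :
    UB N w := by
  classical
  refine (UB.sum Finset.univ fun a _ =>
    (h a).clm (ContinuousLinearMap.single ℝ (fun _ : α => F) a)).congr fun i y => ?_
  simp [Finset.univ_sum_single]

theorem UB.apply {α : Type} [Fintype α] {w : ι → Y → α → F} (h : UB N w) (a : α) :
    UB N fun i y => w i y a := by
  exact h.clm (ContinuousLinearMap.proj (R := ℝ) (φ := fun _ : α => F) a)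

/-- composition of families -/
theorem UB.comp {s : ι → Z → Y} (h : UB N Θ) (hs : UB1 N' s)
    (hN : ∀ M, ∃ M', ∀ i y, N' y ≤ M → N (s i y) ≤ M') : UB N' fun i y => Θ i (s i y) := by
  refine ⟨fun i => (h.1 i).comp (hs.1 i), fun k M => ?_⟩
  obtain ⟨M', hM⟩ := hN M
  obtain ⟨C, -, hC⟩ := h.upto k M'
  obtain ⟨D, hD⟩ := hs.upto k M
  exact ⟨k.factorial * C * D ^ k, fun i y hy => norm_iteratedFDeriv_comp_le (h.1 i) (hs.1 i)
    (nat_le_inf k) y (fun j hj => hC j hj i _ (hM i y hy)) (hD i y hy)⟩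

theorem UB.comp_on0 {Φ : F → G} {W : Set F} (hW : IsOpen W)
    (hΦ : ContDiffOn ℝ ∞ Φ W) (h : UB N Θ) (hm : ∀ i y, Θ i y ∈ W)
    (hK : ∀ M, ∃ K, IsCompact K ∧ K ⊆ W ∧ ∀ i y, N y ≤ M → Θ i y ∈ K) :
    UB N fun i y => Φ (Θ i y) := by
  refine ⟨fun i => hΦ.comp_contDiff (h.1 i) (hm i), fun k M => ?_⟩
  obtain ⟨K, hK, hKW, hKm⟩ := hK M
  obtain ⟨C, -, hC⟩ := An.upto
    (Q := fun j C => ∀ p ∈ K, ‖iteratedFDerivWithin ℝ j Φ W p‖ ≤ C)
    (fun _ _ _ hC h p hp => (h p hp).trans hC) (fun j => hK.exists_bound_of_continuousOn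
      ((hΦ.continuousOn_iteratedFDerivWithin (nat_le_inf j) hW.uniqueDiffOn).mono hKW)) k
  obtain ⟨D, hD⟩ := h.ub1.upto k M
  exact ⟨k.factorial * C * D ^ k, fun i y hy => norm_iteratedFDeriv_comp_le'
    (by rintro _ ⟨y, rfl⟩; exact hm i y) hW.uniqueDiffOn hΦ (h.1 i)
    (nat_le_inf k) y (fun j hj => hC j hj _ (hKm i y hy)) (hD i y hy)⟩

/-- composition with one fixed smooth function -/
theorem UB.comp_smooth [FiniteDimensional ℝ F] {Φ : F → G} (hΦ : ContDiff ℝ ∞ Φ) (h : UB N Θ) :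
    UB N fun i y => Φ (Θ i y) := by
  have := FiniteDimensional.proper_real F
  refine h.comp_on0 isOpen_univ hΦ.contDiffOn (fun _ _ => mem_univ _) fun M => ?_
  obtain ⟨C, -, hC⟩ := h.bdd M
  exact ⟨closedBall 0 C, isCompact_closedBall _ _, subset_univ _,
    fun i y hy => mem_closedBall_zero_iff.2 (hC i y hy)⟩

/-- composition with one fixed function which is smooth on an open set -/
theorem UB.comp_on [FiniteDimensional ℝ F] {Φ : F → G} {W : Set F} (hW : IsOpen W)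
    (hΦ : ContDiffOn ℝ ∞ Φ W) (h : UB N Θ) (hm : ∀ i y, Θ i y ∈ W)
    (hK : ∀ M, ∃ K, IsCompact K ∧ K ⊆ W ∧ ∀ i y, N y ≤ M → Θ i y ∈ K) :
    UB N fun i y => Φ (Θ i y) := h.comp_on0 hW hΦ hm hK

/-- positivity, uniformly on `{N ≤ M}` -/
def UPos (N : Y → ℝ) (u : ι → Y → ℝ) : Prop :=
  (∀ i y, 0 < u i y) ∧ ∀ M, ∃ c > 0, ∀ i y, N y ≤ M → c ≤ u i y

theorem UPos.of_le {c : ℝ} (hc : 0 < c) (h : ∀ i y, c ≤ u i y) : UPos N u :=
  ⟨fun i y => hc.trans_le (h i y), fun _ => ⟨c, hc, fun i y _ => h i y⟩⟩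

theorem UB.comp_pos {Φ : ℝ → G} (hΦ : ∀ t, 0 < t → ContDiffAt ℝ ∞ Φ t) (h : UB N u)
    (hp : UPos N u) : UB N fun i y => Φ (u i y) := by
  refine h.comp_on isOpen_Ioi (fun t ht => (hΦ t ht).contDiffWithinAt) hp.1 fun M => ?_
  obtain ⟨C, -, hC⟩ := h.bdd M
  obtain ⟨c, hc, hcu⟩ := hp.2 M
  exact ⟨Icc c C, isCompact_Icc, fun t ht => hc.trans_le ht.1,
    fun i y hy => ⟨hcu i y hy, (le_abs_self _).trans (hC i y hy)⟩⟩

theorem UB.inv (h : UB N u) (hp : UPos N u) : UB N fun i y => (u i y)⁻¹ := by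
  exact h.comp_pos (Φ := fun t => t⁻¹) (fun t ht => contDiffAt_inv ℝ ht.ne') hp

theorem UB.div (h : UB N u) (h' : UB N v) (hp : UPos N v) : UB N fun i y => u i y / v i y := by
  exact (h.mul (h'.inv hp)).congr fun i y => div_eq_mul_inv _ _

theorem UB.sqrt (h : UB N u) (hp : UPos N u) : UB N fun i y => √(u i y) := by
  exact h.comp_pos (Φ := fun t => √t) (fun t ht => Real.contDiffAt_sqrt ht.ne') hp

theorem UB.log (h : UB N u) (hp : UPos N u) : UB N fun i y => Real.log (u i y) := by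
  exact h.comp_pos (Φ := Real.log) (fun t ht => Real.contDiffAt_log.2 ht.ne') hp

theorem UB.rpow (h : UB N u) (hp : UPos N u) (p : ℝ) : UB N fun i y => u i y ^ p := by
  exact h.comp_pos (Φ := fun t => t ^ p)
    (fun t ht => Real.contDiffAt_rpow_const_of_ne ht.ne') hp

theorem UB.exp (h : UB N u) : UB N fun i y => Real.exp (u i y) := h.comp_smooth Real.contDiff_exp

theorem UB.det {m : ℕ} {A : ι → Y → Matrix (Fin m) (Fin m) ℝ}
    (h : ∀ k l, UB N fun i y => A i y k l) : UB N fun i y => (A i y).det := by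
  refine (UB.sum Finset.univ fun σ _ => (UB.prod Finset.univ fun k _ => h (σ k) k).const_mul
    ((Equiv.Perm.sign σ : ℤ) : ℝ)).congr fun i y => ?_
  rw [Matrix.det_apply']

theorem UB.matInv {m : ℕ} {A : ι → Y → Matrix (Fin m) (Fin m) ℝ}
    (h : ∀ k l, UB N fun i y => A i y k l) (hp : UPos N fun i y => (A i y).det) (k l : Fin m) :
    UB N fun i y => (A i y)⁻¹ k l := by
  have ha : UB N fun i y => ((A i y).updateRow l (Pi.single k 1)).det := by
    refine UB.det fun a b => ?_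
    by_cases hb : a = l
    · subst hb
      exact (UB.const' ((Pi.single k 1 : Fin m → ℝ) b)).congr fun i y => by simp
    · exact (h a b).congr fun i y => by simp [Matrix.updateRow_ne hb]
  refine (((UB.det h).inv hp).mul ha).congr fun i y => ?_
  rw [Matrix.inv_def, Matrix.smul_apply, Matrix.adjugate_apply, Ring.inverse_eq_inv', smul_eq_mul]

theorem UB.fd (h : UB N Θ) : UB N fun i y => fderiv ℝ (Θ i) y := by
  refine ⟨fun i => (h.1 i).fderiv_right (by simp), fun k M => ?_⟩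
  simpa only [norm_iteratedFDeriv_fderiv] using h.2 (k + 1) M

theorem UB.fd_apply (h : UB N Θ) (w : Y) : UB N fun i y => fderiv ℝ (Θ i) y w := by
  exact h.fd.clm (ContinuousLinearMap.apply ℝ F w)

/-- Lipschitz bound when the sublevel sets are convex -/
theorem UB.lip (h : UB N Θ) (hc : ∀ M, Convex ℝ {y | N y ≤ M}) (M : ℝ) :
    ∃ C, 0 ≤ C ∧ ∀ i y y', N y ≤ M → N y' ≤ M → ‖Θ i y - Θ i y'‖ ≤ C * ‖y - y'‖ := by
  obtain ⟨C, hC0, hC⟩ := h.bdd1 M
  exact ⟨C, hC0, fun i y y' hy hy' => (hc M).norm_image_sub_le_of_norm_fderiv_le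
    (fun x _ => ((h.1 i).differentiable (by simp)).differentiableAt) (fun x hx => hC i x hx) hy' hy⟩

/-- a `UC` family is `UB` for every size function -/
theorem UC.ub (h : UC Θ) : UB N Θ := h.monoN fun _ => ⟨0, fun _ _ => le_rfl⟩

theorem UC.single0 {w : Y → F} (hw : ContDiff ℝ ∞ w)
    (hb : ∀ k : ℕ, ∃ B, ∀ y, ‖iteratedFDeriv ℝ k w y‖ ≤ B) : UC fun _ : ι => w :=
  ⟨fun _ => hw, fun k _ => (hb k).imp fun _ hB _ y _ => hB y⟩

/-- one smooth function with compact support -/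
theorem UC.of_compact {w : Y → F} (hw : ContDiff ℝ ∞ w) (hc : HasCompactSupport w) :
    UC fun _ : ι => w := by
  exact UC.single0 hw fun k => (hw.continuous_iteratedFDeriv (nat_le_inf k)).bounded_above_of_compact_support
    (hc.iteratedFDeriv k)

/-- one smooth function with bounded derivatives -/
theorem UC.single {w : Y → F} (hw : ContDiff ℝ ∞ w)
    (hb : ∀ k : ℕ, ∃ B, ∀ y, ‖iteratedFDeriv ℝ k w y‖ ≤ B) : UC fun _ : ι => w := UC.single0 hw hb

/-- one smooth function of finitely many variables is `UB` for the norm -/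
theorem UB.of_smooth [FiniteDimensional ℝ Y] {w : Y → F} (hw : ContDiff ℝ ∞ w) :
    UB (fun y => ‖y‖) fun _ : ι => w := by
  have : UB (fun y : Y => ‖y‖) fun (_ : ι) (y : Y) => y :=
    UB1.id.ub fun M => ⟨M, fun _ _ hy => hy⟩
  exact this.comp_smooth hw

end general

end Crest.Agent.N346.An

end
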