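import Crest.Agent.N346.An.Small

/-! Row 346, An-D (helper95): `cacc : CaccStmt` and `iter : IterStmt`. -/

set_option autoImplicit false
open MeasureTheory Filter Topology Set Metric InnerProductSpace
open scoped ContDiff RealInnerProductSpace Gradient
open Crest.GeometryTopology.CoordMetric
open Crest.MathPhysics.ExteriorData
open Crest.Agent.R202.Moser
open Crest.Agent.R238 (HB)

noncomputable section

namespace Crest.Agent.N346.An

variable {n : ℕ}

namespace Sm

/-- cut-off functions around any centre -/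
theorem cutoff (n : ℕ) : ∃ C : ℝ, 0 < C ∧ ∀ (x0 : E n) (s' s : ℝ), 0 < s' → s' < s →
    ∃ η : E n → ℝ, ContDiff ℝ 1 η ∧ HasCompactSupport η ∧
      (∀ x, x ∉ closedBall x0 s → η x = 0 ∧ ∀ k, pderiv k η x = 0) ∧
      (∀ x ∈ closedBall x0 s', η x = 1) ∧ (∀ x, 0 ≤ η x ∧ η x ≤ 1) ∧
      ∀ x k, |pderiv k η x| ≤ C / (s - s') := by
  obtain ⟨C, hC, hcut⟩ := exists_cutoff (n := n)
  refine ⟨C, hC, fun x0 s' s hs' hs => ?_⟩
  obtain ⟨η, hη1, hηc, hηs, hη1', hη0, hηle, hηg⟩ := hcut s' s hs' hs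
  have hpd : ∀ x k, pderiv k (fun y => η (y - x0)) x = pderiv k η (x - x0) := fun x k => by
    simp only [pderiv, fderiv_comp_sub]
  have hout : ∀ x, x ∉ closedBall x0 s → x - x0 ∉ tsupport η := fun x hx h =>
    hx (by simpa [dist_eq_norm] using hηs h)
  have h0 : ∀ x, x ∉ closedBall x0 s → η (x - x0) = 0 := fun x hx =>
    image_eq_zero_of_notMem_tsupport (hout x hx)
  refine ⟨fun y => η (y - x0), hη1.comp (contDiff_id.sub contDiff_const),
    .intro (isCompact_closedBall x0 s) h0, fun x hx => ⟨h0 x hx, fun k => ?_⟩,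
    fun x hx => hη1' _ (by simpa [dist_eq_norm] using hx),
    fun x => ⟨hη0 _, hηle _⟩, fun x k => ?_⟩
  · rw [hpd, Bs.pd_of_notMem (hout x hx)]
  · rw [hpd]
    exact (Bs.abs_pd_le _ _ _).trans (by rw [← norm_gradient]; exact hηg _)

theorem vol_ball (x0 : E n) {r : ℝ} (hr : 0 < r) :
    volume.real (ball x0 r) = r ^ n * volume.real (ball (0 : E n) 1) := by
  rw [measureReal_def, Measure.addHaar_ball_of_pos _ x0 hr, ENNReal.toReal_mul,
    ENNReal.toReal_ofReal (by positivity), finrank_euclideanSpace_fin, measureReal_def]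

theorem intOn_ball {g : E n → ℝ} (hg : Continuous g) (x0 : E n) (r : ℝ) :
    IntegrableOn g (ball x0 r) :=
  (hg.continuousOn.integrableOn_compact (isCompact_closedBall x0 r)).mono_set ball_subset_closedBall

theorem continuous_osc {f z : E n → ℝ} (hf : ContDiff ℝ ∞ f) (hz : ContDiff ℝ ∞ z) (zb : ℝ)
    (pb : Fin n → ℝ) : Continuous (osc f z zb pb) :=
  (((hz.continuous.sub continuous_const).pow 2).add (continuous_finsetSum _ fun i _ =>
    ((Bs.contDiff_pd hf i).continuous.sub continuous_const).pow 2)).sqrt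

theorem sE_nonneg (f z : E n → ℝ) (x0 : E n) {r : ℝ} (hr : 0 < r) : 0 ≤ sE f z x0 r :=
  div_nonneg (mul_nonneg (sq_nonneg _) (integral_nonneg fun x => en_nn f z x)) (by positivity)

theorem cacc_pt {c D r o s η : ℝ} (hc : 0 < c) (hD : 0 ≤ D) (hr : 0 < r) (hr1 : r ≤ 1)
    (hη : 0 ≤ η) (hη1 : η ≤ 1) (ho : 0 ≤ o) :
    η * (D / r) * (1 + (2 * r + o) * (1 + s)) ≤
      c / 2 * (η ^ 2 * s ^ 2) + (4 * D + 4 * D ^ 2 / c) / r + (D + D ^ 2 / c) / r ^ 2 * o ^ 2 := by
  set t := o / r with ht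
  have ht0 : 0 ≤ t := by positivity
  have hi : 1 ≤ r⁻¹ := one_le_inv₀ hr |>.2 hr1
  have e1 : η * (D / r) * (1 + (2 * r + o) * (1 + s)) =
      η * D * r⁻¹ + η * D * (2 + t) + η * s * (D * (2 + t)) := by rw [ht]; field_simp; ring
  have e2 : (D + D ^ 2 / c) / r ^ 2 * o ^ 2 = (D + D ^ 2 / c) * t ^ 2 := by rw [ht]; field_simp
  have e3 : η * s * (D * (2 + t)) ≤ c / 2 * (η ^ 2 * s ^ 2) + D ^ 2 / c * (4 + t ^ 2) := by
    have h1 : c / 2 * (η ^ 2 * s ^ 2) + D ^ 2 / c * (4 + t ^ 2) - η * s * (D * (2 + t)) =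
        c / 2 * (η * s - D * (2 + t) / c) ^ 2 + D ^ 2 / c / 2 * (2 - t) ^ 2 := by field_simp; ring
    have h2 : 0 ≤ c / 2 * (η * s - D * (2 + t) / c) ^ 2 + D ^ 2 / c / 2 * (2 - t) ^ 2 := by
      positivity
    linarith
  have e4 : η * D * r⁻¹ ≤ D * r⁻¹ := by
    have := mul_le_mul_of_nonneg_right hη1 (by positivity : 0 ≤ D * r⁻¹); nlinarith
  have e5 : η * D * (2 + t) ≤ D * (3 + t ^ 2) := by
    have := mul_le_mul_of_nonneg_right hη1 (by positivity : 0 ≤ D * (2 + t))
    nlinarith [mul_nonneg hD (by nlinarith [sq_nonneg (t - 1 / 2)] : 0 ≤ t ^ 2 - t + 1)]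
  have e6 : 3 * D + 4 * (D ^ 2 / c) ≤ (3 * D + 4 * (D ^ 2 / c)) * r⁻¹ :=
    le_mul_of_one_le_right (by positivity) hi
  have e7 : (4 * D + 4 * D ^ 2 / c) / r = D * r⁻¹ + (3 * D + 4 * (D ^ 2 / c)) * r⁻¹ := by ring
  rw [e1, e2, e7]
  nlinarith

end Sm

open Sm in
theorem cacc : CaccStmt := by
  intro n M K c hc hcK
  have hK : 0 < K := hc.trans_le hcK
  obtain ⟨C0, hC0, hcut⟩ := cutoff n
  set D := 4 * n * C0 * K with hD
  have hD0 : 0 ≤ D := by positivity
  set W := volume.real (ball (0 : E n) 1) with hW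
  have hW0 : 0 ≤ W := measureReal_nonneg
  set A := K + (4 * D + 4 * D ^ 2 / c) with hA
  set A' := D + D ^ 2 / c with hA'
  have hA0 : 0 < A := by positivity
  have hA0' : 0 ≤ A' := by positivity
  refine ⟨2 / c * 2 ^ n * (A * W + A' + 1), by positivity, fun f z hS x0 zb pb hzb hpb r hr hr1 => ?_⟩
  obtain ⟨V, hV, hVs⟩ := hS.cacc x0 zb pb hzb hpb
  obtain ⟨η, hη1, hηc, hη0, hηe, hηb, hηg⟩ := hcut x0 r (3 / 2 * r) hr (by linarith)
  have cen := continuous_en hS.sf hS.sz
  have co := continuous_osc hS.sf hS.sz zb pb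
  have hφ : ContDiff ℝ 1 fun x => η x ^ 2 := hη1.pow 2
  have hφc : HasCompactSupport fun x => η x ^ 2 :=
    .intro (isCompact_closedBall x0 (3 / 2 * r)) fun x hx => by simp [(hη0 x hx).1]
  have hpd : ∀ x k, pderiv k (fun x => η x ^ 2) x = 2 * η x * pderiv k η x := fun x k => by
    rw [Bs.pd_comp (θ := fun s => s ^ 2) (hasDerivAt_pow 2 (η x))
      (hη1.differentiable one_ne_zero x)]
    simp
  have e := Bs.ibp_divE hφ hφc hV
  have cd : Continuous (divE V) := continuous_finsetSum _ fun i _ => Bs.continuous_pd (hV i) i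
  have i1 : Integrable fun x => η x ^ 2 * en f z x :=
    (hφ.continuous.mul cen).integrable_of_hasCompactSupport hφc.mul_right
  have i2 : Integrable fun x => η x ^ 2 * divE V x :=
    (hφ.continuous.mul cd).integrable_of_hasCompactSupport hφc.mul_right
  have i3 : Integrable fun x => ∑ i, pderiv i (fun x => η x ^ 2) x * V x i :=
    integrable_finsetSum _ fun i _ => ((Bs.continuous_pd hφ i).mul
      (hV i).continuous).integrable_of_hasCompactSupport (Bs.hasCompactSupport_pd hφc i).mul_right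
  have i4 : IntegrableOn (fun x => A / r + A' / r ^ 2 * osc f z zb pb x ^ 2) (ball x0 (2 * r)) :=
    intOn_ball (continuous_const.add (continuous_const.mul (co.pow 2))) _ _
  have e1 : ∫ x, c / 2 * (η x ^ 2 * en f z x) ≤ ∫ x, ((η x ^ 2 * divE V x +
      ∑ i, pderiv i (fun x => η x ^ 2) x * V x i) +
      (ball x0 (2 * r)).indicator (fun x => A / r + A' / r ^ 2 * osc f z zb pb x ^ 2) x) := by
    refine integral_mono (i1.const_mul _) ((i2.add i3).add
      ((integrable_indicator_iff measurableSet_ball).2 i4)) fun x => ?_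
    by_cases hx : x ∈ ball x0 (2 * r)
    · simp only [indicator_of_mem hx, hpd]
      have ho : 0 ≤ osc f z zb pb x := Real.sqrt_nonneg _
      have h1 := cacc_pt (s := √(en f z x)) hc hD0 hr hr1 (hηb x).1 (hηb x).2 ho
      rw [Real.sq_sqrt (en_nn f z x)] at h1
      set P := 1 + (2 * r + osc f z zb pb x) * (1 + √(en f z x)) with hP
      have h2 : ∀ i, -(η x * (4 * C0 * K / r) * P) ≤ 2 * η x * pderiv i η x * V x i := fun i => by
        have h3 : |V x i| ≤ K * P := ((hVs x).2 i).trans (by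
          have := (mem_ball_iff_norm.1 hx).le
          rw [hP]; gcongr)
        have h4 : |pderiv i η x| ≤ 2 * C0 / r := (hηg x i).trans (le_of_eq (by field_simp; ring))
        have h5 : |pderiv i η x * V x i| ≤ 2 * C0 / r * (K * P) := by
          rw [abs_mul]; exact mul_le_mul h4 h3 (abs_nonneg _) (by positivity)
        have h6 := mul_le_mul_of_nonneg_left (abs_le.1 h5).1 (hηb x).1
        have h7 : η x * (4 * C0 * K / r) * P = 2 * (η x * (2 * C0 / r * (K * P))) := by ring
        linarith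
      have h3 := Finset.sum_le_sum fun i (_ : i ∈ Finset.univ) => h2 i
      rw [Finset.sum_const, Finset.card_univ, Fintype.card_fin, nsmul_eq_mul] at h3
      have h4 : (n : ℝ) * -(η x * (4 * C0 * K / r) * P) = -(η x * (D / r) * P) := by rw [hD]; ring
      have h5 := mul_le_mul_of_nonneg_left (hVs x).1 (sq_nonneg (η x))
      have h6 : η x ^ 2 * K ≤ K / r := by
        have : η x ^ 2 ≤ 1 := pow_le_one₀ (hηb x).1 (hηb x).2
        rw [le_div_iff₀ hr]
        nlinarith [mul_le_mul this hr1 hr.le zero_le_one]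
      have h7 : A / r = K / r + (4 * D + 4 * D ^ 2 / c) / r := by rw [hA]; ring
      nlinarith
    · have hx' := hη0 x fun h => hx (closedBall_subset_ball (by linarith) h)
      simp [indicator_of_notMem hx, hpd, hx'.1]
  have i23 : Integrable fun x => η x ^ 2 * divE V x +
      ∑ i, pderiv i (fun x => η x ^ 2) x * V x i := i2.add i3
  have fin : IsFiniteMeasure (volume.restrict (ball x0 (2 * r))) :=
    ⟨by simpa using measure_ball_lt_top⟩
  have i5 : Integrable (fun x => A' / r ^ 2 * osc f z zb pb x ^ 2)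
      (volume.restrict (ball x0 (2 * r))) := (intOn_ball (co.pow 2) _ _).const_mul _
  rw [integral_add i23 ((integrable_indicator_iff measurableSet_ball).2 i4), integral_add i2 i3, e,
    neg_add_cancel, zero_add, integral_indicator measurableSet_ball, integral_const_mul,
    integral_add (integrable_const _) i5, setIntegral_const,
    integral_const_mul, vol_ball x0 (by positivity), ← hW, smul_eq_mul] at e1
  have e2 : ∫ x in ball x0 r, en f z x ≤ ∫ x, η x ^ 2 * en f z x := by
    calc _ = ∫ x in ball x0 r, η x ^ 2 * en f z x :=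
          setIntegral_congr_fun measurableSet_ball fun x hx => by
            simp [hηe x (ball_subset_closedBall hx)]
      _ ≤ _ := setIntegral_le_integral i1 (Eventually.of_forall fun x =>
          mul_nonneg (sq_nonneg _) (en_nn f z x))
  set X := ∫ x in ball x0 (2 * r), osc f z zb pb x ^ 2 with hX
  have hX0 : 0 ≤ X := integral_nonneg fun x => sq_nonneg _
  have e3 : sE f z x0 r ≤ 2 / c * 2 ^ n * (A * W * r + A' * (X / (2 * r) ^ n)) := by
    have h1 : ∫ x in ball x0 r, en f z x ≤ 2 / c * ((2 * r) ^ n * W * (A / r) + A' / r ^ 2 * X) := by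
      rw [div_mul_eq_mul_div, le_div_iff₀ hc]; nlinarith
    calc sE f z x0 r ≤ r ^ 2 * (2 / c * ((2 * r) ^ n * W * (A / r) + A' / r ^ 2 * X)) / r ^ n := by
          rw [sE]; gcongr
      _ = _ := by rw [mul_pow]; field_simp
  refine e3.trans ?_
  rw [sX, ← hX, mul_assoc (2 / c * 2 ^ n)]
  refine mul_le_mul_of_nonneg_left ?_ (by positivity)
  have : 0 ≤ X / (2 * r) ^ n := by positivity
  nlinarith [mul_nonneg (mul_nonneg hA0.le hW0) this, mul_nonneg hA0' hr.le]

open Sm in
theorem iter : IterStmt := by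
  intro h1 h2 h3 h4 n hn M K c hc hcK
  obtain ⟨C1, hC1, hca⟩ := h1 n M K c hc hcK
  obtain ⟨C, hC, hex⟩ := h3 n hn M K c hc hcK
  set θ := min (1 / 128) (1 / (8 * C1 * C)) with hθ
  have hθ0 : 0 < θ := by positivity
  have hθ1 : θ ≤ 1 / 128 := min_le_left _ _
  have hθ2 : C1 * C * θ ^ 2 ≤ 1 / 8 := by
    have h : θ ≤ 1 / (8 * C1 * C) := min_le_right _ _
    rw [le_div_iff₀ (by positivity)] at h
    nlinarith [mul_le_mul_of_nonneg_left (by nlinarith : θ ^ 2 ≤ θ) (mul_pos hC1 hC).le]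
  obtain ⟨Ct, hCt, hex⟩ := hex θ hθ0 hθ1
  set v := θ / 2 with hv
  have hv0 : 0 < v := by positivity
  have hv1 : v ≤ 1 / 2 := by linarith
  set B := C1 * (Ct + 1) with hB
  have hB0 : 0 < B := by positivity
  set ε := 1 / (8 * C1 * Ct) with hε
  have hε0 : 0 < ε := by positivity
  obtain ⟨r0, hr0, hsm⟩ := h2 n hn M K c hc hcK ε hε0 (min 1 (ε / (2 * B))) (by positivity)
  have hlv : Real.log v ≤ -Real.log 2 := by
    rw [← Real.log_inv]; exact Real.log_le_log hv0 (by linarith)
  have hl2 : 0 < Real.log 2 := Real.log_pos (by norm_num)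
  set β := Real.log 2 / (2 * -Real.log v) with hβ
  have hlv0 : 0 < -Real.log v := by linarith
  have hβ0 : 0 < β := by positivity
  have hβ1 : β < 1 := by rw [hβ, div_lt_one (by positivity)]; linarith
  have hvβ : v ^ (2 * β) = 1 / 2 := by
    rw [Real.rpow_def_of_pos hv0, show Real.log v * (2 * β) = -Real.log 2 by
      rw [hβ]; field_simp [hlv0.ne, neg_pos.1 hlv0 |>.ne], Real.exp_neg, Real.exp_log two_pos]
    norm_num
  set D := ε + 4 * B with hD
  have hD0 : 0 < D := by positivity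
  obtain ⟨K', hK'⟩ := h4 n β M (2 * D / (v ^ n * r0 ^ (2 * β))) r0 hβ0 hβ1 hr0
  refine ⟨β, K', hβ0, hβ1, fun f z hS => ?_⟩
  have cen := continuous_en hS.sf hS.sz
  have step : ∀ x0 r, 0 < r → r ≤ 1 → sE f z x0 r ≤ ε → sE f z x0 (v * r) ≤ sE f z x0 r / 4 + B * r := by
    intro x0 r hr hr1 hI
    obtain ⟨zb, pb, hzb, hpb, hX⟩ := hex f z hS x0 r hr hr1
    have e1 := hca f z hS x0 zb pb hzb hpb (v * r) (by positivity) (by nlinarith)
    rw [show 2 * (v * r) = θ * r by rw [hv]; ring] at e1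
    have hI0 := sE_nonneg f z x0 hr
    set I := sE f z x0 r
    have e2 := mul_le_mul_of_nonneg_left hX hC1.le
    have e3 := mul_le_mul_of_nonneg_right hθ2 hI0
    have e4 : C1 * Ct * I ^ 2 ≤ I / 8 := by
      rw [hε, le_div_iff₀ (by positivity)] at hI
      nlinarith
    have e5 : C1 * Ct * r ^ 2 ≤ C1 * Ct * r :=
      mul_le_mul_of_nonneg_left (by nlinarith) (by positivity)
    have e6 : C1 * (v * r) ≤ C1 * r := mul_le_mul_of_nonneg_left (by nlinarith) hC1.le
    rw [hB]
    nlinarith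
  have decay : ∀ x0 ρ, 0 < ρ → ρ ≤ r0 →
      sE f z x0 ρ ≤ 2 * D / (v ^ n * r0 ^ (2 * β)) * ρ ^ (2 * β) := by
    intro x0 ρ hρ hρ0
    obtain ⟨r, hr0r, hr1, hI⟩ := hsm f z hS x0
    have hr : 0 < r := hr0.trans_le hr0r
    have hr1' : r ≤ 1 := hr1.trans (min_le_left _ _)
    have hr2 : B * r ≤ ε / 2 := by
      have := hr1.trans (min_le_right _ _)
      rw [le_div_iff₀ (by positivity)] at this
      linarith
    have ind : ∀ k : ℕ, sE f z x0 (v ^ k * r) ≤ ε ∧ sE f z x0 (v ^ k * r) ≤ D * (1 / 2) ^ k := by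
      intro k
      induction k with
      | zero => simp only [pow_zero, one_mul, mul_one]; exact ⟨hI, by linarith⟩
      | succ k ih =>
        have hp : v ^ k ≤ (1 / 2) ^ k := pow_le_pow_left₀ hv0.le hv1 k
        have hp1 : v ^ k ≤ 1 := pow_le_one₀ hv0.le (by linarith)
        have hp0 : 0 < v ^ k := by positivity
        have := step x0 (v ^ k * r) (by positivity) (by nlinarith) ih.1
        rw [show v * (v ^ k * r) = v ^ (k + 1) * r by ring] at this
        have a1 : B * (v ^ k * r) ≤ B * r := by gcongr; nlinarith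
        have a2 : B * (v ^ k * r) ≤ B * (1 / 2) ^ k := by gcongr; nlinarith
        have a3 : 4 * B * (1 / 2) ^ k ≤ D * (1 / 2) ^ k := by gcongr; linarith
        refine ⟨by linarith [ih.1], ?_⟩
        rw [pow_succ (1 / 2 : ℝ)]
        linarith [ih.2]
    obtain ⟨k, hk1, hk2⟩ := exists_nat_pow_near_of_lt_one (x := ρ / r) (y := v) (by positivity)
      (by rw [div_le_one hr]; linarith) hv0 (by linarith)
    rw [lt_div_iff₀ hr] at hk1
    rw [div_le_iff₀ hr] at hk2
    have e1 : sE f z x0 ρ ≤ sE f z x0 (v ^ k * r) / v ^ n := by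
      rw [sE, sE, div_div, ← mul_pow]
      refine div_le_div₀ (mul_nonneg (sq_nonneg _) (integral_nonneg fun x => en_nn f z x))
        (mul_le_mul (by gcongr) (setIntegral_mono_set (intOn_ball cen _ _)
          (Eventually.of_forall fun x => en_nn f z x) (ball_subset_ball hk2).eventuallyLE)
          (integral_nonneg fun x => en_nn f z x) (sq_nonneg _)) (by positivity) ?_
      refine pow_le_pow_left₀ (by positivity) ?_ n
      rw [pow_succ] at hk1
      linarith
    have e2 : (1 / 2 : ℝ) ^ (k + 1) * r0 ^ (2 * β) ≤ ρ ^ (2 * β) := by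
      rw [← hvβ, ← Real.rpow_natCast, ← Real.rpow_mul hv0.le, mul_comm (2 * β),
        Real.rpow_mul hv0.le, Real.rpow_natCast, ← Real.mul_rpow (by positivity) hr0.le]
      refine Real.rpow_le_rpow (by positivity) ?_ (by positivity)
      exact (mul_le_mul_of_nonneg_left hr0r (by positivity)).trans hk1.le
    have hr0β : 0 < r0 ^ (2 * β) := by positivity
    calc sE f z x0 ρ ≤ D * (1 / 2) ^ k / v ^ n := e1.trans (by gcongr; exact (ind k).2)
      _ = 2 * D / (v ^ n * r0 ^ (2 * β)) * ((1 / 2) ^ (k + 1) * r0 ^ (2 * β)) := by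
          rw [pow_succ]; field_simp
      _ ≤ _ := by gcongr
  have fin : ∀ u : E n → ℝ, ContDiff ℝ ∞ u → (∀ x, |u x| ≤ M) → (∀ x, gsq u x ≤ en f z x) →
      HB β K' u := fun u hu hb hg => by
    refine hK' u (Bs.smooth_one hu) hb fun x0 r hr hr' => le_trans ?_ (decay x0 r hr hr')
    rw [sE]
    have cg : Continuous (gsq u) :=
      continuous_finsetSum _ fun i _ => (Bs.contDiff_pd hu i).continuous.pow 2
    have := setIntegral_mono (intOn_ball cg x0 r) (intOn_ball cen x0 r) hg
    gcongr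
  refine ⟨fin z hS.sz hS.bz fun x => le_add_of_nonneg_left
    (Finset.sum_nonneg fun _ _ => Finset.sum_nonneg fun _ _ => sq_nonneg _),
    fun i => fin _ (Bs.contDiff_pd hS.sf i) (fun x => hS.bf x i) fun x => ?_⟩
  refine le_add_of_le_of_nonneg (Finset.sum_le_sum fun j _ => ?_)
    (Finset.sum_nonneg fun _ _ => sq_nonneg _)
  exact Finset.single_le_sum (f := fun l => pderiv j (pderiv l f) x ^ 2) (fun _ _ => sq_nonneg _)
    (Finset.mem_univ i)

end Crest.Agent.N346.An

end
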