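import Crest.Agent.N346.An.Lin
import Crest.Agent.N346.An.Per

/-!
Row 346, An-EX (helper53): the compact convex set of periodic `C^{2,a}` jets.
-/

set_option autoImplicit false
open MeasureTheory Filter Topology Set Metric
open scoped ContDiff BoundedContinuousFunction
open Crest.GeometryTopology.CoordMetric
open Crest.Agent.R238.Sch (D2 ee)
open Crest.Agent.R273.SchA_152 Crest.Agent.R273.SchD_152

noncomputable section

namespace Crest.Agent.N346.An.Ex

variable {n : ℕ} {a L Q W : ℝ} {u v : E n → ℝ}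

/-- values of 2-jets -/
abbrev J2 (n : ℕ) : Type := ℝ × (Fin n → ℝ) × (Fin n → Fin n → ℝ)

/-- the 2-jet -/
def jet (u : E n → ℝ) (x : E n) : J2 n :=
  (u x, fun i => fderiv ℝ u x (ee i), fun i j => D2 u x (ee i) (ee j))

/-- the function of a jet field -/
def val (J : E n →ᵇ J2 n) (x : E n) : ℝ := (J x).1

/-- periodic `C^{2,a}` functions with bounds -/
structure Cl (a L Q W : ℝ) (u : E n → ℝ) : Prop where
  c2 : ContDiff ℝ 2 u
  per : Per L u
  hq : C2A a Q univ u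
  hw : HO a W univ (fderiv ℝ u)

/-- their jets -/
def KK (n : ℕ) (a L Q W : ℝ) : Set (E n →ᵇ J2 n) :=
  {J | Cl a L Q W (val J) ∧ ∀ x, J x = jet (val J) x}

theorem KK.ext {J J' : E n →ᵇ J2 n} (h : J ∈ KK n a L Q W) (h' : J' ∈ KK n a L Q W)
    (e : val J = val J') : J = J' := by
  ext1 x
  rw [h.2 x, h'.2 x, e]

theorem ho_comb {X F : Type} [NormedAddCommGroup X] [NormedAddCommGroup F] [NormedSpace ℝ F]
    {S : Set X} {r r' : X → F} (h : HO a Q S r) (h' : HO a Q S r') {s t : ℝ} (hs : 0 ≤ s)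
    (ht : 0 ≤ t) (hst : s + t = 1) : HO a Q S fun x => s • r x + t • r' x := by
  have k : ∀ (p q : F) (B : ℝ), ‖p‖ ≤ B → ‖q‖ ≤ B → ‖s • p + t • q‖ ≤ B := fun p q B hp hq => by
    refine (norm_add_le _ _).trans ?_
    rw [norm_smul, norm_smul, Real.norm_of_nonneg hs, Real.norm_of_nonneg ht]
    calc s * ‖p‖ + t * ‖q‖ ≤ s * B + t * B := by gcongr
      _ = B := by rw [← add_mul, hst, one_mul]
  refine ⟨fun x hx => k _ _ _ (h.bdd x hx) (h'.bdd x hx), fun x hx y hy => ?_⟩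
  have e : s • r x + t • r' x - (s • r y + t • r' y) = s • (r x - r y) + t • (r' x - r' y) := by
    simp only [smul_sub]; abel
  rw [e]
  exact k _ _ _ (h.hol x hx y hy) (h'.hol x hx y hy)

theorem fderiv_comb {F : Type} [NormedAddCommGroup F] [NormedSpace ℝ F] {g h : E n → F}
    (hg : Differentiable ℝ g) (hh : Differentiable ℝ h) (s t : ℝ) :
    fderiv ℝ (fun x => s • g x + t • h x) = fun x => s • fderiv ℝ g x + t • fderiv ℝ h x :=
  funext fun x => (((hg x).hasFDerivAt.const_smul s).add ((hh x).hasFDerivAt.const_smul t)).fderiv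

theorem diff1 (hu : ContDiff ℝ 2 u) : Differentiable ℝ u := hu.differentiable (by norm_num)

theorem diff2 (hu : ContDiff ℝ 2 u) : Differentiable ℝ (fderiv ℝ u) :=
  (hu.fderiv_right (m := 1) (by norm_num)).differentiable one_ne_zero

theorem Cl.comb (h : Cl a L Q W u) (h' : Cl a L Q W v) {s t : ℝ} (hs : 0 ≤ s) (ht : 0 ≤ t)
    (hst : s + t = 1) : Cl a L Q W fun x => s • u x + t • v x := by
  have e1 := fderiv_comb (diff1 h.c2) (diff1 h'.c2) s t
  have e2 := fderiv_comb (diff2 h.c2) (diff2 h'.c2) s t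
  refine ⟨(h.c2.const_smul s).add (h'.c2.const_smul t),
    h.per.comp₂ h'.per fun p q => s • p + t • q, ⟨ho_comb h.hq.h0 h'.hq.h0 hs ht hst, ?_, ?_⟩, ?_⟩
  · rw [e1]; exact ho_comb h.hq.h1 h'.hq.h1 hs ht hst
  · rw [e1, e2]; exact ho_comb h.hq.h2 h'.hq.h2 hs ht hst
  · rw [e1]; exact ho_comb h.hw h'.hw hs ht hst

theorem jet_comb (hu : ContDiff ℝ 2 u) (hv : ContDiff ℝ 2 v) (s t : ℝ) (x : E n) :
    jet (fun x => s • u x + t • v x) x = s • jet u x + t • jet v x := by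
  have e1 := fderiv_comb (diff1 hu) (diff1 hv) s t
  have e2 := fderiv_comb (diff2 hu) (diff2 hv) s t
  simp only [jet, D2]
  rw [e1, e2]
  rfl

theorem convex_KK : Convex ℝ (KK n a L Q W) := by
  intro J hJ J' hJ' s t hs ht hst
  have e : val (s • J + t • J') = fun x => s • val J x + t • val J' x := rfl
  refine ⟨?_, fun x => ?_⟩
  · rw [e]; exact hJ.1.comb hJ'.1 hs ht hst
  · rw [e, jet_comb hJ.1.c2 hJ'.1.c2, ← hJ.2 x, ← hJ'.2 x]
    rfl

theorem continuous_jet (hu : ContDiff ℝ 2 u) : Continuous (jet u) :=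
  hu.continuous.prodMk ((continuous_pi fun _ => (diff2 hu).continuous.clm_apply
    continuous_const).prodMk (continuous_pi fun _ => continuous_pi fun _ =>
      (((hu.fderiv_right (m := 1) (by norm_num)).continuous_fderiv one_ne_zero).clm_apply
        continuous_const).clm_apply continuous_const))

theorem norm_vec_le (B : E n →L[ℝ] ℝ) : ‖fun i => B (ee i)‖ ≤ ‖B‖ :=
  (pi_norm_le_iff_of_nonneg (norm_nonneg _)).2 fun i => by
    simpa [R238.Sch.norm_ee] using B.le_opNorm (ee i)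

theorem norm_mat_le (B : E n →L[ℝ] E n →L[ℝ] ℝ) : ‖fun i j => B (ee i) (ee j)‖ ≤ ‖B‖ :=
  (pi_norm_le_iff_of_nonneg (norm_nonneg B)).2 fun i =>
    (pi_norm_le_iff_of_nonneg (norm_nonneg B)).2 fun j => R238.Sch.norm_entry_le B i j

theorem Cl.exists_mem (h : Cl a L Q W u) : ∃ J ∈ KK n a L Q W, val J = u := by
  refine ⟨BoundedContinuousFunction.ofNormedAddCommGroup (jet u) (continuous_jet h.c2) Q
    fun x => ?_, ⟨h, fun x => rfl⟩, rfl⟩
  simp only [jet, Prod.norm_def, max_le_iff]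
  exact ⟨h.hq.h0.bdd x trivial, (norm_vec_le _).trans (h.hq.h1.bdd x trivial),
    (norm_mat_le _).trans (h.hq.h2.bdd x trivial)⟩

theorem zero_mem_KK (hQ : 0 ≤ Q) (hW : 0 ≤ W) : (0 : E n →ᵇ J2 n) ∈ KK n a L Q W := by
  have k : ∀ (F : Type) [NormedAddCommGroup F] (B : ℝ), 0 ≤ B →
      HO a B univ fun _ : E n => (0 : F) := fun F _ B hB => HO.of_hb (R238.Sch.HB.zero hB)
  have e : val (0 : E n →ᵇ J2 n) = fun _ => 0 := rfl
  have e1 : fderiv ℝ (fun _ : E n => (0 : ℝ)) = fun _ => 0 := by funext x; simp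
  have e2 : fderiv ℝ (fun _ : E n => (0 : E n →L[ℝ] ℝ)) = fun _ => 0 := by funext x; simp
  refine ⟨?_, fun x => ?_⟩
  · rw [e]
    refine ⟨contDiff_const, Per.const _, ⟨k _ _ hQ, ?_, ?_⟩, ?_⟩
    · rw [e1]; exact k _ _ hQ
    · rw [e1, e2]; exact k _ _ hQ
    · rw [e1]; exact k _ _ hW
  · rw [e]
    simp only [jet, D2]
    rw [e1, e2]
    rfl

theorem Cl.per_jet (h : Cl a L Q W u) : Per L (jet u) :=
  h.per.prodMk ((h.per.fderiv.comp fun B i => B (ee i)).prodMk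
    (h.per.fderiv.fderiv.comp fun B i j => B (ee i) (ee j)))

theorem isCompact_KK (ha : 0 < a) (hL : 0 < L) : IsCompact (KK n a L Q W) := by
  refine IsSeqCompact.isCompact fun J hJ => ?_
  obtain ⟨ψ, g, hψ, hg, hC, t0, t1, t2⟩ := NLib.Ell.arzela2 n a Q ha (fun k => val (J k))
    (fun k => (hJ k).1.c2) fun k => (hJ k).1.hq
  have hcl : Cl a L Q W g := by
    refine ⟨hg, fun x j => ?_, hC, NLib.Ell.ho_of_tendsto (fun k => (hJ (ψ k)).1.hw)
      fun x _ => NLib.Ell.tlu_tendsto t1 x⟩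
    refine tendsto_nhds_unique (NLib.Ell.tlu_tendsto t0 _) ?_
    simpa only [fun k => (hJ (ψ k)).1.per x j] using NLib.Ell.tlu_tendsto t0 x
  obtain ⟨G, hG, rfl⟩ := hcl.exists_mem
  refine ⟨G, hG, ψ, hψ, ?_⟩
  have hB := isCompact_closedBall (0 : E n) (√(n * L ^ 2))
  have u0 := Metric.tendstoUniformlyOn_iff.1
    (tendstoLocallyUniformly_iff_forall_isCompact.1 t0 _ hB)
  have u1 := Metric.tendstoUniformlyOn_iff.1
    (tendstoLocallyUniformly_iff_forall_isCompact.1 t1 _ hB)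
  have u2 := (Metric.tendstoUniformlyOn_iff (α := E n →L[ℝ] E n →L[ℝ] ℝ)).1
    (tendstoLocallyUniformly_iff_forall_isCompact.1 t2 _ hB)
  refine BoundedContinuousFunction.tendsto_iff_tendstoUniformly.2
    (Metric.tendstoUniformly_iff.2 fun ε hε => ?_)
  filter_upwards [u0 ε hε, u1 ε hε, u2 ε hε] with k h0 h1 h2 x
  obtain ⟨y, hy, e⟩ := (hG.1.per_jet.comp₂ (hJ (ψ k)).1.per_jet dist).reduce hL x
  show dist (G x) (J (ψ k) x) < ε
  rw [hG.2 x, (hJ (ψ k)).2 x, ← e]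
  simp only [jet, Prod.dist_eq, max_lt_iff]
  refine ⟨h0 y hy, lt_of_le_of_lt ?_ (h1 y hy), lt_of_le_of_lt ?_ (h2 y hy)⟩
  · rw [dist_eq_norm, dist_eq_norm]
    exact norm_vec_le (fderiv ℝ (val G) y - fderiv ℝ (val (J (ψ k))) y)
  · rw [dist_eq_norm]
    exact (norm_mat_le (D2 (val G) y - D2 (val (J (ψ k))) y)).trans_eq
      (dist_eq_norm (E := E n →L[ℝ] E n →L[ℝ] ℝ) _ _).symm

end Crest.Agent.N346.An.Ex

end
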