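import Crest.Agent.N346.An.UB
import Crest.Agent.R238.BootA

/-!
Row 346, An (helper28): uniform Hölder classes `UH a k` of families of smooth functions,
closure properties, composition with `UB` coefficients.
-/

set_option autoImplicit false
set_option linter.unusedSectionVars false
open MeasureTheory Filter Topology Set Metric
open scoped ContDiff
open Crest.GeometryTopology.CoordMetric
open Crest.MathPhysics.ExteriorData
open Crest.Agent.R238 (HB Ell)

noncomputable section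

namespace Crest.Agent.N346.An

open Crest.Agent.R238.Boot (hb_const hb_sum hb_of_lip)

variable {n : ℕ} {ι : Type} {a : ℝ} {u v : ι → E n → ℝ}

/-- smooth, uniformly bounded and Hölder -/
def U0 (a : ℝ) (u : ι → E n → ℝ) : Prop :=
  (∀ i, ContDiff ℝ ∞ (u i)) ∧ ∃ M, ∀ i, HB a M (u i)

/-- `k` derivatives uniformly bounded and Hölder -/
def UH (a : ℝ) : ℕ → (ι → E n → ℝ) → Prop
  | 0, u => U0 a u
  | k + 1, u => U0 a u ∧ ∀ j, UH a k fun i => pderiv j (u i)

theorem hb_common {α : Type} [Fintype α] {w : α → ι → E n → ℝ}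
    (h : ∀ p, ∃ M, ∀ i, HB a M (w p i)) : ∃ M, 1 ≤ M ∧ ∀ p i, HB a M (w p i) := by
  choose M hM using h
  refine ⟨1 + ∑ p, |M p|, le_add_of_nonneg_right (Finset.sum_nonneg fun _ _ => abs_nonneg _),
    fun p i => R238.Boot.HB.mono (hM p i) ?_⟩
  have := Finset.single_le_sum (f := fun p => |M p|) (fun _ _ => abs_nonneg _) (Finset.mem_univ p)
  linarith [le_abs_self (M p)]

theorem UH.u0 : ∀ {k : ℕ} {u : ι → E n → ℝ}, UH a k u → U0 a u
  | 0, _, h => h
  | _ + 1, _, h => h.1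

theorem UH.smooth {k : ℕ} (h : UH a k u) (i : ι) : ContDiff ℝ ∞ (u i) := h.u0.1 i

theorem UH.pd {k : ℕ} (h : UH a (k + 1) u) (j : Fin n) : UH a k fun i => pderiv j (u i) := h.2 j

theorem UH.pred : ∀ {k : ℕ} {u : ι → E n → ℝ}, UH a (k + 1) u → UH a k u
  | 0, _, h => h.1
  | _ + 1, _, h => ⟨h.1, fun j => (h.2 j).pred⟩

theorem UH.le {k m : ℕ} (h : UH a m u) (hk : k ≤ m) : UH a k u := by
  induction hk with
  | refl => exact h
  | step _ ih => exact ih h.pred

theorem UH.congr {k : ℕ} (h : UH a k u) (e : ∀ i x, v i x = u i x) : UH a k v := by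
  have : v = u := funext fun i => funext (e i)
  rwa [this]

theorem UH.const : ∀ (k : ℕ) (c : ℝ), UH a k fun (_ : ι) (_ : E n) => c
  | 0, c => ⟨fun _ => contDiff_const, |c|, fun _ => hb_const a c⟩
  | k + 1, c => ⟨⟨fun _ => contDiff_const, |c|, fun _ => hb_const a c⟩,
      fun j => (UH.const k 0).congr fun _ x => Bs.pd_const c j x⟩

theorem U0.add (h : U0 a u) (h' : U0 a v) : U0 a fun i x => u i x + v i x := by
  obtain ⟨h1, M, hM⟩ := h
  obtain ⟨h2, M', hM'⟩ := h'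
  exact ⟨fun i => (h1 i).add (h2 i), _, fun i => R238.Boot.HB.add (hM i) (hM' i)⟩

theorem U0.mul (h : U0 a u) (h' : U0 a v) : U0 a fun i x => u i x * v i x := by
  obtain ⟨h1, M, hM⟩ := h
  obtain ⟨h2, M', hM'⟩ := h'
  exact ⟨fun i => (h1 i).mul (h2 i), _, fun i => R238.Boot.HB.mul (hM i) (hM' i)⟩

theorem UH.add : ∀ {k : ℕ} {u v : ι → E n → ℝ}, UH a k u → UH a k v →
    UH a k fun i x => u i x + v i x
  | 0, _, _, h, h' => U0.add h h'
  | _ + 1, _, _, h, h' => ⟨h.1.add h'.1, fun j => ((h.2 j).add (h'.2 j)).congr fun i x =>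
      Bs.pd_add (Bs.smooth_diff (h.1.1 i) x) (Bs.smooth_diff (h'.1.1 i) x) j⟩

theorem UH.mul : ∀ {k : ℕ} {u v : ι → E n → ℝ}, UH a k u → UH a k v →
    UH a k fun i x => u i x * v i x
  | 0, _, _, h, h' => U0.mul h h'
  | _ + 1, _, _, h, h' => ⟨h.1.mul h'.1, fun j =>
      (((h.2 j).mul h'.pred).add (h.pred.mul (h'.2 j))).congr fun i x =>
      Bs.pd_mul (Bs.smooth_diff (h.1.1 i) x) (Bs.smooth_diff (h'.1.1 i) x) j⟩

theorem UH.const_mul {k : ℕ} (c : ℝ) (h : UH a k u) : UH a k fun i x => c * u i x :=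
  (UH.const k c).mul h

theorem UH.sub {k : ℕ} (h : UH a k u) (h' : UH a k v) : UH a k fun i x => u i x - v i x :=
  (h.add (h'.const_mul (-1))).congr fun _ _ => by ring

theorem UH.sum {k : ℕ} {α : Type*} (s : Finset α) {w : α → ι → E n → ℝ}
    (h : ∀ p ∈ s, UH a k (w p)) : UH a k fun i x => ∑ p ∈ s, w p i x := by
  classical
  induction s using Finset.induction_on with
  | empty => exact (UH.const k 0).congr fun _ _ => Finset.sum_empty
  | insert p s hp ih =>
    exact ((h p (Finset.mem_insert_self _ _)).add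
      (ih fun b hb => h b (Finset.mem_insert_of_mem hb))).congr fun _ _ => Finset.sum_insert hp

theorem UH.of_H2 {K : ℝ} (hs : ∀ i, ContDiff ℝ ∞ (u i)) (h : ∀ i, H2 a K (u i)) : UH a 2 u :=
  ⟨⟨hs, K, fun i => (h i).1⟩, fun j =>
    ⟨⟨fun i => Bs.contDiff_pd (hs i) j, K, fun i => (h i).2.1 j⟩, fun l =>
      ⟨fun i => Bs.contDiff_pd (Bs.contDiff_pd (hs i) j) l, K, fun i => (h i).2.2 l j⟩⟩⟩

theorem U0.bdd (h : U0 a u) : ∃ M, ∀ i x, |u i x| ≤ M := h.2.imp fun _ hM i => (hM i).1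

/-! ### from `UH` to `UC` and back -/

theorem fderiv_eq_sumL (w : E n → ℝ) : fderiv ℝ w = fun x => ∑ j,
    (ContinuousLinearMap.smulRight (1 : ℝ →L[ℝ] ℝ) (EuclideanSpace.proj j : E n →L[ℝ] ℝ))
      (pderiv j w x) := by
  funext x
  ext y
  rw [Bs.fderiv_eq_sum, _root_.sum_apply]
  exact Finset.sum_congr rfl fun j _ => by simp

theorem UH.iter_bdd : ∀ {k : ℕ} {u : ι → E n → ℝ}, UH a k u →
    ∃ C, ∀ i x, ‖iteratedFDeriv ℝ k (u i) x‖ ≤ C
  | 0, _, h => h.bdd.imp fun _ hM i x => by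
      rw [norm_iteratedFDeriv_zero]; exact hM i x
  | k + 1, u, h => by
      choose C hC using fun j => UH.iter_bdd (h.2 j)
      set L : Fin n → ℝ →L[ℝ] E n →L[ℝ] ℝ := fun j =>
        ContinuousLinearMap.smulRight (1 : ℝ →L[ℝ] ℝ) (EuclideanSpace.proj j : E n →L[ℝ] ℝ)
      refine ⟨∑ j, ‖L j‖ * C j, fun i x => ?_⟩
      have hs : ∀ j, ContDiff ℝ ∞ (pderiv j (u i)) := fun j => Bs.contDiff_pd (h.1.1 i) j
      rw [← norm_iteratedFDeriv_fderiv, fderiv_eq_sumL, iteratedFDeriv_fun_sum_apply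
        (f := fun j x => L j (pderiv j (u i) x))
        fun j _ => (((L j).contDiff.comp (hs j)).of_le (nat_le_inf k)).contDiffAt]
      exact (norm_sum_le _ _).trans (Finset.sum_le_sum fun j _ => (nd_clm (L j) (hs j) k x).trans
        (mul_le_mul_of_nonneg_left (hC j i x) (norm_nonneg _)))

theorem uc_of_uh (h : ∀ k, UH a k u) : UC u :=
  ⟨(h 0).smooth, fun k _ => (h k).iter_bdd.imp fun _ hC i x _ => hC i x⟩

theorem UC.u0 (ha : 0 < a) (ha1 : a ≤ 1) (h : UC u) : U0 a u := by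
  obtain ⟨G, -, hG⟩ := h.bdd 0
  obtain ⟨L, -, hL⟩ := h.lip (fun M => by
    by_cases hM : (0 : ℝ) ≤ M
    · simpa [hM] using convex_univ
    · simpa [hM] using convex_empty) 0
  exact ⟨h.1, _, fun i => hb_of_lip ha ha1 (fun x => hG i x le_rfl)
    fun x y => hL i x y le_rfl le_rfl⟩

/-! ### vector valued families -/

section vec

variable {Y Z : Type} [NormedAddCommGroup Y] [NormedSpace ℝ Y] [NormedAddCommGroup Z]
  [NormedSpace ℝ Z]

/-- weakly `UH` -/
def VH (a : ℝ) (k : ℕ) (w : ι → E n → Y) : Prop :=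
  ∀ L : Y →L[ℝ] ℝ, UH a k fun i x => L (w i x)

theorem VH.real {k : ℕ} (h : UH a k u) : VH a k u := fun L =>
  (h.const_mul (L 1)).congr fun i x => by
    rw [mul_comm, ← smul_eq_mul, ← map_smul, smul_eq_mul, mul_one]

theorem VH.const (k : ℕ) (c : Y) : VH a k fun (_ : ι) (_ : E n) => c := fun L => UH.const k (L c)

theorem VH.prodMk {k : ℕ} {w : ι → E n → Y} {w' : ι → E n → Z} (h : VH a k w) (h' : VH a k w') :
    VH a k fun i x => (w i x, w' i x) := fun L =>
  ((h (L.comp (ContinuousLinearMap.inl ℝ Y Z))).add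
    (h' (L.comp (ContinuousLinearMap.inr ℝ Y Z)))).congr fun i x => by
      simp [← map_add]

theorem VH.pi {k : ℕ} {α : Type} [Fintype α] {w : ι → E n → α → Y}
    (h : ∀ p, VH a k fun i x => w i x p) : VH a k w := by
  classical
  intro L
  refine (UH.sum Finset.univ fun p _ =>
    h p (L.comp (ContinuousLinearMap.single ℝ (fun _ : α => Y) p))).congr fun i x => ?_
  simp [← map_sum, Finset.univ_sum_single]

/-- uniformly locally Hölder -/
def LH (a : ℝ) (s : ι → E n → Y) : Prop :=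
  ∃ C, 0 ≤ C ∧ ∀ i x y, ‖x - y‖ ≤ 1 → ‖s i x - s i y‖ ≤ C * ‖x - y‖ ^ a

theorem LH.id (ha1 : a ≤ 1) : LH a fun (_ : ι) (x : E n) => x := by
  refine ⟨1, zero_le_one, fun _ x y h => ?_⟩
  rw [one_mul]
  exact Real.self_le_rpow_of_le_one (norm_nonneg _) h ha1

theorem LH.real (h : ∃ M, ∀ i, HB a M (u i)) : LH a u := by
  obtain ⟨M, hM⟩ := h
  exact ⟨max M 0, le_max_right _ _, fun i x y _ => ((hM i).2 x y).trans
    (mul_le_mul_of_nonneg_right (le_max_left _ _) (Real.rpow_nonneg (norm_nonneg _) _))⟩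

theorem LH.prodMk {s : ι → E n → Y} {s' : ι → E n → Z} (h : LH a s) (h' : LH a s') :
    LH a fun i x => (s i x, s' i x) := by
  obtain ⟨C, hC0, hC⟩ := h
  obtain ⟨C', -, hC'⟩ := h'
  refine ⟨max C C', hC0.trans (le_max_left _ _), fun i x y hxy => ?_⟩
  have hr : 0 ≤ ‖x - y‖ ^ a := Real.rpow_nonneg (norm_nonneg _) _
  exact norm_prod_le_iff.2
    ⟨(hC i x y hxy).trans (mul_le_mul_of_nonneg_right (le_max_left _ _) hr),
      (hC' i x y hxy).trans (mul_le_mul_of_nonneg_right (le_max_right _ _) hr)⟩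

theorem LH.pi {α : Type} [Fintype α] {s : ι → E n → α → Y}
    (h : ∀ p, LH a fun i x => s i x p) : LH a s := by
  choose C hC0 hC using h
  have h0 : 0 ≤ ∑ p, C p := Finset.sum_nonneg fun p _ => hC0 p
  refine ⟨∑ p, C p, h0, fun i x y hxy => ?_⟩
  have hr : 0 ≤ ‖x - y‖ ^ a := Real.rpow_nonneg (norm_nonneg _) _
  exact (pi_norm_le_iff_of_nonneg (mul_nonneg h0 hr)).2 fun p => (hC p i x y hxy).trans
    (mul_le_mul_of_nonneg_right
      (Finset.single_le_sum (fun p _ => hC0 p) (Finset.mem_univ p)) hr)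

/-- bounded and locally Hölder -/
theorem hb_of_loc (ha : 0 ≤ a) {w : E n → ℝ} {G L : ℝ} (hL : 0 ≤ L) (hb : ∀ x, |w x| ≤ G)
    (hl : ∀ x y, ‖x - y‖ ≤ 1 → |w x - w y| ≤ L * ‖x - y‖ ^ a) : HB a (2 * G + L) w := by
  have hG : 0 ≤ G := (abs_nonneg _).trans (hb 0)
  refine ⟨fun x => (hb x).trans (by linarith), fun x y => ?_⟩
  have hr : 0 ≤ ‖x - y‖ ^ a := Real.rpow_nonneg (norm_nonneg _) _
  rcases le_or_gt ‖x - y‖ 1 with h1 | h1
  · exact (hl x y h1).trans (mul_le_mul_of_nonneg_right (by linarith) hr)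
  · have h2 : 1 ≤ ‖x - y‖ ^ a := Real.one_le_rpow h1.le ha
    calc |w x - w y| ≤ |w x| + |w y| := abs_sub _ _
      _ ≤ (2 * G + L) * 1 := by linarith [hb x, hb y]
      _ ≤ _ := mul_le_mul_of_nonneg_left h2 (by linarith)

variable {N : Y → ℝ} {s : ι → E n → Y}

theorem UB.comp_hb (ha : 0 ≤ a) (hc : ∀ M, Convex ℝ {y | N y ≤ M}) (hb : ∃ M, ∀ i x, N (s i x) ≤ M)
    (hl : LH a s) {Θ : ι → Y → ℝ} (h : UB N Θ) : ∃ M, ∀ i, HB a M fun x => Θ i (s i x) := by
  obtain ⟨M, hM⟩ := hb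
  obtain ⟨C, hC0, hC⟩ := hl
  obtain ⟨G, -, hG⟩ := h.bdd M
  obtain ⟨L, hL0, hL⟩ := h.lip hc M
  refine ⟨2 * G + L * C, fun i => hb_of_loc ha (mul_nonneg hL0 hC0) (fun x => hG i _ (hM i x))
    fun x y hxy => (hL i _ _ (hM i x) (hM i y)).trans ?_⟩
  rw [mul_assoc]
  exact mul_le_mul_of_nonneg_left (hC i x y hxy) hL0

/-- **composition** -/
theorem UB.comp_uh [FiniteDimensional ℝ Y] (ha : 0 ≤ a) (hc : ∀ M, Convex ℝ {y | N y ≤ M})
    (hb : ∃ M, ∀ i x, N (s i x) ≤ M) (hl : LH a s) (hs : ∀ i, ContDiff ℝ ∞ (s i)) :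
    ∀ k : ℕ, (∀ m < k, ∀ j : Fin n,
      VH a m fun i x => fderiv ℝ (s i) x (EuclideanSpace.single j 1)) →
      ∀ {Θ : ι → Y → ℝ}, UB N Θ → UH a k fun i x => Θ i (s i x) := by
  intro k
  induction k with
  | zero => exact fun _ Θ h => ⟨fun i => (h.1 i).comp (hs i), h.comp_hb ha hc hb hl⟩
  | succ k ih =>
    intro hD Θ h
    refine ⟨⟨fun i => (h.1 i).comp (hs i), h.comp_hb ha hc hb hl⟩, fun j => ?_⟩
    set b := Module.finBasis ℝ Y
    refine (UH.sum Finset.univ fun p _ =>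
      (hD k (Nat.lt_succ_self k) j (LinearMap.toContinuousLinearMap (b.coord p))).mul
        (ih (fun m hm => hD m (Nat.lt_succ_of_lt hm)) (h.fd_apply (b p)))).congr fun i x => ?_
    have h1 := (((h.1 i).differentiable (by simp)) (s i x)).hasFDerivAt.comp x
      (((hs i).differentiable (by simp)) x).hasFDerivAt
    have h2 : pderiv j (fun x => Θ i (s i x)) x
        = fderiv ℝ (Θ i) (s i x) (fderiv ℝ (s i) x (EuclideanSpace.single j 1)) :=
      congrArg (fun L : E n →L[ℝ] ℝ => L (EuclideanSpace.single j 1)) h1.fderiv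
    rw [h2]
    beta_reduce
    generalize fderiv ℝ (s i) x (EuclideanSpace.single j 1) = w
    conv_lhs => rw [← b.sum_repr w, map_sum]
    exact Finset.sum_congr rfl fun p _ => by rw [map_smul]; rfl

end vec

/-! ### states -/

variable {f z : ι → E n → ℝ}

theorem fderiv_st {f z : E n → ℝ} (hf : ContDiff ℝ ∞ f) (hz : ContDiff ℝ ∞ z) (j : Fin n)
    (x : E n) : fderiv ℝ (st f z) x (EuclideanSpace.single j 1)
      = (EuclideanSpace.single j 1, pderiv j f x, pderiv j z x,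
        fun k => pderiv j (pderiv k f) x) := by
  have hs : HasFDerivAt (st f z) ((ContinuousLinearMap.id ℝ (E n)).prod ((fderiv ℝ f x).prod
      ((fderiv ℝ z x).prod (ContinuousLinearMap.pi fun k => fderiv ℝ (pderiv k f) x)))) x :=
    (hasFDerivAt_id x).prodMk ((Bs.smooth_diff hf x).hasFDerivAt.prodMk
      ((Bs.smooth_diff hz x).hasFDerivAt.prodMk (hasFDerivAt_pi.2 fun k =>
        (Bs.smooth_diff (Bs.contDiff_pd hf k) x).hasFDerivAt)))
  rw [hs.fderiv]
  rfl

theorem fderiv_xi {f z : E n → ℝ} (hf : ContDiff ℝ ∞ f) (hz : ContDiff ℝ ∞ z) (j : Fin n)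
    (x : E n) : fderiv ℝ (xi f z) x (EuclideanSpace.single j 1)
      = (fun k => pderiv j (pderiv k z) x, fun k l => pderiv j (pderiv k (pderiv l f)) x) := by
  have hs : HasFDerivAt (xi f z) ((ContinuousLinearMap.pi fun k => fderiv ℝ (pderiv k z) x).prod
      (ContinuousLinearMap.pi fun k => ContinuousLinearMap.pi fun l =>
        fderiv ℝ (pderiv k (pderiv l f)) x)) x :=
    (hasFDerivAt_pi.2 fun k => (Bs.smooth_diff (Bs.contDiff_pd hz k) x).hasFDerivAt).prodMk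
      (hasFDerivAt_pi.2 fun k => hasFDerivAt_pi.2 fun l =>
        (Bs.smooth_diff (Bs.contDiff_pd (Bs.contDiff_pd hf l) k) x).hasFDerivAt)
  rw [hs.fderiv]
  rfl

theorem lh_st (ha1 : a ≤ 1) (hf : ∃ M, ∀ i, HB a M (f i))
    (hz : ∃ M, ∀ i, HB a M (z i)) (hp : ∀ k, ∃ M, ∀ i, HB a M (pderiv k (f i))) :
    LH a fun i => st (f i) (z i) :=
  (LH.id ha1).prodMk ((LH.real hf).prodMk ((LH.real hz).prodMk
    (LH.pi fun k => LH.real (hp k))))

theorem vh_st {m : ℕ} (hf : UH a (m + 2) f) (hz : UH a (m + 1) z) (j : Fin n) :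
    VH a m fun i x => fderiv ℝ (st (f i) (z i)) x (EuclideanSpace.single j 1) := by
  have e : (fun i x => fderiv ℝ (st (f i) (z i)) x (EuclideanSpace.single j 1)) = _ :=
    funext fun i => funext fun x => fderiv_st (hf.smooth i) (hz.smooth i) j x
  rw [e]
  exact (VH.const m _).prodMk ((VH.real (hf.pred.pd j)).prodMk ((VH.real (hz.pd j)).prodMk
    (VH.pi fun k => VH.real ((hf.pd k).pd j))))

theorem n0_bdd (hf : UH a 1 f) (hz : UH a 0 z) : ∃ M, ∀ i x, N0 (st (f i) (z i) x) ≤ M := by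
  obtain ⟨A, hA⟩ := hf.u0.bdd
  obtain ⟨B, hB⟩ := hz.u0.bdd
  obtain ⟨D, hD1, hD⟩ := hb_common fun k => (hf.pd k).u0.2
  refine ⟨max A (max B D), fun i x => max_le_max (hA i x) (max_le_max (hB i x) ?_)⟩
  exact (pi_norm_le_iff_of_nonneg (zero_le_one.trans hD1)).2 fun k => (hD k i).1 x

/-- lower order coefficients along a state -/
theorem UB.along_uh (ha : 0 < a) (ha1 : a ≤ 1) {k : ℕ} (hf : UH a (k + 1) f) (hz : UH a k z)
    {Θ : ι → Y0 n → ℝ} (h : UB N0 Θ) : UH a k fun i x => Θ i (st (f i) (z i) x) :=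
  UB.comp_uh ha.le convex_N0 (n0_bdd (hf.le (by omega)) (hz.le (by omega)))
    (lh_st ha1 hf.u0.2 hz.u0.2 fun j => (hf.pd j).u0.2)
    (fun i => contDiff_st (hf.smooth i) (hz.smooth i)) k
    (fun _ hm j => vh_st (hf.le (by omega)) (hz.le (by omega)) j) h

/-- top order coefficients along a state -/
theorem UB.along1_uh (ha : 0 < a) (ha1 : a ≤ 1) {k : ℕ} (hf : UH a (k + 2) f)
    (hz : UH a (k + 1) z) {Θ : ι → Y1 n → ℝ} (h : UB N1 Θ) :
    UH a k fun i x => Θ i (st (f i) (z i) x, xi (f i) (z i) x) := by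
  have hst := fun i => contDiff_st (hf.smooth i) (hz.smooth i)
  have hxi := fun i => contDiff_xi (hf.smooth i) (hz.smooth i)
  refine UB.comp_uh (s := fun i x => (st (f i) (z i) x, xi (f i) (z i) x)) ha.le convex_N1 ?_ ?_
    (fun i => (hst i).prodMk (hxi i)) k (fun m hm j => ?_) h
  · obtain ⟨M, hM⟩ := n0_bdd (hf.le (by omega)) (hz.le (by omega))
    obtain ⟨A, hA1, hA⟩ := hb_common fun k => (hz.pd k).u0.2
    obtain ⟨B, hB1, hB⟩ := hb_common fun p : Fin n × Fin n => ((hf.pd p.2).pd p.1).u0.2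
    refine ⟨max M (max A B), fun i x => max_le_max (hM i x) (max_le_max ?_ ?_)⟩
    · exact (pi_norm_le_iff_of_nonneg (zero_le_one.trans hA1)).2 fun k => (hA k i).1 x
    · exact (pi_norm_le_iff_of_nonneg (zero_le_one.trans hB1)).2 fun k =>
        (pi_norm_le_iff_of_nonneg (zero_le_one.trans hB1)).2 fun l => (hB (k, l) i).1 x
  · exact (lh_st ha1 hf.u0.2 hz.u0.2 fun j => (hf.pd j).u0.2).prodMk
      ((LH.pi fun k => LH.real (hz.pd k).u0.2).prodMk
        (LH.pi fun k => LH.pi fun l => LH.real ((hf.pd l).pd k).u0.2))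
  · have e : (fun i x => fderiv ℝ (fun x => (st (f i) (z i) x, xi (f i) (z i) x)) x
        (EuclideanSpace.single j 1)) = fun i x =>
        (fderiv ℝ (st (f i) (z i)) x (EuclideanSpace.single j 1),
          fun k => pderiv j (pderiv k (z i)) x,
          fun k l => pderiv j (pderiv k (pderiv l (f i))) x) := by
      funext i x
      rw [((hst i).differentiable (by simp) x).fderiv_prodMk ((hxi i).differentiable (by simp) x),
        ← fderiv_xi (hf.smooth i) (hz.smooth i)]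
      rfl
    rw [e]
    have hf' : UH a (m + 3) f := hf.le (by omega)
    have hz' : UH a (m + 2) z := hz.le (by omega)
    exact (vh_st hf'.pred hz'.pred j).prodMk ((VH.pi fun k => VH.real ((hz'.pd k).pd j)).prodMk
      (VH.pi fun k => VH.pi fun l => VH.real (((hf'.pd l).pd k).pd j)))

end Crest.Agent.N346.An

end
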