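import Crest.Agent.N346.An.ExK
import Crest.Agent.N346.An.UH
import Crest.Agent.N346.An.Freeze

/-!
Row 346, An-EX (helper53): one step of the iteration, with the invariant bounds.
-/

set_option autoImplicit false
open MeasureTheory Filter Topology Set Metric
open scoped ContDiff BoundedContinuousFunction
open Crest.GeometryTopology.CoordMetric
open Crest.Agent.R238 (HB Ell)
open Crest.Agent.R238.Sch (D2 ee)
open Crest.Agent.R273.SchA_152 Crest.Agent.R273.SchD_152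
open Crest.Agent.R273.SchB_152 (P2)

noncomputable section

namespace Crest.Agent.N346.An.Ex

open Crest.Agent.R238.Boot (hb_sum hb_of_lip)

variable {n : ℕ} {a L M : ℝ} {u f z : E n → ℝ}

/-- the linear problems with frozen coefficients -/
structure Rel (S : Sys n) (f z f' z' : E n → ℝ) : Prop where
  e1 : ∀ x, P2 (fun y => S.a1 (st f z y)) f' x - f' x
    = S.c1 (st f z x) + ∑ i, S.b1 (st f z x) i * pderiv i z' x - f x
  e2 : ∀ x, P2 (fun y => S.a2 (st f z y)) z' x - z' x = S.F2 (st f z x, xi f z x) - z x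

theorem n0_le_n1 (y : Y1 n) : N0 y.1 ≤ N1 y := le_max_left _ _

theorem xi_le_n1 (y : Y1 n) : ‖y.2‖ ≤ N1 y := le_max_right _ _

theorem hb_of_pd (ha : 0 < a) (ha1 : a ≤ 1) (hu : Differentiable ℝ u) (h0 : ∀ x, |u x| ≤ M)
    (h1 : ∀ x k, |pderiv k u x| ≤ M) : HB a (2 * M + |n * M|) u :=
  hb_of_lip ha ha1 h0 fun x y => convex_univ.norm_image_sub_le_of_norm_fderiv_le
    (fun w _ => hu w) (fun w _ => norm_fderiv_le_of_pd ((abs_nonneg _).trans (h0 0)) (h1 w))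
    (mem_univ y) (mem_univ x)

theorem diff_pd (hu : ContDiff ℝ 2 u) (k : Fin n) : Differentiable ℝ (pderiv k u) :=
  (diff2 hu).clm_apply (differentiable_const _)

/-- bounds of the frozen coefficients -/
structure Coef (a C : ℝ) (S : Sys n) (f z : E n → ℝ) : Prop where
  a1 : ∀ k l, HB a C fun x => S.a1 (st f z x) k l
  a2 : ∀ k l, HB a C fun x => S.a2 (st f z x) k l
  b1 : ∀ k, HB a C fun x => S.b1 (st f z x) k
  c1 : HB a C fun x => S.c1 (st f z x)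
  hf : HB a C f
  hz : HB a C z
  F0 : ∀ x, |S.F2 (st f z x, xi f z x)| ≤ C
  F2 : ∀ H, 0 ≤ H → (∀ x y, ‖xi f z x - xi f z y‖ ≤ H * ‖x - y‖ ^ a) →
    HB a (C * (1 + H)) fun x => S.F2 (st f z x, xi f z x)

theorem coef {ι : Type} {S : ι → Sys n} (hA : Adm S) (ha : 0 < a) (ha1 : a ≤ 1) (M : ℝ) :
    ∃ C, 0 < C ∧ ∀ i f z, ContDiff ℝ 2 f → ContDiff ℝ 2 z →
      (∀ x, N1 (st f z x, xi f z x) ≤ M) → Coef a C (S i) f z := by
  let κ : Type := {q : ι × (E n → ℝ) × (E n → ℝ) // ContDiff ℝ 2 q.2.1 ∧ ContDiff ℝ 2 q.2.2 ∧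
    ∀ x, N1 (st q.2.1 q.2.2 x, xi q.2.1 q.2.2 x) ≤ M}
  have b0 : ∀ (q : κ) x, N0 (st q.1.2.1 q.1.2.2 x) ≤ M := fun q x =>
    (n0_le_n1 (_, _)).trans (q.2.2.2 x)
  have b1 : ∀ (q : κ) x, ‖xi q.1.2.1 q.1.2.2 x‖ ≤ M := fun q x =>
    (xi_le_n1 (_, _)).trans (q.2.2.2 x)
  have hf : ∀ q : κ, HB a (2 * M + |n * M|) q.1.2.1 := fun q => hb_of_pd ha ha1 (diff1 q.2.1)
    (fun x => (abs_f_le _).trans (b0 q x)) fun x k => (abs_p_le _ k).trans (b0 q x)
  have hz : ∀ q : κ, HB a (2 * M + |n * M|) q.1.2.2 := fun q => hb_of_pd ha ha1 (diff1 q.2.2.1)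
    (fun x => (abs_z_le _).trans (b0 q x)) fun x k => (abs_xi1_le _ k).trans (b1 q x)
  have hp : ∀ k (q : κ), HB a (2 * M + |n * M|) (pderiv k q.1.2.1) := fun k q =>
    hb_of_pd ha ha1 (diff_pd q.2.1 k) (fun x => (abs_p_le _ k).trans (b0 q x))
      fun x l => (abs_xi2_le _ l k).trans (b1 q x)
  have hl : LH a fun q : κ => st q.1.2.1 q.1.2.2 :=
    lh_st ha1 ⟨_, hf⟩ ⟨_, hz⟩ fun k => ⟨_, hp k⟩
  have hc : ∀ {Θ : ι → Y0 n → ℝ}, UB N0 Θ →
      ∃ C, ∀ q : κ, HB a C fun x => Θ q.1.1 (st q.1.2.1 q.1.2.2 x) := fun h =>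
    UB.comp_hb ha.le convex_N0 ⟨M, b0⟩ hl (h.reindex fun q : κ => q.1.1)
  obtain ⟨C1, -, h1⟩ := hb_common fun p : Fin n × Fin n => hc (hA.a1 p.1 p.2)
  obtain ⟨C2, -, h2⟩ := hb_common fun p : Fin n × Fin n => hc (hA.a2 p.1 p.2)
  obtain ⟨C3, -, h3⟩ := hb_common fun k : Fin n => hc (hA.b1 k)
  obtain ⟨C4, h4⟩ := hc hA.c1
  obtain ⟨C5, p5, h5⟩ := hl
  obtain ⟨G, pG, hG⟩ := hA.F2.ub.bdd M
  obtain ⟨C6, p6, h6⟩ := hA.F2.ub.lip convex_N1 M
  set C := 1 + |C1| + |C2| + |C3| + |C4| + abs (2 * M + |n * M|) + 2 * G + C6 * C5 + C6 with hC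
  have q1 := abs_nonneg C1
  have q2 := abs_nonneg C2
  have q3 := abs_nonneg C3
  have q4 := abs_nonneg C4
  have q5 := abs_nonneg (2 * M + |n * M|)
  have q6 := mul_nonneg p6 p5
  refine ⟨C, by positivity, fun i f z sf sz hb => ?_⟩
  let q : κ := ⟨(i, f, z), sf, sz, hb⟩
  refine ⟨fun k l => R238.Boot.HB.mono (h1 (k, l) q) (by linarith [le_abs_self C1]),
    fun k l => R238.Boot.HB.mono (h2 (k, l) q) (by linarith [le_abs_self C2]),
    fun k => R238.Boot.HB.mono (h3 k q) (by linarith [le_abs_self C3]),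
    R238.Boot.HB.mono (h4 q) (by linarith [le_abs_self C4]),
    R238.Boot.HB.mono (hf q) (by linarith [le_abs_self (2 * M + |n * M|)]),
    R238.Boot.HB.mono (hz q) (by linarith [le_abs_self (2 * M + |n * M|)]),
    fun x => (hG i _ (hb x)).trans (by linarith), fun H hH hx => ?_⟩
  refine R238.Boot.HB.mono (hb_of_loc (G := G) (L := C6 * (C5 + H)) ha.le (by positivity)
    (fun x => hG i _ (hb x)) fun x y hxy => (h6 i _ _ (hb x) (hb y)).trans ?_) ?_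
  · rw [mul_assoc]
    have hr : 0 ≤ ‖x - y‖ ^ a := Real.rpow_nonneg (norm_nonneg _) _
    refine mul_le_mul_of_nonneg_left (norm_prod_le_iff.2 ⟨(h5 q x y hxy).trans ?_,
      (hx x y).trans ?_⟩) p6
    · exact mul_le_mul_of_nonneg_right (by linarith) hr
    · exact mul_le_mul_of_nonneg_right (by linarith) hr
  · have : C6 * H ≤ C * H := mul_le_mul_of_nonneg_right (by linarith) hH
    nlinarith

theorem xi_hol {Qf Qz W : ℝ} (hf : Cl a L Qf Qf f) (hz : Cl a L Qz W z) (x y : E n) :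
    ‖xi f z x - xi f z y‖ ≤ (Qf + W) * ‖x - y‖ ^ a := by
  have hr : 0 ≤ ‖x - y‖ ^ a := Real.rpow_nonneg (norm_nonneg _) _
  have p1 := hf.hw.nonneg (mem_univ x)
  have p2 := hz.hw.nonneg (mem_univ x)
  have h0 : 0 ≤ (Qf + W) * ‖x - y‖ ^ a := by positivity
  refine norm_prod_le_iff.2 ⟨(pi_norm_le_iff_of_nonneg h0).2 fun k => ?_,
    (pi_norm_le_iff_of_nonneg h0).2 fun k => (pi_norm_le_iff_of_nonneg h0).2 fun l => ?_⟩
  · exact ((ho_apply_ee hz.hw k).hol x trivial y trivial).trans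
      (mul_le_mul_of_nonneg_right (by linarith) hr)
  · exact (((h2_of_c2a hf.c2 hf.hq).2.2 k l).2 x y).trans
      (mul_le_mul_of_nonneg_right (by linarith) hr)

theorem step {ι : Type} {S : ι → Sys n} (hA : Adm S) (hP : ∀ i, (S i).Per L) (ha : 0 < a)
    (ha1 : a < 1) (M : ℝ) : ∃ Qf Qz W, 0 ≤ Qf ∧ 0 ≤ Qz ∧ 0 ≤ W ∧ ∀ i f z, Cl a L Qf Qf f →
      Cl a L Qz W z → (∀ x, N1 (st f z x, xi f z x) ≤ M) →
      ∃ f' z', Cl a L Qf Qf f' ∧ Cl a L Qz W z' ∧ Rel (S i) f z f' z' := by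
  obtain ⟨lo, hi, hlo, hlh, hell⟩ := hA.ell M
  obtain ⟨C, hC, hco⟩ := coef hA ha ha1.le M
  obtain ⟨Cs, hCs, hS⟩ := NLib.Ell.gSch' n a lo hi C ha ha1 hlo hlh
  set α := Cs * C * (1 + 2 * n * C * Cs) with hα
  have pα : 0 < α := by positivity
  obtain ⟨Ci, hCi, hI⟩ := R238.Sch.interp (n := n) (r := 1 / 2) (ε := 1 / (8 * α)) ha ha1.le
    (by norm_num) (by positivity)
  set β := Cs * C * (2 + 2 * C * Cs) with hβ
  set W := 2 * (4 * (1 / (8 * α) * β) + 8 * Ci * C) with hW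
  have pW : 0 ≤ W := by positivity
  set Qf := Cs * (C + n * (2 * (C * W)) + C) with hQf
  have pf : 0 ≤ Qf := by positivity
  set Qz := Cs * (C * (1 + (Qf + W)) + C) with hQz
  refine ⟨Qf, Qz, W, pf, by positivity, pW, fun i f z hf hz hb => ?_⟩
  have co := hco i f z hf.c2 hz.c2 hb
  have el := fun x => hell i (st f z x) ((n0_le_n1 (_, _)).trans (hb x))
  -- the second equation
  have r2 := hb_iff_ho.1 (R238.Boot.HB.sub (co.F2 _ (by positivity) (xi_hol hf hz)) co.hz)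
  obtain ⟨z', sz, vz, ez⟩ := NLib.Ell.solve_all n a lo hi C ha ha1 hlo hlh
    (fun y => (S i).a2 (st f z y)) _ _ (fun x => (el x).2) (fun k l => hb_iff_ho.1 (co.a2 k l)) r2
  have qz : C2A a Qz univ z' := hS _ z' _ (fun x => (el x).2) (fun k l => hb_iff_ho.1 (co.a2 k l))
    sz vz (r2.congr fun x _ => ez x)
  have bz : ∀ x, |z' x| ≤ 2 * C := NLib.Ell.maxP n lo hi hlo.le _ z' _ (fun x => (el x).2) sz
    ⟨_, fun x => qz.h0.bdd x trivial⟩ fun x => by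
      rw [ez x]
      exact (abs_sub _ _).trans (by linarith [co.F0 x, co.hz.1 x])
  have wz : HO a W univ (fderiv ℝ z') := by
    refine (NLib.Ell.ho_glob (Q := 1 / (8 * α) * Qz + Ci * (2 * C)) ha.le ha1.le
      fun c => ?_).mono ?_
    · have := (hI z' Qz (2 * C) c sz (NLib.Ell.hb_of_ho qz.h2) fun x _ => bz x).1
      exact ⟨this.d0, this.d1⟩
    · have e : Qz = β + α * W := by rw [hQz, hQf, hα, hβ]; ring
      have e2 : 1 / (8 * α) * (α * W) = W / 8 := by field_simp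
      rw [e, mul_add (1 / (8 * α)), e2]
      linarith
  have pz : Per L z' := fun x j => NLib.Ell.sol_periodic NLib.Ell.maxP hlo.le (fun x => (el x).2)
    sz ⟨_, bz⟩ ez (fun y => Per.along (hP i).a2 hf.per hz.per y j)
    (fun y => ((Per.along1 (hP i).F2 hf.per hz.per).comp₂ hz.per (· - ·)) y j) x
  -- the first equation
  have r1 := hb_iff_ho.1 (R238.Boot.HB.sub (R238.Boot.HB.add co.c1 (hb_sum Finset.univ
    fun k _ => R238.Boot.HB.mul (co.b1 k) (hb_iff_ho.2 (ho_apply_ee wz k)))) co.hf)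
  rw [Finset.sum_const, Finset.card_univ, Fintype.card_fin, nsmul_eq_mul] at r1
  obtain ⟨f', sf, vf, ef⟩ := NLib.Ell.solve_all n a lo hi C ha ha1 hlo hlh
    (fun y => (S i).a1 (st f z y)) _ _ (fun x => (el x).1) (fun k l => hb_iff_ho.1 (co.a1 k l)) r1
  have qf : C2A a Qf univ f' := hS _ f' _ (fun x => (el x).1) (fun k l => hb_iff_ho.1 (co.a1 k l))
    sf vf (r1.congr fun x _ => ef x)
  have pf' : Per L f' := fun x j => NLib.Ell.sol_periodic NLib.Ell.maxP hlo.le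
    (fun x => (el x).1) sf ⟨_, fun x => qf.h0.bdd x trivial⟩ ef
    (fun y => Per.along (hP i).a1 hf.per hz.per y j)
    (fun y => (((Per.along (hP i).c1 hf.per hz.per).comp₂
      ((Per.along (hP i).b1 hf.per hz.per).comp₂ pz.fderiv fun b B => ∑ k, b k * B (ee k))
        (· + ·)).comp₂ hf.per (· - ·)) y j) x
  exact ⟨f', z', ⟨sf, pf', qf, qf.h1⟩, ⟨sz, pz, qz, wz⟩, ef, ez⟩

theorem Rel.uniq {S : Sys n} {lo hi : ℝ} (hlo : 0 ≤ lo)
    (el : ∀ x, Ell lo hi (S.a1 (st f z x)) ∧ Ell lo hi (S.a2 (st f z x)))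
    {Q1 W1 Q2 W2 : ℝ} {f1 z1 f2 z2 : E n → ℝ} (h1 : Rel S f z f1 z1) (h2 : Rel S f z f2 z2)
    (cf1 : Cl a L Q1 W1 f1) (cz1 : Cl a L Q2 W2 z1) (cf2 : Cl a L Q1 W1 f2)
    (cz2 : Cl a L Q2 W2 z2) : f1 = f2 ∧ z1 = z2 := by
  have ez : z1 = z2 := NLib.Ell.sol_unique NLib.Ell.maxP hlo (fun x => (el x).2) cz1.c2 cz2.c2
    ⟨_, fun x => cz1.hq.h0.bdd x trivial⟩ ⟨_, fun x => cz2.hq.h0.bdd x trivial⟩
    fun x => (h1.e2 x).trans (h2.e2 x).symm
  subst ez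
  exact ⟨NLib.Ell.sol_unique NLib.Ell.maxP hlo (fun x => (el x).1) cf1.c2 cf2.c2
    ⟨_, fun x => cf1.hq.h0.bdd x trivial⟩ ⟨_, fun x => cf2.hq.h0.bdd x trivial⟩
    fun x => (h1.e1 x).trans (h2.e1 x).symm, rfl⟩

end Crest.Agent.N346.An.Ex

end
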