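import Crest.Agent.N346.An.LinApp

/-!
Row 346, An: excess decay (helper53).  `excess : PoinStmt → L2SchStmt → ExcessStmt`.
-/

set_option autoImplicit false
open MeasureTheory Filter Topology Set Metric
open scoped ContDiff ENNReal
open Crest.GeometryTopology.CoordMetric
open Crest.MathPhysics.ExteriorData
open Crest.Agent.R238 (HB Ell)
open Crest.Agent.N346.Bs

noncomputable section

namespace Crest.Agent.N346.An

variable {n : ℕ}

theorem int_scale (F : E n → ℝ) (x0 : E n) {r : ℝ} (hr : 0 < r) (s : ℝ) :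
    ∫ y in ball (0 : E n) s, F (x0 + r • y) = (∫ x in ball x0 (s * r), F x) / r ^ n := by
  have h1 := Measure.integral_comp_smul (volume : Measure (E n))
    (fun t => (ball x0 (s * r)).indicator F (x0 + t)) r
  rw [integral_add_left_eq_self ((ball x0 (s * r)).indicator F) x0,
    integral_indicator measurableSet_ball] at h1
  have hfr : Module.finrank ℝ (E n) = n := by simp
  rw [hfr, smul_eq_mul, abs_of_pos (by positivity)] at h1
  rw [div_eq_inv_mul, ← h1, ← integral_indicator measurableSet_ball]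
  refine integral_congr_ae (Eventually.of_forall fun y => ?_)
  have e : x0 + r • y ∈ ball x0 (s * r) ↔ y ∈ ball (0 : E n) s := by
    rw [mem_ball_iff_norm, add_sub_cancel_left, mem_ball_zero_iff, norm_smul, Real.norm_eq_abs,
      abs_of_pos hr, mul_comm s r, mul_lt_mul_iff_right₀ hr]
  by_cases hy : y ∈ ball (0 : E n) s
  · simp only [indicator_of_mem hy, indicator_of_mem (e.2 hy)]
  · simp only [indicator_of_notMem hy, indicator_of_notMem (fun h => hy (e.1 h))]

theorem contDiff_scale {k : WithTop ℕ∞} {u : E n → ℝ} (hu : ContDiff ℝ k u) (c : ℝ) (x0 : E n)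
    (r : ℝ) : ContDiff ℝ k fun y : E n => c * u (x0 + r • y) :=
  contDiff_const.mul (hu.comp (contDiff_const.add (contDiff_id.const_smul r)))

theorem pd_scale {u : E n → ℝ} (hu : ContDiff ℝ 1 u) (c : ℝ) (x0 : E n) (r : ℝ) (i : Fin n) :
    pderiv i (fun y => c * u (x0 + r • y)) = fun y => (c * r) * pderiv i u (x0 + r • y) := by
  funext y
  have h1 : HasFDerivAt (fun t : E n => x0 + r • t) (r • ContinuousLinearMap.id ℝ (E n)) y := by
    simpa using ((hasFDerivAt_id (𝕜 := ℝ) y).const_smul r).const_add x0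
  have h2 := ((hu.differentiable one_ne_zero (x0 + r • y)).hasFDerivAt.comp y h1).const_mul c
  have h3 : fderiv ℝ (fun y => c * u (x0 + r • y)) y = _ := h2.fderiv
  simp only [pderiv, h3]
  simp [mul_assoc]

theorem amgm {r a e s : ℝ} (hs : s ^ 2 = e) :
    r * ((r + a) * s) ≤ r ^ 2 + a ^ 2 + r ^ 2 * e / 2 := by
  nlinarith [sq_nonneg (r + a - r * s), sq_nonneg (r - a)]

set_option maxHeartbeats 800000 in
theorem excess (hP : PoinStmt) (hL : L2SchStmt) : ExcessStmt := by
  intro n hn M K c hc hcK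
  obtain ⟨C, hC, H⟩ := linApp hP hL hn hc hcK
  obtain ⟨C0, hC0, HP⟩ := hP n
  have hK : 0 < K := hc.trans_le hcK
  have hom := om_nonneg n
  refine ⟨C, hC, fun θ hθ hθ1 => ?_⟩
  obtain ⟨Cθ, hCθ, H⟩ := H θ hθ hθ1
  set K' := K * (2 * om n + C0 + 1) with hK'
  refine ⟨Cθ * (2 * K' ^ 2), by positivity, fun f z hS x0 r hr hr1 => ?_⟩
  have hf := hS.sf
  have hz := hS.sz
  have hz1 := smooth_one hz
  have hf1 := smooth_one hf
  have hp1 : ∀ l, ContDiff ℝ 1 (pderiv l f) := fun l => smooth_one (contDiff_pd hf l)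
  have cen := continuous_en hf hz
  have en0 : ∀ x, 0 ≤ en f z x := fun x => by
    rw [← sum_gsq_pd]
    exact add_nonneg (gsq_nn _ _) (Finset.sum_nonneg fun _ _ => gsq_nn _ _)
  have hrn : 0 < r ^ n := by positivity
  -- the frozen state
  obtain ⟨y0, -, hy0⟩ := HP (Option (Fin n)) (fun o => o.elim z fun l => pderiv l f) x0 r hr
    fun o => by cases o <;> simp [hz1, hp1]
  simp only [Fintype.sum_option, Option.elim_none, Option.elim_some, sum_gsq_pd, ← osc_sq] at hy0
  set zb := z y0
  set pb : Fin n → ℝ := fun l => pderiv l f y0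
  set o := osc f z zb pb with ho
  have o0 : ∀ x, 0 ≤ o x := fun x => Real.sqrt_nonneg _
  have co : Continuous o := by
    refine Continuous.sqrt (((hz.continuous.sub continuous_const).pow 2).add ?_)
    exact continuous_finsetSum _ fun l _ => ((hp1 l).continuous.sub continuous_const).pow 2
  obtain ⟨A1, A2, b, G, hA1, hA2, hb, hG, hfr⟩ := hS.frz x0 zb pb (hS.bz y0) (hS.bf y0)
  set I := sE f z x0 r with hI
  have hIdef : I = r ^ 2 * (∫ x in ball x0 r, en f z x) / r ^ n := rfl
  have hI0 : 0 ≤ I := by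
    rw [hIdef]
    exact div_nonneg (mul_nonneg (sq_nonneg _) (integral_nonneg en0)) hrn.le
  -- rescaling
  have sc : Continuous fun y : E n => x0 + r • y := by fun_prop
  set ft : E n → ℝ := fun y => r⁻¹ * f (x0 + r • y) with hft
  set zt : E n → ℝ := fun y => 1 * z (x0 + r • y) with hzt
  set Gt : VectorField n := fun y k => r * G (x0 + r • y) k with hGt
  have pf : ∀ i, pderiv i ft = fun y => 1 * pderiv i f (x0 + r • y) := fun i => by
    rw [hft, pd_scale hf1, inv_mul_cancel₀ hr.ne']
  have pz : ∀ i, pderiv i zt = fun y => r * pderiv i z (x0 + r • y) := fun i => by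
    rw [hzt, pd_scale hz1, one_mul]
  have pff : ∀ i j y, pderiv i (pderiv j ft) y = r * pderiv i (pderiv j f) (x0 + r • y) :=
    fun i j y => by rw [pf, pd_scale (hp1 j), one_mul]
  have pzz : ∀ i j y, pderiv i (pderiv j zt) y = r * r * pderiv i (pderiv j z) (x0 + r • y) :=
    fun i j y => by rw [pz, pd_scale (smooth_one (contDiff_pd hz j))]
  have ent : ∀ y, en ft zt y = r ^ 2 * en f z (x0 + r • y) := fun y => by
    simp only [en, gsq, pff, pz, mul_pow, Finset.mul_sum, mul_add]
  have dG : ∀ y, divE Gt y = r * r * divE G (x0 + r • y) := fun y => by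
    simp only [divE, Finset.mul_sum]
    exact Finset.sum_congr rfl fun k _ => congrFun (pd_scale (hG k) r x0 r k) y
  have a2 : ∀ y, aD2 (fun _ => A2) zt y = r * r * aD2 (fun _ => A2) z (x0 + r • y) := fun y => by
    simp only [aD2, pzz, Finset.mul_sum, mul_left_comm (r * r)]
  have a1 : ∀ y, aD2 (fun _ => A1) ft y = r * aD2 (fun _ => A1) f (x0 + r • y) := fun y => by
    simp only [aD2, pff, Finset.mul_sum, mul_left_comm r]
  have hE : ∫ y in ball (0 : E n) 1, r ^ 2 * en f z (x0 + r • y) = I := by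
    rw [integral_const_mul, int_scale _ _ hr, one_mul, hIdef, mul_div_assoc]
  have hO : ∫ y in ball (0 : E n) 1, o (x0 + r • y) ^ 2 ≤ C0 * I := by
    rw [int_scale (fun x => o x ^ 2) _ hr, one_mul, hIdef, ← mul_div_assoc, ← mul_assoc]
    exact div_le_div_of_nonneg_right hy0 hrn.le
  -- a common majorant
  have c1 : Continuous fun y => o (x0 + r • y) ^ 2 := (co.comp sc).pow 2
  have c2 : Continuous fun y => r ^ 2 * en f z (x0 + r • y) := continuous_const.mul (cen.comp sc)
  have maj : ∀ h : E n → ℝ, Continuous h → (∀ y ∈ ball (0 : E n) 1,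
      h y ≤ K * (2 * r + o (x0 + r • y) ^ 2 + r ^ 2 * en f z (x0 + r • y))) →
      ∫ y in ball (0 : E n) 1, h y ≤ K' * (r + I) := by
    intro h hh hle
    refine (int_ball_le (k := fun y => K * (2 * r + o (x0 + r • y) ^ 2
      + r ^ 2 * en f z (x0 + r • y))) hh
      (continuous_const.mul ((continuous_const.add c1).add c2)) 0 1 hle).trans ?_
    have i0 : IntegrableOn (fun _ : E n => 2 * r) (ball (0 : E n) 1) :=
      intOn_ball continuous_const 0 1
    have i1 : IntegrableOn (fun y : E n => 2 * r + o (x0 + r • y) ^ 2) (ball (0 : E n) 1) :=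
      i0.add (intOn_ball c1 0 1)
    rw [integral_const_mul, integral_add i1 (intOn_ball c2 0 1),
      integral_add i0 (intOn_ball c1 0 1), hE, setIntegral_const, smul_eq_mul, hK', mul_assoc]
    refine mul_le_mul_of_nonneg_left ?_ hK.le
    have e : volume.real (ball (0 : E n) 1) = om n := rfl
    rw [e]
    nlinarith [mul_nonneg hom hI0, mul_nonneg hC0.le hr.le]
  have hr2 : r ^ 2 ≤ r := by nlinarith
  have key : ∀ y ∈ ball (0 : E n) 1, r * ((‖x0 + r • y - x0‖ + o (x0 + r • y))
      * √(en f z (x0 + r • y))) ≤ r + o (x0 + r • y) ^ 2 + r ^ 2 * en f z (x0 + r • y) := by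
    intro y hy
    have h1 : ‖x0 + r • y - x0‖ ≤ r := by
      rw [add_sub_cancel_left, norm_smul, Real.norm_eq_abs, abs_of_pos hr]
      exact mul_le_of_le_one_right hr.le (mem_ball_zero_iff.1 hy).le
    have h2 := amgm (r := r) (a := o (x0 + r • y)) (Real.sq_sqrt (en0 (x0 + r • y)))
    have h3 : r * ((‖x0 + r • y - x0‖ + o (x0 + r • y)) * √(en f z (x0 + r • y)))
        ≤ r * ((r + o (x0 + r • y)) * √(en f z (x0 + r • y))) := by gcongr
    have h4 := mul_nonneg (sq_nonneg r) (en0 (x0 + r • y))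
    linarith
  have sft : ContDiff ℝ ∞ ft := contDiff_scale hf _ _ _
  have szt : ContDiff ℝ ∞ zt := contDiff_scale hz _ _ _
  have sGt : ∀ k, ContDiff ℝ 1 fun y => Gt y k := fun k => contDiff_scale (hG k) _ _ _
  have cdG : Continuous (divE Gt) := continuous_finsetSum _ fun i _ => continuous_pd (sGt i) i
  obtain ⟨zb', pb', h1, h2, h3⟩ := H ft zt A1 A2 b Gt M (√I) (K' * (r + I)) sft szt sGt hA1 hA2 hb
    (fun y => by simpa [hzt] using hS.bz _) (fun y i => by simpa [pf] using hS.bf _ i)
    (Real.sqrt_nonneg _) (by simp only [ent]; rw [hE, Real.sq_sqrt hI0])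
    (maj _ ((continuous_aD2 szt A2).sub cdG).abs fun y _ => by
      have h4 := (hfr (x0 + r • y)).1
      have h5 := mul_le_mul_of_nonneg_left h4 (mul_self_nonneg r)
      show |aD2 (fun _ => A2) zt y - divE Gt y| ≤ _
      rw [a2, dG, ← mul_sub, abs_mul, abs_of_nonneg (mul_self_nonneg r)]
      have h6 : K * r ^ 2 ≤ K * (2 * r + o (x0 + r • y) ^ 2) :=
        mul_le_mul_of_nonneg_left (by nlinarith [sq_nonneg (o (x0 + r • y))]) hK.le
      linarith)
    (fun k => maj _ (sGt k).continuous.abs fun y hy => by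
      have h4 := mul_le_mul_of_nonneg_left ((hfr (x0 + r • y)).2.1 k) hr.le
      have h5 := mul_le_mul_of_nonneg_left (key y hy) hK.le
      show |r * G (x0 + r • y) k| ≤ _
      rw [abs_mul, abs_of_pos hr]
      have h6 : 0 ≤ K * r := by positivity
      linarith)
    (maj _ ((continuous_aD2 sft A1).sub (continuous_finsetSum _ fun i _ =>
      continuous_const.mul (continuous_pd (smooth_one szt) i))).abs fun y hy => by
      have h4 := mul_le_mul_of_nonneg_left (hfr (x0 + r • y)).2.2 hr.le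
      have h5 := mul_le_mul_of_nonneg_left (key y hy) hK.le
      show |aD2 (fun _ => A1) ft y - ∑ i, b i * pderiv i zt y| ≤ _
      have e : ∑ i, b i * pderiv i zt y = r * ∑ i, b i * pderiv i z (x0 + r • y) := by
        simp only [pz, Finset.mul_sum, mul_left_comm r]
      rw [a1, e, ← mul_sub, abs_mul, abs_of_pos hr]
      linarith)
  refine ⟨zb', pb', h1, h2, ?_⟩
  have e1 : ∀ y, osc ft zt zb' pb' y = osc f z zb' pb' (x0 + r • y) := fun y => by
    simp only [osc, pf, hzt, one_mul]
  simp only [e1] at h3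
  rw [int_scale (fun x => osc f z zb' pb' x ^ 2) _ hr, Real.sq_sqrt hI0] at h3
  have hθn : 0 < θ ^ n := by positivity
  have e2 : sX f z zb' pb' x0 (θ * r)
      = (∫ x in ball x0 (θ * r), osc f z zb' pb' x ^ 2) / r ^ n / θ ^ n := by
    rw [sX, mul_pow, div_div, mul_comm (θ ^ n)]
  rw [e2, div_le_iff₀ hθn]
  refine h3.trans ?_
  rw [mul_comm (θ ^ n)]
  refine mul_le_mul_of_nonneg_right ?_ hθn.le
  have h4 : (K' * (r + I)) ^ 2 ≤ 2 * K' ^ 2 * (I ^ 2 + r ^ 2) := by
    nlinarith [mul_nonneg (sq_nonneg K') (sq_nonneg (r - I))]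
  have h5 := mul_le_mul_of_nonneg_left h4 hCθ.le
  linarith

end Crest.Agent.N346.An

end
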