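import Crest.Agent.N346.An.Defs
import Crest.Agent.NLib.Ell.Mat
import Crest.Agent.R273.SchD_152

/-!
Row 346, An-G (helper26): the `L² → C²` estimate for constant coefficients.
-/

set_option autoImplicit false
open MeasureTheory Filter Topology Set Metric
open scoped ContDiff Gradient
open Crest.GeometryTopology.CoordMetric
open Crest.Agent.R238 (Ell)
open Crest.Agent.R238.Sch (D2 ee norm_entry_le)
open Crest.Agent.R273.SchA_152 Crest.Agent.R273.SchC_152
open Crest.Agent.R273.SchB_152 (P2)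

noncomputable section

namespace Crest.Agent.N346.An

variable {n : ℕ}

theorem pd_pd_eq_D2 {u : E n → ℝ} {x : E n} (hu : ContDiffAt ℝ 2 u x) (i j : Fin n) :
    pderiv i (pderiv j u) x = D2 u x (ee i) (ee j) := by
  have h : DifferentiableAt ℝ (fderiv ℝ u) x :=
    (hu.fderiv_right (m := 1) (by norm_num)).differentiableAt (by norm_num)
  have := fderiv_clm_apply h (differentiableAt_const (EuclideanSpace.single j (1 : ℝ)))
  unfold pderiv
  rw [this]
  simp [D2, ee]

theorem aD2_eq_P2 (A : E n → Matrix (Fin n) (Fin n) ℝ) {u : E n → ℝ} {x : E n}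
    (hu : ContDiffAt ℝ 2 u x) : aD2 A u x = P2 A u x := by
  simp only [aD2, P2, pd_pd_eq_D2 hu]

theorem dvg_const (A : Matrix (Fin n) (Fin n) ℝ) {u : E n → ℝ} (hu : ContDiff ℝ 2 u) (x : E n) :
    NLib.Ell.dvg (fun x => NLib.Ell.mv A (∇ u x)) x = aD2 (fun _ => A) u x := by
  rw [NLib.Ell.dvg_mv (fun _ => A), aD2]
  refine Finset.sum_congr rfl fun i _ => ?_
  have hd : ∀ j, DifferentiableAt ℝ (pderiv j u) x := fun j =>
    (((hu.fderiv_right (m := 1) (by norm_num)).clm_apply contDiff_const).differentiable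
      (by norm_num)) x
  have h1 : HasFDerivAt (fun y => ∑ j, A i j * pderiv j u y) (∑ j, A i j • fderiv ℝ (pderiv j u) x) x :=
    HasFDerivAt.fun_sum fun j _ => (hd j).hasFDerivAt.const_mul (A i j)
  have h2 : fderiv ℝ (fun y => ∑ j, A i j * fderiv ℝ u y (EuclideanSpace.single j 1)) x = _ :=
    h1.fderiv
  rw [h2]
  simp [pderiv]

theorem ell_entry {lo hi : ℝ} {A : Matrix (Fin n) (Fin n) ℝ} (h : Ell lo hi A) (hlo : 0 ≤ lo)
    (hhi : 0 < hi) (i j : Fin n) : |A i j| ≤ hi := by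
  have h1 := NLib.Ell.up_mv h hlo hhi (EuclideanSpace.single j 1)
  have h2 := PiLp.norm_apply_le (NLib.Ell.mv A (EuclideanSpace.single j 1)) i
  simp only [NLib.Ell.mv_apply, PiLp.single_apply, mul_ite, mul_one, mul_zero,
    Finset.sum_ite_eq', Finset.mem_univ, if_true, Real.norm_eq_abs, PiLp.norm_single,
    abs_one] at h1 h2
  linarith

theorem exists_HO {F : Type*} [NormedAddCommGroup F] [NormedSpace ℝ F] {a : ℝ} (ha : 0 < a)
    (ha1 : a < 1) {g : E n → F} (c1 : ContDiff ℝ 1 g) (x0 : E n) {ρ : ℝ} (hρ : ρ ≤ 1 / 2) :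
    ∃ V, HO a V (closedBall x0 ρ) g := by
  obtain ⟨B0, hB0⟩ := (isCompact_closedBall x0 ρ).exists_bound_of_continuousOn
    c1.continuous.continuousOn
  obtain ⟨B1, hB1⟩ := (isCompact_closedBall x0 ρ).exists_bound_of_continuousOn
    (c1.continuous_fderiv (by norm_num)).continuousOn
  refine ⟨max B0 B1, fun y hy => (hB0 y hy).trans (le_max_left _ _), fun y hy z hz => ?_⟩
  have h1 := (convex_closedBall x0 ρ).norm_image_sub_le_of_norm_fderiv_le
    (fun w _ => c1.differentiable (by norm_num) w) hB1 hz hy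
  have h2 : ‖y - z‖ ≤ 1 := by
    rw [← dist_eq_norm]
    linarith [dist_triangle_right y z x0, mem_closedBall.1 hy, mem_closedBall.1 hz]
  have h3 : ‖y - z‖ ≤ ‖y - z‖ ^ a := by
    simpa using Real.rpow_le_rpow_of_exponent_ge' (norm_nonneg _) h2 ha.le ha1.le
  exact h1.trans (mul_le_mul (le_max_right _ _) h3 (norm_nonneg _)
    (((norm_nonneg _).trans (hB0 y hy)).trans (le_max_left _ _)))

theorem l2Sch : L2SchStmt := by
  intro n hn a lo hi R ha ha1 hlo hlh hR hR1
  have hhi : 0 < hi := hlo.trans_le hlh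
  obtain ⟨C1, hC1, H1⟩ := NLib.Ell.sup_div (n := n) hn hlo hhi
  obtain ⟨C2, hC2, H2⟩ := int_schauder n ha ha1 hlo hlh hi (R := R / 4) (by positivity) (by linarith)
  set q := √(((R / 2) ^ n)⁻¹) with hq
  have hq0 : 0 ≤ q := Real.sqrt_nonneg _
  refine ⟨C2 * (1 + C1 * (q + 1)), by positivity, fun A u N S hE hu hS hN hH hI x hx => ?_⟩
  have hu2 : ContDiff ℝ 2 u := hu.of_le (by norm_num)
  have hN0 : 0 ≤ N := (abs_nonneg _).trans (hN 0 (mem_closedBall_self hR.le))
  have e2 : 2 * (R / 2) = R := by ring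
  have s1 := H1 (fun _ => A) u 0 (R / 2) N (by positivity) hN0 (fun _ _ => contDiffOn_const)
    (fun _ _ => hE) hu2.contDiffOn (fun y hy => by
      rw [dvg_const A hu2]; exact hN y (ball_subset_closedBall (e2 ▸ hy)))
  have s2 : ∫ y in closedBall (0 : E n) (3 / 2 * (R / 2)), u y ^ 2 ≤ S ^ 2 :=
    (setIntegral_mono_set (((hu.continuous.pow 2).continuousOn.integrableOn_compact
      (isCompact_closedBall 0 R)).mono_set ball_subset_closedBall)
      (Eventually.of_forall fun _ => sq_nonneg _)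
      (LE.le.eventuallyLE (closedBall_subset_ball (by linarith)))).trans hI
  have s3 : ∀ y ∈ closedBall (0 : E n) (R / 4), |u y| ≤ C1 * (q * S + N) := fun y hy => by
    refine (s1 y (closedBall_subset_ball (by linarith) hy)).trans
      (mul_le_mul_of_nonneg_left (add_le_add ?_ ?_) hC1.le)
    · rw [Real.sqrt_mul (by positivity), ← hq]
      exact mul_le_mul_of_nonneg_left (Real.sqrt_le_iff.2 ⟨hS, s2⟩) hq0
    · exact mul_le_of_le_one_left hN0 (by nlinarith)
  have hsub : closedBall (0 : E n) (R / 4) ⊆ closedBall 0 R := closedBall_subset_closedBall (by linarith)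
  obtain ⟨V, hV⟩ := exists_HO ha ha1 (g := D2 u)
    ((hu.fderiv_right (m := 2) (by norm_num)).fderiv_right (m := 1) (by norm_num)) 0
    (ρ := R / 4) (by linarith)
  obtain ⟨k1, k2⟩ := H2 0 (fun _ => A) (fun _ _ => hE) (fun i j => ⟨fun _ _ =>
    ell_entry hE hlo.le hhi i j, fun _ _ _ _ => by simp; positivity⟩) u N _ hu2 ⟨V, hV⟩
    ⟨fun y hy => by rw [← aD2_eq_P2 _ hu2.contDiffAt]; exact hN y (hsub hy), fun y hy z hz => by
      rw [← aD2_eq_P2 _ hu2.contDiffAt, ← aD2_eq_P2 _ hu2.contDiffAt]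
      exact hH y (hsub hy) z (hsub hz)⟩ s3
  have hx' : x ∈ closedBall (0 : E n) (R / 4 / 2) := by rwa [show R / 4 / 2 = R / 8 by ring]
  have hfin : C2 * (N + C1 * (q * S + N)) ≤ C2 * (1 + C1 * (q + 1)) * (N + S) := by
    rw [mul_assoc]
    refine mul_le_mul_of_nonneg_left ?_ hC2.le
    nlinarith [mul_nonneg hC1.le hS, mul_nonneg (mul_nonneg hC1.le hq0) hN0]
  refine ⟨fun i => le_trans ?_ ((k2.d0 x hx').trans hfin), fun i j => ?_⟩
  · simpa [pderiv] using (fderiv ℝ u x).le_opNorm (EuclideanSpace.single i 1)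
  · rw [pd_pd_eq_D2 hu2.contDiffAt]
    exact (norm_entry_le _ i j).trans ((k1.bdd x hx').trans hfin)

end Crest.Agent.N346.An

end
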