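import Crest.Agent.N346.An.Defs
import Crest.Agent.N346.Basic
import Crest.Agent.R236.Poinc

/-!
Row 346, Part 1, abstract analysis: Morrey's lemma and the Poincaré inequality with a point value
(helper64, task 173).
-/

set_option autoImplicit false
open MeasureTheory Filter Topology Set Metric
open scoped ContDiff ENNReal
open Crest.GeometryTopology.CoordMetric
open Crest.MathPhysics.ExteriorData
open Crest.Agent.R238 (HB Ell)

noncomputable section

namespace Crest.Agent.N346.An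

variable {n : ℕ}

namespace Mor

theorem gsq_eq (u : E n → ℝ) (x : E n) : gsq u x = ‖fderiv ℝ u x‖ ^ 2 := by
  rw [← Bs.sum_pd_sq]; simp only [gsq, sq]

theorem gsq_nonneg' (u : E n → ℝ) (x : E n) : 0 ≤ gsq u x := by rw [gsq_eq]; positivity

theorem continuous_gsq {u : E n → ℝ} (hu : ContDiff ℝ 1 u) : Continuous (gsq u) :=
  continuous_finsetSum _ fun i _ => (Bs.continuous_pd hu i).pow 2

theorem integrableOn_ball_of_continuous {g : E n → ℝ} (hg : Continuous g) (x : E n) (r : ℝ) :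
    IntegrableOn g (ball x r) :=
  (hg.continuousOn.integrableOn_compact (isCompact_closedBall x r)).mono_set ball_subset_closedBall

/-- volume of the unit ball -/
def om (n : ℕ) : ℝ := volume.real (ball (0 : E n) 1)

theorem om_pos (n : ℕ) : 0 < om n :=
  ENNReal.toReal_pos (measure_ball_pos _ _ one_pos).ne' measure_ball_lt_top.ne

theorem volume_ball_eq (x : E n) {r : ℝ} (hr : 0 < r) :
    volume (ball x r) = ENNReal.ofReal (om n * r ^ n) := by
  rw [Measure.addHaar_ball_of_pos _ _ hr, finrank_euclideanSpace_fin, mul_comm (om n),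
    ENNReal.ofReal_mul (by positivity), om, Measure.real,
    ENNReal.ofReal_toReal measure_ball_lt_top.ne]

theorem real_ball_eq (x : E n) {r : ℝ} (hr : 0 < r) : volume.real (ball x r) = om n * r ^ n := by
  rw [Measure.real, volume_ball_eq x hr, ENNReal.toReal_ofReal (by have := om_pos n; positivity)]

/-- `L²` Morrey bound implies `L¹` Morrey bound -/
theorem l1_bound {u : E n → ℝ} (hu : ContDiff ℝ 1 u) {β D s : ℝ} {x : E n} (hs : 0 < s)
    (h : s ^ 2 * (∫ y in ball x s, gsq u y) / s ^ n ≤ D * s ^ (2 * β)) :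
    ∫⁻ y in ball x s, ‖fderiv ℝ u y‖ₑ ≤
      ENNReal.ofReal ((om n + |D|) / 2 * s ^ n * s ^ (β - 1)) := by
  have hc : Continuous (fderiv ℝ u) := hu.continuous_fderiv one_ne_zero
  have hi : IntegrableOn (fderiv ℝ u) (ball x s) :=
    (hc.continuousOn.integrableOn_compact (isCompact_closedBall x s)).mono_set
      ball_subset_closedBall
  rw [← ofReal_integral_norm_eq_lintegral_enorm hi]
  refine ENNReal.ofReal_le_ofReal ?_
  set lam := s ^ (β - 1) with hlam
  have hl : 0 < lam := Real.rpow_pos_of_pos hs _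
  have hg := integrableOn_ball_of_continuous (continuous_gsq hu) x s
  have h1 : ∫ y in ball x s, ‖fderiv ℝ u y‖ ≤ ∫ y in ball x s, (lam / 2 + gsq u y / (2 * lam)) := by
    refine integral_mono hi.norm ((integrableOn_ball_of_continuous continuous_const x s).add
      (hg.div_const _)) fun y => ?_
    simp only [gsq_eq]
    rw [div_add_div _ _ (by norm_num) (by positivity), le_div_iff₀ (by positivity)]
    nlinarith [sq_nonneg (lam - ‖fderiv ℝ u y‖)]
  rw [integral_add (integrableOn_ball_of_continuous continuous_const x s) (hg.div_const _),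
    setIntegral_const, integral_div, real_ball_eq x hs, smul_eq_mul] at h1
  have h2 : ∫ y in ball x s, gsq u y ≤ |D| * s ^ n * lam ^ 2 := by
    rw [div_le_iff₀ (by positivity)] at h
    have e : s ^ (2 * β) = lam ^ 2 * s ^ 2 := by
      rw [hlam, ← Real.rpow_natCast, ← Real.rpow_natCast, ← Real.rpow_mul hs.le,
        ← Real.rpow_add hs]
      congr 1; push_cast; ring
    rw [e] at h
    have h3 : D * (lam ^ 2 * s ^ 2) * s ^ n ≤ s ^ 2 * (|D| * s ^ n * lam ^ 2) := by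
      calc D * (lam ^ 2 * s ^ 2) * s ^ n ≤ |D| * (lam ^ 2 * s ^ 2) * s ^ n := by
            gcongr; exact le_abs_self D
        _ = _ := by ring
    exact le_of_mul_le_mul_left (h.trans h3) (by positivity)
  refine h1.trans ?_
  calc om n * s ^ n * (lam / 2) + (∫ y in ball x s, gsq u y) / (2 * lam)
      ≤ om n * s ^ n * (lam / 2) + |D| * s ^ n * lam ^ 2 / (2 * lam) := by gcongr
    _ = _ := by field_simp

theorem lint_rpow {β : ℝ} (hβ : 0 < β) :
    ∫⁻ t in Ioc (0 : ℝ) 1, ENNReal.ofReal (t ^ (β - 1)) = ENNReal.ofReal (1 / β) := by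
  have hi : IntegrableOn (fun t : ℝ => t ^ (β - 1)) (Ioc 0 1) :=
    (intervalIntegral.intervalIntegrable_rpow' (a := 0) (b := 1) (by linarith)).1
  rw [← ofReal_integral_eq_lintegral_ofReal hi
    ((ae_restrict_mem measurableSet_Ioc).mono fun t ht => Real.rpow_nonneg ht.1.le _),
    ← intervalIntegral.integral_of_le zero_le_one, integral_rpow (Or.inl (by linarith))]
  simp [Real.zero_rpow hβ.ne']

/-- mean oscillation with respect to the value at the centre -/
theorem avg_bound {u : E n → ℝ} (hu : ContDiff ℝ 1 u) {β C r : ℝ} {x : E n} (hβ : 0 < β)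
    (hC : 0 ≤ C) (hr : 0 < r) (h : ∀ s, 0 < s → s ≤ r →
      ∫⁻ y in ball x s, ‖fderiv ℝ u y‖ₑ ≤ ENNReal.ofReal (C * s ^ n * s ^ (β - 1))) :
    ∫⁻ w in ball x r, ‖u w - u x‖ₑ ≤ ENNReal.ofReal (C / β * r ^ n * r ^ β) := by
  have hF : Measurable fun z => ‖fderiv ℝ u z‖ₑ := (measurable_fderiv ℝ u).enorm
  have h1 : ∫⁻ w in ball x r, ‖u w - u x‖ₑ ≤ ∫⁻ w in ball x r, ENNReal.ofReal r *
      ∫⁻ t in Icc (0 : ℝ) 1, ‖fderiv ℝ u ((1 - t) • x + t • w)‖ₑ :=
    setLIntegral_mono' measurableSet_ball fun w hw =>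
      R236.Poinc.diff_le isOpen_univ convex_univ hu.contDiffOn (mem_univ _) (mem_univ _)
        (by rw [dist_comm]; exact (mem_ball.1 hw).le)
  have hsw : ∫⁻ w in ball x r, ∫⁻ t in Icc (0 : ℝ) 1, ‖fderiv ℝ u ((1 - t) • x + t • w)‖ₑ =
      ∫⁻ t in Icc (0 : ℝ) 1, ∫⁻ w in ball x r, ‖fderiv ℝ u ((1 - t) • x + t • w)‖ₑ := by
    refine lintegral_lintegral_swap (Measurable.aemeasurable ?_)
    exact hF.comp (by fun_prop)
  rw [lintegral_const_mul' _ _ ENNReal.ofReal_ne_top, hsw, ← restrict_Ioc_eq_restrict_Icc] at h1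
  have h2 : ∀ t ∈ Ioc (0 : ℝ) 1, ∫⁻ w in ball x r, ‖fderiv ℝ u ((1 - t) • x + t • w)‖ₑ ≤
      ENNReal.ofReal (C * r ^ n * r ^ (β - 1)) * ENNReal.ofReal (t ^ (β - 1)) := by
    intro t ht
    have ht0 := ht.1
    have a1 : ∫⁻ w in ball x r, ‖fderiv ℝ u ((1 - t) • x + t • w)‖ₑ ≤
        ∫⁻ w, (ball x (t * r)).indicator (fun z => ‖fderiv ℝ u z‖ₑ) (t • w + (1 - t) • x) := by
      rw [← lintegral_indicator measurableSet_ball]
      refine lintegral_mono fun w => ?_
      by_cases hw : w ∈ ball x r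
      · have hm : t • w + (1 - t) • x ∈ ball x (t * r) := by
          rw [mem_ball, dist_eq_norm] at hw ⊢
          rw [show t • w + (1 - t) • x - x = t • (w - x) by module, norm_smul,
            Real.norm_of_nonneg ht0.le]
          gcongr
        rw [indicator_of_mem hw, indicator_of_mem hm, add_comm]
      · simp [hw]
    rw [R236.Poinc.lintegral_aff _ (hF.indicator measurableSet_ball) ht0.ne',
      lintegral_indicator measurableSet_ball] at a1
    refine a1.trans ((mul_le_mul_right (h (t * r) (by positivity)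
      (mul_le_of_le_one_left hr.le ht.2)) _).trans (le_of_eq ?_))
    rw [← ENNReal.ofReal_mul (abs_nonneg _), ← ENNReal.ofReal_mul (by positivity),
      abs_of_pos (by positivity), Real.mul_rpow ht0.le hr.le]
    congr 1
    field_simp
    ring
  have h3 := setLIntegral_mono' (μ := volume) measurableSet_Ioc h2
  rw [lintegral_const_mul' _ _ ENNReal.ofReal_ne_top, lint_rpow hβ] at h3
  refine h1.trans ((mul_le_mul_right h3 _).trans (le_of_eq ?_))
  rw [← ENNReal.ofReal_mul (by positivity), ← ENNReal.ofReal_mul hr.le,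
    Real.rpow_sub_one hr.ne']
  congr 1
  field_simp

theorem near {u : E n → ℝ} (hu : ContDiff ℝ 1 u) {β C r0 : ℝ} (hβ : 0 < β) (hC : 0 ≤ C)
    (h : ∀ x s, 0 < s → s ≤ r0 →
      ∫⁻ y in ball x s, ‖fderiv ℝ u y‖ₑ ≤ ENNReal.ofReal (C * s ^ n * s ^ (β - 1)))
    {x y : E n} (hxy : 2 * ‖x - y‖ ≤ r0) :
    |u x - u y| ≤ C / β * (1 + 2 ^ n * 2 ^ β) / om n * ‖x - y‖ ^ β := by
  have ho := om_pos n
  rcases eq_or_ne x y with rfl | hne
  · simp only [sub_self, abs_zero]; positivity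
  set d := ‖x - y‖ with hd
  have hd0 : 0 < d := norm_pos_iff.2 (sub_ne_zero.2 hne)
  have h1 := avg_bound hu hβ hC hd0 fun s hs hs' => h x s hs (by linarith)
  have h2 := avg_bound hu hβ hC (r := 2 * d) (by positivity) fun s hs hs' => h y s hs (by linarith)
  have hsub : ball x d ⊆ ball y (2 * d) := ball_subset_ball' (by rw [dist_eq_norm]; linarith)
  have h3 : ‖u x - u y‖ₑ * volume (ball x d) ≤
      (∫⁻ w in ball x d, ‖u w - u x‖ₑ) + ∫⁻ w in ball x d, ‖u w - u y‖ₑ := by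
    have hm : Measurable fun w => ‖u w - u x‖ₑ :=
      (hu.continuous.sub continuous_const).measurable.enorm
    rw [← setLIntegral_const, ← lintegral_add_left hm]
    refine lintegral_mono fun w => ?_
    calc ‖u x - u y‖ₑ = ‖-(u w - u x) + (u w - u y)‖ₑ := by congr 1; ring
      _ ≤ _ := by
        refine (enorm_add_le _ _).trans ?_
        rw [enorm_neg]
  have h4 := h3.trans (add_le_add h1 ((lintegral_mono_set hsub).trans h2))
  rw [volume_ball_eq x hd0, Real.enorm_eq_ofReal_abs, ← ENNReal.ofReal_mul (abs_nonneg _),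
    ← ENNReal.ofReal_add (by positivity) (by positivity),
    ENNReal.ofReal_le_ofReal_iff (by positivity), mul_pow, Real.mul_rpow (by norm_num) hd0.le] at h4
  rw [div_mul_eq_mul_div, le_div_iff₀ ho]
  refine le_of_mul_le_mul_right ?_ (pow_pos hd0 n)
  calc |u x - u y| * om n * d ^ n = |u x - u y| * (om n * d ^ n) := by ring
    _ ≤ _ := h4
    _ = _ := by ring

theorem sq_lintegral_le {f : ℝ → ℝ≥0∞} (hf : AEMeasurable f (volume.restrict (Icc (0 : ℝ) 1))) :
    (∫⁻ t in Icc (0 : ℝ) 1, f t) ^ 2 ≤ ∫⁻ t in Icc (0 : ℝ) 1, f t ^ 2 := by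
  have h := ENNReal.lintegral_mul_le_Lp_mul_Lq (volume.restrict (Icc (0 : ℝ) 1))
    Real.HolderConjugate.two_two hf (aemeasurable_const (b := (1 : ℝ≥0∞)))
  simp only [Pi.mul_apply, mul_one, lintegral_const, Measure.restrict_apply,
    MeasurableSet.univ, univ_inter, Real.volume_Icc, sub_zero, ENNReal.ofReal_one,
    ENNReal.rpow_ofNat, one_pow, ENNReal.one_rpow] at h
  calc (∫⁻ t in Icc (0 : ℝ) 1, f t) ^ 2
      ≤ ((∫⁻ t in Icc (0 : ℝ) 1, f t ^ 2) ^ (1 / 2 : ℝ)) ^ 2 := by gcongr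
    _ = _ := by
      rw [← ENNReal.rpow_natCast, ← ENNReal.rpow_mul]
      norm_num

/-- `L²` Poincaré inequality on a convex set (as in `R273.CLin_933.poinc2`) -/
theorem poinc2 {S : Set (E n)} (hS : MeasurableSet S) (hc : Convex ℝ S) {f : E n → ℝ}
    (hf : ContDiff ℝ 1 f) {d : ℝ} (hd : ∀ x ∈ S, ∀ y ∈ S, dist x y ≤ d) :
    ∫⁻ y in S, ∫⁻ x in S, ‖f y - f x‖ₑ ^ 2
      ≤ ENNReal.ofReal d ^ 2 * (2 ^ n * volume S * ∫⁻ z in S, ‖fderiv ℝ f z‖ₑ ^ 2) := by
  have hF : Measurable (fun z => ‖fderiv ℝ f z‖ₑ ^ 2) := (measurable_fderiv ℝ f).enorm.pow_const 2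
  have hle : ∀ y ∈ S, ∀ x ∈ S, ‖f y - f x‖ₑ ^ 2 ≤ ENNReal.ofReal d ^ 2 *
      ∫⁻ t in Icc (0 : ℝ) 1, ‖fderiv ℝ f ((1 - t) • x + t • y)‖ₑ ^ 2 := by
    intro y hy x hx
    have h1 := R236.Poinc.diff_le isOpen_univ convex_univ hf.contDiffOn (mem_univ x) (mem_univ y)
      (hd x hx y hy)
    have h2 : AEMeasurable (fun t : ℝ => ‖fderiv ℝ f ((1 - t) • x + t • y)‖ₑ)
        (volume.restrict (Icc (0 : ℝ) 1)) :=
      Measurable.aemeasurable ((measurable_fderiv ℝ f).enorm.comp (by fun_prop))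
    calc ‖f y - f x‖ₑ ^ 2 ≤ (ENNReal.ofReal d *
          ∫⁻ t in Icc (0 : ℝ) 1, ‖fderiv ℝ f ((1 - t) • x + t • y)‖ₑ) ^ 2 := by gcongr
      _ = ENNReal.ofReal d ^ 2 *
          (∫⁻ t in Icc (0 : ℝ) 1, ‖fderiv ℝ f ((1 - t) • x + t • y)‖ₑ) ^ 2 := by rw [mul_pow]
      _ ≤ _ := by
        gcongr
        exact sq_lintegral_le h2
  have hne : ENNReal.ofReal d ^ 2 ≠ ⊤ := ENNReal.pow_ne_top ENNReal.ofReal_ne_top
  calc ∫⁻ y in S, ∫⁻ x in S, ‖f y - f x‖ₑ ^ 2
      ≤ ∫⁻ y in S, ∫⁻ x in S, ENNReal.ofReal d ^ 2 *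
          ∫⁻ t in Icc (0 : ℝ) 1, ‖fderiv ℝ f ((1 - t) • x + t • y)‖ₑ ^ 2 :=
        setLIntegral_mono' hS fun y hy => setLIntegral_mono' hS fun x hx => hle y hy x hx
    _ = ENNReal.ofReal d ^ 2 * ∫⁻ y in S, ∫⁻ x in S,
          ∫⁻ t in Icc (0 : ℝ) 1, ‖fderiv ℝ f ((1 - t) • x + t • y)‖ₑ ^ 2 := by
        rw [← lintegral_const_mul' _ _ hne]
        refine lintegral_congr fun y => ?_
        rw [← lintegral_const_mul' _ _ hne]
    _ ≤ _ := by
        gcongr
        exact R236.Poinc.seg hS hc hF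

end Mor

open Mor

/-- **Morrey's lemma.** -/
theorem morrey : MorreyStmt := by
  intro n β K D r0 hβ _ hr0
  have ho := om_pos n
  set C1 := (om n + |D|) / 2 / β * (1 + 2 ^ n * 2 ^ β) / om n with hC1
  set C2 := 2 * |K| / (r0 / 2) ^ β with hC2
  have p1 : 0 ≤ C1 := by positivity
  have p2 : 0 ≤ C2 := by positivity
  refine ⟨|K| + C1 + C2, fun u hu hK h => ⟨fun x => ?_, fun x y => ?_⟩⟩
  · linarith [hK x, le_abs_self K]
  · have p3 : 0 ≤ ‖x - y‖ ^ β := by positivity
    rcases le_total (2 * ‖x - y‖) r0 with hxy | hxy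
    · refine (Mor.near hu hβ (by positivity)
        (fun x s hs hs' => Mor.l1_bound hu hs (h x s hs hs')) hxy).trans ?_
      gcongr
      linarith [abs_nonneg K]
    · have a1 : |u x - u y| ≤ 2 * |K| := by
        linarith [abs_sub (u x) (u y), hK x, hK y, le_abs_self K]
      have a2 : (r0 / 2) ^ β ≤ ‖x - y‖ ^ β := Real.rpow_le_rpow (by positivity) (by linarith) hβ.le
      have a3 : 0 < (r0 / 2) ^ β := by positivity
      calc |u x - u y| ≤ C2 * (r0 / 2) ^ β := by rw [hC2, div_mul_cancel₀ _ a3.ne']; exact a1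
        _ ≤ C2 * ‖x - y‖ ^ β := by gcongr
        _ ≤ _ := by gcongr; linarith [abs_nonneg K]

/-- **Poincaré inequality with a point value.** -/
theorem poin (n : ℕ) : ∃ C : ℝ, 0 < C ∧ ∀ (ι : Type) [Fintype ι] (u : ι → E n → ℝ) (x0 : E n)
    (r : ℝ), 0 < r → (∀ l, ContDiff ℝ 1 (u l)) → ∃ y ∈ ball x0 r,
      ∫ x in ball x0 r, ∑ l, (u l x - u l y) ^ 2 ≤
        C * r ^ 2 * ∫ x in ball x0 r, ∑ l, gsq (u l) x := by
  refine ⟨4 * 2 ^ n, by positivity, fun ι _ u x0 r hr hu => ?_⟩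
  have hv0 : volume (ball x0 r) ≠ 0 := (measure_ball_pos _ _ hr).ne'
  have hv1 : volume (ball x0 r) ≠ ⊤ := measure_ball_lt_top.ne
  have hm : ∀ l, Measurable fun p : E n × E n => ‖u l p.1 - u l p.2‖ₑ ^ 2 := fun l =>
    (((hu l).continuous.comp continuous_fst).sub
      ((hu l).continuous.comp continuous_snd)).measurable.enorm.pow_const 2
  have hm' : ∀ l, Measurable fun y => ∫⁻ x in ball x0 r, ‖u l y - u l x‖ₑ ^ 2 := fun l =>
    (hm l).lintegral_prod_right'
  obtain ⟨y, hy, h⟩ := exists_le_setLAverage (μ := volume) (s := ball x0 r)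
    (f := fun y => ∑ l, ∫⁻ x in ball x0 r, ‖u l y - u l x‖ₑ ^ 2) hv0 hv1
    (Finset.measurable_sum _ fun l _ => hm' l).aemeasurable
  refine ⟨y, hy, ?_⟩
  rw [setLAverage_eq, lintegral_finsetSum _ fun l _ => hm' l] at h
  have h1 : ∑ l, ∫⁻ y in ball x0 r, ∫⁻ x in ball x0 r, ‖u l y - u l x‖ₑ ^ 2 ≤
      volume (ball x0 r) * (ENNReal.ofReal (4 * 2 ^ n * r ^ 2) *
        ∑ l, ∫⁻ z in ball x0 r, ‖fderiv ℝ (u l) z‖ₑ ^ 2) := by
    rw [Finset.mul_sum, Finset.mul_sum]
    refine Finset.sum_le_sum fun l _ => (Mor.poinc2 measurableSet_ball (convex_ball x0 r) (hu l)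
      (d := 2 * r) fun x hx y hy => ?_).trans (le_of_eq ?_)
    · linarith [dist_triangle_right x y x0, mem_ball.1 hx, mem_ball.1 hy]
    · rw [show 4 * 2 ^ n * r ^ 2 = (2 * r) ^ 2 * 2 ^ n by ring,
        ENNReal.ofReal_mul (p := (2 * r) ^ 2) (by positivity), ENNReal.ofReal_pow (by positivity),
        ENNReal.ofReal_pow (by positivity), ENNReal.ofReal_ofNat]
      ring
  have h2 := h.trans (ENNReal.div_le_of_le_mul' h1)
  have i1 : ∀ l, IntegrableOn (fun x => (u l x - u l y) ^ 2) (ball x0 r) := fun l =>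
    integrableOn_ball_of_continuous (((hu l).continuous.sub continuous_const).pow 2) _ _
  have i2 : ∀ l, IntegrableOn (gsq (u l)) (ball x0 r) := fun l =>
    integrableOn_ball_of_continuous (continuous_gsq (hu l)) _ _
  have e1 : ∀ l, ∫⁻ x in ball x0 r, ‖u l y - u l x‖ₑ ^ 2 =
      ENNReal.ofReal (∫ x in ball x0 r, (u l x - u l y) ^ 2) := fun l => by
    rw [ofReal_integral_eq_lintegral_ofReal (i1 l) (ae_of_all _ fun x => sq_nonneg _)]
    refine lintegral_congr fun x => ?_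
    rw [Real.enorm_eq_ofReal_abs, ← ENNReal.ofReal_pow (abs_nonneg _), sq_abs]
    congr 1; ring
  have e2 : ∀ l, ∫⁻ z in ball x0 r, ‖fderiv ℝ (u l) z‖ₑ ^ 2 =
      ENNReal.ofReal (∫ x in ball x0 r, gsq (u l) x) := fun l => by
    rw [ofReal_integral_eq_lintegral_ofReal (i2 l) (ae_of_all _ fun x => gsq_nonneg' _ _)]
    refine lintegral_congr fun x => ?_
    rw [gsq_eq, ENNReal.ofReal_pow (norm_nonneg _), ofReal_norm]
  have n1 : ∀ l, 0 ≤ ∫ x in ball x0 r, (u l x - u l y) ^ 2 := fun l =>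
    integral_nonneg fun x => sq_nonneg _
  have n2 : ∀ l, 0 ≤ ∫ x in ball x0 r, gsq (u l) x := fun l =>
    integral_nonneg fun x => gsq_nonneg' _ _
  simp only [e1, e2] at h2
  rw [← ENNReal.ofReal_sum_of_nonneg fun l _ => n1 l, ← ENNReal.ofReal_sum_of_nonneg fun l _ => n2 l,
    ← ENNReal.ofReal_mul (by positivity), ENNReal.ofReal_le_ofReal_iff
      (mul_nonneg (by positivity) (Finset.sum_nonneg fun l _ => n2 l))] at h2
  rw [integral_finsetSum _ fun l _ => i1 l, integral_finsetSum _ fun l _ => i2 l]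
  exact h2

end Crest.Agent.N346.An

end
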