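import Crest.Agent.N346.An.Defs
import Crest.Agent.N346.Basic
import Crest.Agent.NLib.Ell.Growth

/-! Row 346, An-F (helper95): small energy at a uniform scale, `small : SmallStmt`. -/

set_option autoImplicit false
open MeasureTheory Filter Topology Set Metric InnerProductSpace
open scoped ContDiff RealInnerProductSpace Gradient
open Crest.GeometryTopology.CoordMetric
open Crest.MathPhysics.ExteriorData
open Crest.Agent.NLib.Ell Crest.Agent.R202.Moser

noncomputable section

namespace Crest.Agent.N346.An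

variable {n : ℕ}

namespace Sm

theorem grad_apply (u : E n → ℝ) (x : E n) (i : Fin n) : ∇ u x i = pderiv i u x := by
  have h := InnerProductSpace.toDual_symm_apply (𝕜 := ℝ) (x := EuclideanSpace.single i (1 : ℝ))
    (y := fderiv ℝ u x)
  rw [EuclideanSpace.inner_single_right] at h
  simpa [gradient, pderiv] using h

theorem inner_grad (V : Fin n → ℝ) (u : E n → ℝ) (x : E n) :
    ⟪(WithLp.toLp 2 V : E n), ∇ u x⟫ = ∑ i, pderiv i u x * V i := by
  simp only [PiLp.inner_apply, grad_apply]; simp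

theorem gsq_eq (u : E n → ℝ) (x : E n) : gsq u x = ‖∇ u x‖ ^ 2 := by
  rw [EuclideanSpace.real_norm_sq_eq]; simp only [gsq, grad_apply]

theorem sqrt_gsq (u : E n → ℝ) (x : E n) : √(gsq u x) = ‖∇ u x‖ := by
  rw [gsq_eq, Real.sqrt_sq (norm_nonneg _)]

theorem norm_toLp_le (V : Fin n → ℝ) {B : ℝ} (h : ∀ k, |V k| ≤ B) :
    ‖(WithLp.toLp 2 V : E n)‖ ≤ n * B := by
  rcases Nat.eq_zero_or_pos n with rfl | hn
  · simp [Subsingleton.elim (WithLp.toLp 2 V : E 0) 0]
  have hB : 0 ≤ B := (abs_nonneg _).trans (h ⟨0, hn⟩)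
  have hn' : (1 : ℝ) ≤ n := by exact_mod_cast hn
  refine (pow_le_pow_iff_left₀ (norm_nonneg _) (by positivity) two_ne_zero).1 ?_
  rw [EuclideanSpace.real_norm_sq_eq]
  calc ∑ i, V i ^ 2 ≤ ∑ _i : Fin n, B ^ 2 := Finset.sum_le_sum fun i _ => by
        rw [← sq_abs]; exact pow_le_pow_left₀ (abs_nonneg _) (h i) 2
    _ = n * B ^ 2 := by simp
    _ ≤ (n * B) ^ 2 := by nlinarith [mul_nonneg (sq_nonneg B) (by linarith : (0:ℝ) ≤ n)]

theorem en_nn (f z : E n → ℝ) (x : E n) : 0 ≤ en f z x :=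
  add_nonneg (Finset.sum_nonneg fun _ _ => Finset.sum_nonneg fun _ _ => sq_nonneg _)
    (Finset.sum_nonneg fun _ _ => sq_nonneg _)

theorem continuous_en {f z : E n → ℝ} (hf : ContDiff ℝ ∞ f) (hz : ContDiff ℝ ∞ z) :
    Continuous (en f z) := by
  unfold en gsq
  exact (continuous_finsetSum _ fun i _ => continuous_finsetSum _ fun j _ =>
    (Bs.contDiff_pd (Bs.contDiff_pd hf j) i).continuous.pow 2).add
    (continuous_finsetSum _ fun i _ => (Bs.contDiff_pd hz i).continuous.pow 2)

/-- the flux of a supersolution with small infimum is small in `L¹` -/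
theorem flux_small (hn : 3 ≤ n) {lam Lam a : ℝ} (hlam : 0 < lam) (hLam : 0 < Lam) (ha : 0 ≤ a)
    (B : ℝ) {ε : ℝ} (hε : 0 < ε) : ∃ w : ℝ, 0 < w ∧ ∀ (u : E n → ℝ) (F : E n → E n) (k : ℝ),
      Sup lam Lam a 0 (ball 0 4) u (fun _ => k) F → 0 < k → k ≤ w →
      (∀ x ∈ ball (0 : E n) 4, 0 ≤ u x ∧ u x ≤ B) → (∃ x ∈ ball (0 : E n) 1, u x ≤ w) →
      ∫ x in ball (0 : E n) 2, ‖F x‖ ≤ ε := by
  obtain ⟨C2, -, hcut⟩ := exists_cutoff (n := n)
  obtain ⟨η, hη1, hηc, hηs, hη1', hη0, -, -⟩ := hcut 2 3 (by norm_num) (by norm_num)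
  have hη : Test (ball 0 4) η := ⟨hη1, hηc, hηs.trans (closedBall_subset_ball (by norm_num)), hη0⟩
  set L := 2 * K0 lam Lam (a + a ^ 2) 0 / lam * ∫ x, (η x ^ 2 + ‖∇ η x‖ ^ 2) with hL
  have hL0 : 0 ≤ L := by
    have := K0_nonneg (Lam := Lam) (b := 0) hlam (by positivity : 0 ≤ a + a ^ 2)
    positivity
  set W := volume.real (ball (0 : E n) 2) with hW
  have hW0 : 0 ≤ W := measureReal_nonneg
  set δ := ε / (2 * Lam * (L + 1)) with hδ
  have hδ0 : 0 < δ := by positivity
  have hlim : Tendsto (fun τ : ℝ => Lam * (δ⁻¹ * ((2 * τ) ^ 2 * W + (B + τ) ^ 2 * τ)) + a * τ * W)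
      (𝓝 0) (𝓝 0) := Continuous.tendsto' (by fun_prop) _ _ (by simp)
  obtain ⟨τ, hτ, hτ0⟩ := (((hlim.eventually (gt_mem_nhds (half_pos hε))).filter_mono
    nhdsWithin_le_nhds).and (self_mem_nhdsWithin (s := Ioi (0 : ℝ)))).exists
  have hτ0 : 0 < τ := hτ0
  obtain ⟨c, hc, hc1, hgr⟩ := growth_unit hn hlam Lam ha 0 hτ0
  refine ⟨c * τ / 3, by positivity, fun u F k h hk hkw hu ⟨x1, hx1, hx1'⟩ => ?_⟩
  have hkτ : k ≤ τ := by nlinarith
  have h24 : ball (0 : E n) 2 ⊆ ball 0 4 := ball_subset_ball (by norm_num)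
  have hB : closedBall (0 : E n) 2 ⊆ ball 0 4 := closedBall_subset_ball (by norm_num)
  have io : ∀ {g : E n → ℝ}, ContinuousOn g (ball 0 4) → IntegrableOn g (ball 0 2) := fun hg =>
    ((hg.mono hB).integrableOn_compact (isCompact_closedBall _ _)).mono_set ball_subset_closedBall
  have hu1 : ContDiffOn ℝ 1 u (ball 0 4) := by simpa using h.cu.neg
  have hF : ContinuousOn F (ball 0 4) := h.cF.neg.congr fun x _ => by simp
  have hpos : ∀ x ∈ ball (0 : E n) 4, 0 < u x + k := fun x hx => by linarith [(hu x hx).1]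
  have hm : ∀ x ∈ ball (0 : E n) 4, k ≤ u x + k := fun x hx => by linarith [(hu x hx).1]
  -- the superlevel set is small
  set Z := ball (0 : E n) 2 ∩ {x | τ ≤ u x} with hZ
  have hZm : MeasurableSet Z := measurableSet_inter_ge isOpen_ball (hu1.continuousOn.mono h24) τ
  have hZs : volume.real Z ≤ τ := by
    by_contra hcon
    have := hgr u _ F k τ h hk.le (fun x hx => (hu x hx).1) hm (not_le.1 hcon).le x1 hx1
    nlinarith [mul_pos hc hτ0]
  -- the logarithmic energy
  have e1 := h.log_energy isOpen_ball hlam ha 0 hpos hm hη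
  have h' := h.log isOpen_ball hlam.le ha 0 hpos hm
  have cg := (continuousOn_gradient isOpen_ball h'.cu).norm
  set g := fun x => ‖∇ (fun x => 0 - Real.log (u x + k)) x‖ with hg
  have e2 : ∫ x in ball (0 : E n) 2, g x ^ 2 ≤ L := by
    refine le_trans ?_ e1
    have i1 : Integrable fun x => g x ^ 2 * η x ^ 2 := hη.sq.int_mul (cg.pow 2)
    calc ∫ x in ball (0 : E n) 2, g x ^ 2 = ∫ x in ball (0 : E n) 2, g x ^ 2 * η x ^ 2 :=
          setIntegral_congr_fun measurableSet_ball fun x hx => by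
            simp [hη1' x (ball_subset_closedBall hx)]
      _ ≤ ∫ x, g x ^ 2 * η x ^ 2 :=
          setIntegral_le_integral i1 (Eventually.of_forall fun x => by positivity)
  have fin : IsFiniteMeasure (volume.restrict (ball (0 : E n) 2)) :=
    ⟨by simpa using measure_ball_lt_top⟩
  have iZ : Integrable (Z.indicator fun _ => (B + τ) ^ 2) (volume.restrict (ball (0 : E n) 2)) :=
    (integrable_const _).indicator hZm
  have i2 : Integrable (fun x => Lam * (δ⁻¹ * ((2 * τ) ^ 2 + Z.indicator (fun _ => (B + τ) ^ 2) x)))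
      (volume.restrict (ball (0 : E n) 2)) :=
    (((integrable_const _).add iZ).const_mul _).const_mul _
  have i3 : Integrable (fun x => Lam * (δ * g x ^ 2)) (volume.restrict (ball (0 : E n) 2)) :=
    ((io (cg.pow 2)).const_mul _).const_mul _
  have e3 : ∫ x in ball (0 : E n) 2, ‖F x‖ ≤ ∫ x in ball (0 : E n) 2,
      (Lam * (δ⁻¹ * ((2 * τ) ^ 2 + Z.indicator (fun _ => (B + τ) ^ 2) x)) + Lam * (δ * g x ^ 2)
        + a * τ) := by
    refine setIntegral_mono_on (io hF.norm) ((i2.add i3).add (integrable_const _))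
      measurableSet_ball fun x hx => ?_
    have hx4 := h24 hx
    have up := h.up x hx4
    rw [gradient_neg, norm_neg, norm_neg] at up
    have hp := hpos x hx4
    have eg : ‖∇ u x‖ = (u x + k) * g x := by
      simp only [hg]
      rw [gradient_log isOpen_ball hu1 0 hpos hx4, norm_smul, norm_neg, norm_inv, Real.norm_eq_abs,
        abs_of_pos hp, ← mul_assoc, mul_inv_cancel₀ hp.ne', one_mul]
    have e4 : (u x + k) ^ 2 ≤ (2 * τ) ^ 2 + Z.indicator (fun _ => (B + τ) ^ 2) x := by
      by_cases hxZ : x ∈ Z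
      · rw [indicator_of_mem hxZ]
        have := pow_le_pow_left₀ hp.le (by linarith [(hu x hx4).2] : u x + k ≤ B + τ) 2
        nlinarith [sq_nonneg (2 * τ)]
      · rw [indicator_of_notMem hxZ, add_zero]
        have : u x < τ := not_le.1 fun h' => hxZ ⟨hx, h'⟩
        exact pow_le_pow_left₀ hp.le (by linarith) 2
    have e5 : (u x + k) * g x ≤ δ⁻¹ * (u x + k) ^ 2 + δ * g x ^ 2 := by
      have h1 : δ⁻¹ * (u x + k) ^ 2 + δ * g x ^ 2 - 2 * ((u x + k) * g x) =
          δ⁻¹ * (u x + k - δ * g x) ^ 2 := by field_simp; ring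
      have h2 : 0 ≤ δ⁻¹ * (u x + k - δ * g x) ^ 2 := by positivity
      have h3 : 0 ≤ (u x + k) * g x := mul_nonneg hp.le (norm_nonneg _)
      linarith
    have e6 := mul_le_mul_of_nonneg_left e4 (inv_pos.2 hδ0).le
    have e7 := mul_le_mul_of_nonneg_left (e5.trans (add_le_add_left e6 _)) hLam.le
    have e8 := mul_le_mul_of_nonneg_left hkτ ha
    rw [eg] at up
    nlinarith
  have i23 : Integrable (fun x => Lam * (δ⁻¹ * ((2 * τ) ^ 2 + Z.indicator (fun _ => (B + τ) ^ 2) x))
      + Lam * (δ * g x ^ 2)) (volume.restrict (ball (0 : E n) 2)) := i2.add i3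
  rw [integral_add i23 (integrable_const _), integral_add i2 i3, integral_const_mul,
    integral_const_mul, integral_const_mul, integral_const_mul,
    integral_add (integrable_const _) iZ, integral_indicator_const _ hZm, setIntegral_const,
    setIntegral_const, measureReal_restrict_apply hZm,
    inter_eq_left.2 (inter_subset_left : Z ⊆ _), ← hW] at e3
  simp only [smul_eq_mul] at e3
  have e9 : Lam * (δ * ∫ x in ball (0 : E n) 2, g x ^ 2) ≤ ε / 2 := by
    calc _ ≤ Lam * (δ * (L + 1)) := by gcongr; linarith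
      _ = ε / 2 := by rw [hδ]; field_simp
  have e10 : Lam * (δ⁻¹ * (W * (2 * τ) ^ 2 + volume.real Z * (B + τ) ^ 2)) ≤
      Lam * (δ⁻¹ * ((2 * τ) ^ 2 * W + (B + τ) ^ 2 * τ)) := by
    rw [mul_comm W, mul_comm (volume.real Z)]; gcongr
  nlinarith

end Sm

open Sm in
theorem small : SmallStmt := by
  intro n hn M K c hc hcK ε hε r1 hr1
  have hK : 0 < K := hc.trans_le hcK
  have hn' : (3 : ℝ) ≤ n := by exact_mod_cast hn
  obtain ⟨C2, hC2, hcut⟩ := exists_cutoff (n := n)
  obtain ⟨η, hη1, hηc, hηs, hη1', hη0, hηle, hηg⟩ := hcut 1 (3 / 2) (by norm_num) (by norm_num)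
  have hηs2 : tsupport η ⊆ ball 0 2 := hηs.trans (closedBall_subset_ball (by norm_num))
  set a := n * (K + 1) with ha
  have ha1 : K + 1 ≤ a := by nlinarith
  have ha0 : 0 ≤ a := by linarith
  set J := ∫ x, η x with hJ
  have hJ0 : 0 ≤ J := integral_nonneg hη0
  obtain ⟨w, hw, hfl⟩ := flux_small hn hc (by positivity : 0 < n * K) ha0 (2 * M)
    (by positivity : 0 < c * ε / (4 * C2))
  set ρ0 := min (min r1 1) (min w (c * ε / (2 * K * (J + 1)))) with hρ0
  have hρ00 : 0 < ρ0 := by positivity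
  obtain ⟨N, hN⟩ := exists_nat_gt (2 * M / w)
  refine ⟨ρ0 / 4 ^ N, by positivity, fun f z hS x0 => ?_⟩
  obtain ⟨V, hV, hVs⟩ := hS.sup
  have hz1 : ContDiff ℝ 1 z := Bs.smooth_one hS.sz
  -- the good scale
  have good : ∃ (j : ℕ) (m : ℝ), j ≤ N ∧ -M ≤ m ∧ (∀ x ∈ ball x0 (4 * (ρ0 / 4 ^ j)), m ≤ z x) ∧
      ∃ x ∈ ball x0 (ρ0 / 4 ^ j), z x ≤ m + w := by
    by_contra hcon
    push Not at hcon
    have key : ∀ j : ℕ, j ≤ N → ∀ x ∈ ball x0 (4 * (ρ0 / 4 ^ j)), -M + j * w ≤ z x := by
      intro j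
      induction j with
      | zero => intro _ x _; simpa using (abs_le.1 (hS.bz x)).1
      | succ j ih =>
        intro hj x hx
        have := hcon j (-M + j * w) (by omega) (by nlinarith [Nat.cast_nonneg (α := ℝ) j])
          (ih (by omega)) x (by convert hx using 2; rw [pow_succ]; field_simp)
        push_cast; linarith
    have h1 := key N le_rfl x0 (mem_ball_self (by positivity))
    have h2 := (abs_le.1 (hS.bz x0)).2
    rw [div_lt_iff₀ hw] at hN
    linarith
  obtain ⟨j, m, hj, hm, hlow, x1, hx1, hx1'⟩ := good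
  set ρ := ρ0 / 4 ^ j with hρ
  have hρp : 0 < ρ := by positivity
  have hρle : ρ ≤ ρ0 := div_le_self hρ00.le (one_le_pow₀ (by norm_num))
  have hρ1 : ρ ≤ 1 := hρle.trans ((min_le_left _ _).trans (min_le_right _ _))
  refine ⟨ρ, by rw [hρ]; gcongr; norm_num, hρle.trans ((min_le_left _ _).trans (min_le_left _ _)), ?_⟩
  set F : E n → E n := fun x => WithLp.toLp 2 (V x) with hF
  have cF : Continuous F :=
    (PiLp.continuous_toLp 2 _).comp (continuous_pi fun k => (hV k).continuous)
  have cen := continuous_en hS.sf hS.sz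
  have weak : ∀ φ, Test univ φ → ∫ x, ⟪-F x, ∇ φ x⟫ ≤ ∫ x, (K - c * en f z x) * φ x := by
    intro φ hφ
    have e := Bs.ibp_divE hφ.c1 hφ.cs hV
    simp only [inner_neg_left, hF, inner_grad, integral_neg]
    rw [← e]
    have cd : Continuous (divE V) := continuous_finsetSum _ fun i _ => Bs.continuous_pd (hV i) i
    refine integral_mono ((hφ.c1.continuous.mul cd).integrable_of_hasCompactSupport hφ.cs.mul_right)
      (hφ.int_mul (continuous_const.sub (continuous_const.mul cen)).continuousOn) fun x => ?_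
    simp only
    rw [mul_comm]
    exact mul_le_mul_of_nonneg_right (hVs x).1 (hφ.nonneg x)
  have hsub : Sub c (n * K) a 0 univ (fun x => -z x) (fun _ => 1) fun x => -F x := by
    refine ⟨hz1.neg.contDiffOn, continuousOn_const, cF.neg.continuousOn, fun _ _ => zero_le_one,
      fun x _ => ?_, fun x _ => ?_, fun φ hφ => (weak φ hφ).trans ?_⟩
    · rw [gradient_neg, norm_neg, inner_neg_neg, hF, inner_grad, ← gsq_eq]
      have := (hVs x).2.1
      simp only [mul_comm (V x _)] at this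
      nlinarith
    · rw [gradient_neg, norm_neg, norm_neg]
      have := norm_toLp_le (V x) (hVs x).2.2
      rw [sqrt_gsq] at this
      simp only [hF]
      nlinarith
    · refine integral_mono
        (hφ.int_mul (continuous_const.sub (continuous_const.mul cen)).continuousOn)
        (hφ.int_mul ((continuous_const.mul (continuous_gradient hz1.neg).norm).add
          continuous_const).continuousOn) fun x => ?_
      refine mul_le_mul_of_nonneg_right ?_ (hφ.nonneg x)
      nlinarith [mul_nonneg hc.le (en_nn f z x)]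
  have hsup : Sup c (n * K) a 0 (ball 0 4) (fun y => z (x0 + ρ • y) - m) (fun _ => ρ)
      fun y => ρ • F (x0 + ρ • y) :=
    ((((hsub.add_const m).scale isOpen_univ ha0 le_rfl x0 hρp hρ1).restrict
      (V := ball 0 4) fun _ _ => trivial).congr isOpen_ball (fun x _ => by ring)
      (fun x _ => by ring) fun x _ => by simp)
  have mem : ∀ (y : E n) (s : ℝ), x0 + ρ • y ∈ ball x0 (s * ρ) ↔ y ∈ ball (0 : E n) s := fun y s => by
    rw [mem_ball_iff_norm, mem_ball_zero_iff, add_sub_cancel_left, norm_smul, Real.norm_eq_abs,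
      abs_of_pos hρp, mul_comm s, mul_lt_mul_iff_right₀ hρp]
  have e1 := hfl _ _ ρ hsup hρp (hρle.trans ((min_le_right _ _).trans (min_le_left _ _)))
    (fun y hy => ⟨by linarith [hlow _ ((mem y 4).2 hy)],
      by linarith [(abs_le.1 (hS.bz (x0 + ρ • y))).2]⟩)
    ⟨ρ⁻¹ • (x1 - x0), by
      have : x0 + ρ • ρ⁻¹ • (x1 - x0) = x1 := by rw [smul_smul, mul_inv_cancel₀ hρp.ne']; simp
      refine ⟨(mem _ 1).1 (by rwa [this, one_mul]), by rw [this]; linarith⟩⟩
  have hT : Test ((fun y => x0 + ρ • y) ⁻¹' univ) η := ⟨hη1, hηc, fun _ _ => trivial, hη0⟩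
  have e2 := weak_scale weak x0 hρp hT
  have caff : Continuous (fun y : E n => x0 + ρ • y) := by fun_prop
  have cF' : Continuous fun y => ρ • F (x0 + ρ • y) := (cF.comp caff).const_smul ρ
  have ie : Integrable fun y => en f z (x0 + ρ • y) * η y := hT.int_mul (cen.comp caff).continuousOn
  have iη : Integrable η := hη1.continuous.integrable_of_hasCompactSupport hηc
  have e3 : ∫ y, ρ ^ 2 * (K - c * en f z (x0 + ρ • y)) * η y =
      ρ ^ 2 * K * J - c * ρ ^ 2 * ∫ y, en f z (x0 + ρ • y) * η y := by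
    rw [hJ, ← integral_const_mul, ← integral_const_mul,
      ← integral_sub (iη.const_mul _) (ie.const_mul _)]
    exact integral_congr_ae (Eventually.of_forall fun y => by simp only; ring)
  have i2 : IntegrableOn (fun y => 2 * C2 * ‖ρ • F (x0 + ρ • y)‖) (ball 0 2) :=
    (((cF'.norm.continuousOn.integrableOn_compact (isCompact_closedBall 0 2)).mono_set
      ball_subset_closedBall).const_mul _)
  have e4 : -(2 * C2 * ∫ y in ball (0 : E n) 2, ‖ρ • F (x0 + ρ • y)‖) ≤
      ∫ y, ⟪ρ • -F (x0 + ρ • y), ∇ η y⟫ := by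
    rw [← integral_const_mul, ← integral_indicator measurableSet_ball, ← integral_neg]
    refine integral_mono ((integrable_indicator_iff measurableSet_ball).2 i2).neg
      (hT.int_inner ((cF.comp caff).neg.const_smul ρ).continuousOn) fun y => ?_
    by_cases hy : y ∈ ball (0 : E n) 2
    · simp only [indicator_of_mem hy, smul_neg, inner_neg_left, neg_le_neg_iff]
      have h1 := real_inner_le_norm (ρ • F (x0 + ρ • y)) (∇ η y)
      have h2 := mul_le_mul_of_nonneg_left (hηg y) (norm_nonneg (ρ • F (x0 + ρ • y)))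
      have h3 : C2 / (3 / 2 - 1) = 2 * C2 := by ring
      rw [h3] at h2
      linarith
    · simp [indicator_of_notMem hy, gradient_eq_zero_of_notMem fun h => hy (hηs2 h)]
  have e5 : (∫ x in ball x0 ρ, en f z x) / ρ ^ n ≤ ∫ y, en f z (x0 + ρ • y) * η y := by
    rw [← integral_indicator measurableSet_ball, div_eq_inv_mul, ← integral_affine _ x0 hρp]
    refine integral_mono_of_nonneg (Eventually.of_forall fun y =>
      indicator_nonneg (fun x _ => en_nn f z x) _) ie (Eventually.of_forall fun y => ?_)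
    by_cases hy : x0 + ρ • y ∈ ball x0 ρ
    · simp [indicator_of_mem hy, hη1' y (ball_subset_closedBall ((mem y 1).1 (by rwa [one_mul])))]
    · simp only [indicator_of_notMem hy]
      exact mul_nonneg (en_nn f z _) (hη0 y)
  have e6 : ρ ^ 2 * K * J ≤ c * ε / 2 := by
    have h1 : ρ ≤ c * ε / (2 * K * (J + 1)) := hρle.trans ((min_le_right _ _).trans (min_le_right _ _))
    rw [le_div_iff₀ (by positivity)] at h1
    have h2 : ρ ^ 2 ≤ ρ := by nlinarith
    nlinarith [mul_le_mul_of_nonneg_right h2 (mul_nonneg hK.le hJ0), mul_pos hρp hK]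
  have e7 : 2 * C2 * ∫ y in ball (0 : E n) 2, ‖ρ • F (x0 + ρ • y)‖ ≤ c * ε / 2 := by
    calc _ ≤ 2 * C2 * (c * ε / (4 * C2)) := by gcongr
      _ = c * ε / 2 := by field_simp; ring
  rw [e3] at e2
  have e8 := mul_le_mul_of_nonneg_left e5 (by positivity : 0 ≤ c * ρ ^ 2)
  rw [sE, mul_div_assoc]
  refine le_of_mul_le_mul_left ?_ hc
  nlinarith

end Crest.Agent.N346.An

end
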