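import Crest.Agent.N346.An.Cacc
import Crest.Agent.N346.An.Small
import Crest.Agent.N346.An.Excess
import Crest.Agent.N346.An.Morrey
import Crest.Agent.N346.An.L2Sch
import Crest.Agent.N346.An.Freeze

/-!
Row 346, An: the Hölder estimate (helper53).
-/

set_option autoImplicit false

namespace Crest.Agent.N346.An

theorem excessS : ExcessStmt := excess poin l2Sch

theorem hol : HolStmt := iter cacc small excessS morrey

end Crest.Agent.N346.An
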