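import Crest.Agent.N346.An.Mol
import Crest.Agent.N346.Mat

/-!
Row 346, An: approximation by the constant coefficient system on the unit ball (helper53).
-/

set_option autoImplicit false
open MeasureTheory Filter Topology Set Metric
open scoped ContDiff ENNReal
open Crest.GeometryTopology.CoordMetric
open Crest.MathPhysics.ExteriorData
open Crest.Agent.R238.Gap.Mol (Mo)
open Crest.Agent.R238 (HB Ell)
open Crest.Agent.N346.Bs

noncomputable section

namespace Crest.Agent.N346.An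

variable {n : ℕ}

/-- Poincaré inequality with a point value. -/
def PoinStmt : Prop := ∀ n : ℕ, ∃ C : ℝ, 0 < C ∧ ∀ (ι : Type) [Fintype ι] (u : ι → E n → ℝ)
  (x0 : E n) (r : ℝ), 0 < r → (∀ l, ContDiff ℝ 1 (u l)) → ∃ y ∈ ball x0 r,
    ∫ x in ball x0 r, ∑ l, (u l x - u l y) ^ 2
      ≤ C * r ^ 2 * ∫ x in ball x0 r, ∑ l, gsq (u l) x

/-- volume of the unit ball -/
def om (n : ℕ) : ℝ := volume.real (ball (0 : E n) 1)

theorem om_nonneg (n : ℕ) : 0 ≤ om n := measureReal_nonneg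

theorem vol_ball (x : E n) {r : ℝ} (hr : 0 < r) : volume.real (ball x r) = r ^ n * om n := by
  unfold om
  rw [measureReal_def, measureReal_def, Measure.addHaar_ball_of_pos _ _ hr, ENNReal.toReal_mul,
    ENNReal.toReal_ofReal (by positivity)]
  simp

theorem int_ball_mono {h : E n → ℝ} (hh : Continuous h) (h0 : ∀ x, 0 ≤ h x) (x0 : E n)
    {r R : ℝ} (hr : r ≤ R) : ∫ x in ball x0 r, h x ≤ ∫ x in ball x0 R, h x :=
  setIntegral_mono_set (intOn_ball hh x0 R) (Eventually.of_forall h0)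
    (ball_subset_ball hr).eventuallyLE

theorem int_ball_le {h k : E n → ℝ} (hh : Continuous h) (hk : Continuous k) (x0 : E n) (r : ℝ)
    (hle : ∀ x ∈ ball x0 r, h x ≤ k x) : ∫ x in ball x0 r, h x ≤ ∫ x in ball x0 r, k x :=
  setIntegral_mono_on (intOn_ball hh x0 r) (intOn_ball hk x0 r) measurableSet_ball hle

theorem l2_tri {a b : E n → ℝ} (ha : Continuous a) (hb : Continuous b) (x0 : E n) (r : ℝ) :
    ∫ x in ball x0 r, (a x + b x) ^ 2
      ≤ 2 * (∫ x in ball x0 r, a x ^ 2) + 2 * ∫ x in ball x0 r, b x ^ 2 := by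
  have ia : IntegrableOn (fun x => a x ^ 2) (ball x0 r) := intOn_ball (ha.pow 2) x0 r
  have ib : IntegrableOn (fun x => b x ^ 2) (ball x0 r) := intOn_ball (hb.pow 2) x0 r
  rw [← integral_const_mul, ← integral_const_mul, ← integral_add (ia.const_mul 2) (ib.const_mul 2)]
  exact int_ball_le (by fun_prop) (by fun_prop) x0 r fun x _ => by
    nlinarith [sq_nonneg (a x - b x)]

theorem norm_fderiv_le {u : E n → ℝ} {x : E n} {Q : ℝ} (h : ∀ i, |pderiv i u x| ≤ Q)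
    (hQ : 0 ≤ Q) : ‖fderiv ℝ u x‖ ≤ n * Q := by
  refine ContinuousLinearMap.opNorm_le_bound _ (by positivity) fun v => ?_
  rw [fderiv_eq_sum, Real.norm_eq_abs]
  refine (Finset.abs_sum_le_sum_abs _ _).trans ?_
  refine (Finset.sum_le_sum (g := fun _ => Q * ‖v‖) fun i _ => ?_).trans_eq (by simp; ring)
  rw [abs_mul]
  exact mul_le_mul (h i) (by simpa using PiLp.norm_apply_le v i) (abs_nonneg _) hQ

theorem lip_ball {u : E n → ℝ} (hu : ContDiff ℝ 1 u) {x0 : E n} {R Q : ℝ}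
    (h : ∀ x ∈ closedBall x0 R, ∀ i, |pderiv i u x| ≤ Q) (hQ : 0 ≤ Q) {x y : E n}
    (hx : x ∈ closedBall x0 R) (hy : y ∈ closedBall x0 R) : |u x - u y| ≤ n * Q * ‖x - y‖ :=
  (convex_closedBall x0 R).norm_image_sub_le_of_norm_fderiv_le
    (fun t _ => hu.differentiable one_ne_zero t) (fun t ht => norm_fderiv_le (h t ht) hQ) hy hx

/-- `L2SchStmt` with a Lipschitz right hand side -/
theorem sch_lip (hL : L2SchStmt) (hn : 3 ≤ n) {lo hi R : ℝ} (hlo : 0 < lo) (hlh : lo ≤ hi)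
    (hR : 0 < R) (hR1 : R ≤ 1 / 2) : ∃ C : ℝ, 0 < C ∧
    ∀ (A : Matrix (Fin n) (Fin n) ℝ) (u : E n → ℝ) (N S : ℝ), Ell lo hi A → ContDiff ℝ ∞ u →
      0 ≤ S → (∀ x ∈ closedBall (0 : E n) R, |aD2 (fun _ => A) u x| ≤ N) →
      (∀ x ∈ closedBall (0 : E n) R, ∀ y ∈ closedBall (0 : E n) R,
        |aD2 (fun _ => A) u x - aD2 (fun _ => A) u y| ≤ N * ‖x - y‖) →
      (∫ x in ball (0 : E n) R, u x ^ 2) ≤ S ^ 2 →
      ∀ x ∈ closedBall (0 : E n) (R / 8), (∀ i, |pderiv i u x| ≤ C * (N + S)) ∧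
        ∀ i j, |pderiv i (pderiv j u) x| ≤ C * (N + S) := by
  obtain ⟨C, hC, H⟩ := hL n hn (1 / 2) lo hi R (by norm_num) (by norm_num) hlo hlh hR (by linarith)
  refine ⟨C, hC, fun A u N S hA hu hS h0 h1 h2 => H A u N S hA (hu.of_le
    (WithTop.coe_le_coe.2 (le_top : (3 : ℕ∞) ≤ ⊤))) hS h0 (fun x hx y hy => (h1 x hx y hy).trans ?_) h2⟩
  have hN : 0 ≤ N := (abs_nonneg _).trans (h0 0 (mem_closedBall_self hR.le))
  refine mul_le_mul_of_nonneg_left ?_ hN
  have hd : ‖x - y‖ ≤ 1 := by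
    rw [mem_closedBall_zero_iff] at hx hy
    linarith [norm_sub_le x y]
  calc ‖x - y‖ = ‖x - y‖ ^ (1 : ℝ) := (Real.rpow_one _).symm
    _ ≤ _ := Real.rpow_le_rpow_of_exponent_ge' (norm_nonneg _) hd (by norm_num) (by norm_num)

variable {σ W : ℝ} {w : E n → ℝ}

/-- distance to the mollified value at the centre -/
theorem Kern.near (hw : Kern σ W w) (hσ : 0 ≤ σ) {v : E n → ℝ} (hv : ContDiff ℝ 1 v) {θ Q : ℝ}
    (hθ : 0 < θ) (hθσ : θ + σ ≤ 1) (hQ : 0 ≤ Q)
    (h : ∀ x ∈ closedBall (0 : E n) θ, ∀ i, |pderiv i (Mo w v) x| ≤ Q) :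
    ∫ x in ball (0 : E n) θ, (v x - Mo w v 0) ^ 2
      ≤ 2 * (σ ^ 2 * ∫ x in ball (0 : E n) 1, gsq v x) + 2 * (θ ^ n * om n * (n * Q * θ) ^ 2) := by
  have hc := hv.continuous
  have hm := hw.smooth hc
  have h1 := l2_tri (a := fun x => v x - Mo w v x) (b := fun x => Mo w v x - Mo w v 0)
    (hc.sub hm.continuous) (hm.continuous.sub continuous_const) 0 θ
  simp only [sub_add_sub_cancel] at h1
  have h2 := hw.l2_sub hσ hv hθσ
  have h3 : ∫ x in ball (0 : E n) θ, (Mo w v x - Mo w v 0) ^ 2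
      ≤ ∫ _ in ball (0 : E n) θ, (n * Q * θ) ^ 2 := by
    refine int_ball_le (h := fun x => (Mo w v x - Mo w v 0) ^ 2) ((hm.continuous.sub continuous_const).pow 2) continuous_const 0 θ
      fun x hx => ?_
    have h4 := lip_ball (smooth_one hm) h hQ (ball_subset_closedBall hx) (mem_closedBall_self hθ.le)
    rw [sub_zero] at h4
    have h5 : n * Q * ‖x‖ ≤ n * Q * θ :=
      mul_le_mul_of_nonneg_left (mem_ball_zero_iff.1 hx).le (by positivity)
    exact sq_le_sq' (by linarith [neg_abs_le (Mo w v x - Mo w v 0)])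
      (by linarith [le_abs_self (Mo w v x - Mo w v 0)])
  rw [setIntegral_const, vol_ball _ hθ, smul_eq_mul] at h3
  linarith

theorem pd_affine {f : E n → ℝ} (hf : ContDiff ℝ ∞ f) (p : Fin n → ℝ) (c : ℝ) (l : Fin n) :
    pderiv l (fun x => f x - ∑ k, p k * x k - c) = fun x => pderiv l f x - p l := by
  funext x
  have hd : ∀ k, DifferentiableAt ℝ (fun y : E n => p k * y k) x := fun k => by fun_prop
  rw [pd_sub_const, pd_sub (smooth_diff hf x) (by fun_prop), pd_sum fun k _ => hd k]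
  simp [pd_const_mul, pd_coord]

theorem sum_gsq_pd (f z : E n → ℝ) (x : E n) :
    gsq z x + ∑ l, gsq (pderiv l f) x = en f z x := by
  unfold en
  rw [Finset.sum_comm, add_comm]
  rfl

theorem continuous_en {f z : E n → ℝ} (hf : ContDiff ℝ ∞ f) (hz : ContDiff ℝ ∞ z) :
    Continuous (en f z) := by
  have : en f z = fun x => gsq z x + ∑ l, gsq (pderiv l f) x := funext fun x =>
    (sum_gsq_pd f z x).symm
  rw [this]
  exact (continuous_gsq (smooth_one hz)).add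
    (continuous_finsetSum _ fun l _ => continuous_gsq (smooth_one (contDiff_pd hf l)))

theorem continuous_aD2 {u : E n → ℝ} (hu : ContDiff ℝ ∞ u) (A : Matrix (Fin n) (Fin n) ℝ) :
    Continuous (aD2 (fun _ => A) u) :=
  continuous_finsetSum _ fun i _ => continuous_finsetSum _ fun j _ =>
    continuous_const.mul (contDiff_pd (contDiff_pd hu j) i).continuous

theorem gsq_nn (u : E n → ℝ) (x : E n) : 0 ≤ gsq u x := Finset.sum_nonneg fun _ _ => sq_nonneg _

theorem osc_sq (f z : E n → ℝ) (zb : ℝ) (pb : Fin n → ℝ) (x : E n) :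
    osc f z zb pb x ^ 2 = (z x - zb) ^ 2 + ∑ i, (pderiv i f x - pb i) ^ 2 :=
  Real.sq_sqrt (by positivity)

theorem sq_comb {Q a b ε δ : ℝ} (h0 : 0 ≤ Q) (h : Q ≤ a * ε + b * δ) :
    Q ^ 2 ≤ 2 * a ^ 2 * ε ^ 2 + 2 * b ^ 2 * δ ^ 2 := by
  nlinarith [sq_nonneg (a * ε - b * δ), pow_le_pow_left₀ h0 h 2]

theorem ar1 {X A B C ε : ℝ} (hC : 0 ≤ C) (h : X ≤ 2 * A + 2 * B) (hA : A ≤ (1 + C) * ε ^ 2)
    (hB : B ≤ (C + C * C) * ε ^ 2) : X ≤ (2 * (C + 1) * ε) ^ 2 := by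
  nlinarith [mul_nonneg hC (sq_nonneg ε), mul_nonneg (sq_nonneg C) (sq_nonneg ε), sq_nonneg ε]

set_option maxHeartbeats 800000 in
theorem linApp (hP : PoinStmt) (hL : L2SchStmt) (hn : 3 ≤ n) {lo hi : ℝ} (hlo : 0 < lo)
    (hlh : lo ≤ hi) : ∃ C : ℝ, 0 < C ∧ ∀ θ : ℝ, 0 < θ → θ ≤ 1 / 128 → ∃ Cθ : ℝ, 0 < Cθ ∧
    ∀ (f z : E n → ℝ) (A1 A2 : Matrix (Fin n) (Fin n) ℝ) (b : Fin n → ℝ) (G : VectorField n)
      (M ε δ : ℝ), ContDiff ℝ ∞ f → ContDiff ℝ ∞ z → (∀ k, ContDiff ℝ 1 fun x => G x k) →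
      Ell lo hi A1 → Ell lo hi A2 → (∀ i, |b i| ≤ hi) → (∀ x, |z x| ≤ M) →
      (∀ x i, |pderiv i f x| ≤ M) → 0 ≤ ε → (∫ x in ball (0 : E n) 1, en f z x) ≤ ε ^ 2 →
      (∫ x in ball (0 : E n) 1, |aD2 (fun _ => A2) z x - divE G x|) ≤ δ →
      (∀ k, (∫ x in ball (0 : E n) 1, |G x k|) ≤ δ) →
      (∫ x in ball (0 : E n) 1, |aD2 (fun _ => A1) f x - ∑ i, b i * pderiv i z x|) ≤ δ →
      ∃ (zb : ℝ) (pb : Fin n → ℝ), |zb| ≤ M ∧ (∀ i, |pb i| ≤ M) ∧
        ∫ x in ball (0 : E n) θ, osc f z zb pb x ^ 2 ≤ θ ^ n * (C * θ ^ 2 * ε ^ 2 + Cθ * δ ^ 2) := by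
  obtain ⟨C0, hC0, HP⟩ := hP n
  obtain ⟨C2, hC2, H2⟩ := sch_lip hL hn hlo hlh (R := 1 / 2) (by norm_num) le_rfl
  obtain ⟨C1, hC1, H1⟩ := sch_lip hL hn hlo hlh (R := 1 / 16) (by norm_num) (by norm_num)
  have hhi : 0 < hi := hlo.trans_le hlh
  have hn1 : (1 : ℝ) ≤ n := by exact_mod_cast (by omega : 1 ≤ n)
  have hom := om_nonneg n
  set a2 := C2 * (2 * (C0 + 1)) with ha2
  set a1 := C1 * (n * hi * (n * a2) + 2 * (C0 + 1)) with ha1
  refine ⟨2 + 2 * om n * n ^ 2 * (2 * a2 ^ 2 + n * (2 * a1 ^ 2)), by positivity, fun θ hθ hθ1 => ?_⟩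
  set σ := θ ^ (n + 1) with hσ
  have hσ0 : 0 < σ := by positivity
  have hσθ : σ ≤ θ := by
    rw [hσ, pow_succ]
    exact mul_le_of_le_one_left hθ.le (pow_le_one₀ hθ.le (by linarith))
  have hσ2 : σ ^ 2 ≤ θ ^ n * θ ^ 2 := by
    have : σ ^ 2 = θ ^ n * (θ ^ n * θ ^ 2) := by rw [hσ]; ring
    rw [this]
    exact mul_le_of_le_one_left (by positivity) (pow_le_one₀ hθ.le (by linarith))
  obtain ⟨W, w, hw⟩ := exists_kern n hσ0
  have hW := hw.W_nonneg
  set b2 := C2 * ((1 + n) * W) with hb2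
  set b1 := C1 * ((1 + n) * W + n * hi * (n * b2)) with hb1
  refine ⟨1 + 2 * om n * n ^ 2 * (2 * b2 ^ 2 + n * (2 * b1 ^ 2)), by positivity, ?_⟩
  intro f z A1 A2 b G M ε δ hf hz hG hA1 hA2 hb hzM hfM hε hE hd0 hd1 hd2
  have hδ : 0 ≤ δ := (integral_nonneg fun x => abs_nonneg _).trans hd0
  have hz1 := smooth_one hz
  have hp1 : ∀ l, ContDiff ℝ 1 (pderiv l f) := fun l => smooth_one (contDiff_pd hf l)
  have cgz := continuous_gsq hz1
  have cgp : Continuous fun x => ∑ l, gsq (pderiv l f) x :=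
    continuous_finsetSum _ fun l _ => continuous_gsq (hp1 l)
  have hsplit : (∫ x in ball (0 : E n) 1, gsq z x)
      + (∫ x in ball (0 : E n) 1, ∑ l, gsq (pderiv l f) x) ≤ ε ^ 2 := by
    rw [← integral_add (intOn_ball cgz 0 1) (intOn_ball cgp 0 1)]
    simpa only [sum_gsq_pd] using hE
  have iz0 : 0 ≤ ∫ x in ball (0 : E n) 1, gsq z x := integral_nonneg (gsq_nn z)
  have ip0 : 0 ≤ ∫ x in ball (0 : E n) 1, ∑ l, gsq (pderiv l f) x :=
    integral_nonneg fun x => Finset.sum_nonneg fun l _ => gsq_nn _ x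
  have hσ1 : σ ^ 2 ≤ 1 := pow_le_one₀ hσ0.le (by linarith)
  have mz := hw.smooth hz.continuous
  -- the function `z`
  obtain ⟨y0, -, hy0⟩ := HP Unit (fun _ => z) 0 1 one_pos fun _ => hz1
  simp only [Finset.univ_unique, Finset.sum_singleton, one_pow, mul_one] at hy0
  have pdu : ∀ i, pderiv i (fun x => Mo w z x - z y0) = pderiv i (Mo w z) := fun i =>
    funext fun x => pd_sub_const _ _ i x
  have au : aD2 (fun _ => A2) (fun x => Mo w z x - z y0) = Mo w (aD2 (fun _ => A2) z) := by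
    funext x
    rw [← hw.Mo_aD2 hz]
    simp only [aD2, pdu]
  have B2 := hw.Mo_bound (R := 1 / 2) (by linarith) (continuous_aD2 hz A2) hG hd0 hd1
  have L2 : ∫ x in ball (0 : E n) (1 / 2), (Mo w z x - z y0) ^ 2 ≤ (2 * (C0 + 1) * ε) ^ 2 := by
    have h1 := l2_tri (a := fun x => -(z x - Mo w z x)) (b := fun x => z x - z y0)
      (hz.continuous.sub mz.continuous).neg (hz.continuous.sub continuous_const) 0 (1 / 2)
    have e : ∀ x, -(z x - Mo w z x) + (z x - z y0) = Mo w z x - z y0 := fun x => by ring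
    simp only [e, neg_sq] at h1
    have h2 := hw.l2_sub hσ0.le hz1 (R := 1 / 2) (by linarith)
    have h3 := int_ball_mono (h := fun x => (z x - z y0) ^ 2)
      ((hz.continuous.sub continuous_const).pow 2) (fun x => sq_nonneg _) 0
      (show (1 / 2 : ℝ) ≤ 1 by norm_num)
    have h4 : σ ^ 2 * ∫ x in ball (0 : E n) 1, gsq z x ≤ ε ^ 2 :=
      (mul_le_of_le_one_left iz0 hσ1).trans (by linarith)
    have h5 : C0 * ∫ x in ball (0 : E n) 1, gsq z x ≤ C0 * ε ^ 2 :=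
      mul_le_mul_of_nonneg_left (by linarith) hC0.le
    have h6 : 0 ≤ C0 * ε ^ 2 := by positivity
    have h7 : 0 ≤ C0 * C0 * ε ^ 2 := by positivity
    exact ar1 hC0.le h1 (by linarith) (by linarith)
  have Q2 := H2 A2 (fun x => Mo w z x - z y0) _ _ hA2 (mz.sub contDiff_const) (by positivity)
    (by rw [au]; exact B2.1) (by rw [au]; exact B2.2) L2
  simp only [pdu] at Q2
  set q2 := C2 * ((1 + n) * (W * δ) + 2 * (C0 + 1) * ε) with hq2
  have hq20 : 0 ≤ q2 := by positivity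
  have eq2 : q2 = a2 * ε + b2 * δ := by rw [hq2, ha2, hb2]; ring
  -- the function `f`
  obtain ⟨y1, -, hy1⟩ := HP (Fin n) (fun l => pderiv l f) 0 1 one_pos hp1
  simp only [one_pow, mul_one] at hy1
  set p : Fin n → ℝ := fun l => pderiv l f y1 with hp
  have sg : ∀ c : ℝ, ContDiff ℝ ∞ fun x : E n => f x - ∑ k, p k * x k - c := fun c =>
    (hf.sub (ContDiff.sum fun k _ => contDiff_const.mul
      (EuclideanSpace.proj (𝕜 := ℝ) k).contDiff)).sub contDiff_const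
  have gg : ∀ c : ℝ, gsq (fun x : E n => f x - ∑ k, p k * x k - c)
      = fun x => ∑ l, (pderiv l f x - p l) ^ 2 := fun c => by
    funext x
    simp only [gsq, pd_affine hf]
  obtain ⟨y2, -, hy2⟩ := HP Unit (fun _ x => f x - ∑ k, p k * x k - 0) 0 1 one_pos
    fun _ => smooth_one (sg 0)
  simp only [Finset.univ_unique, Finset.sum_singleton, one_pow, mul_one, gg] at hy2
  simp only [sub_zero] at hy2
  set g : E n → ℝ := fun x => f x - ∑ k, p k * x k - (f y2 - ∑ k, p k * y2 k) with hg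
  have hgs : ContDiff ℝ ∞ g := sg _
  have mg := hw.smooth hgs.continuous
  have pp : ∀ i j, pderiv i (pderiv j g) = pderiv i (pderiv j f) := fun i j => by
    rw [hg, pd_affine hf]
    exact funext fun x => pd_sub_const _ _ i x
  have ppm : ∀ i j, pderiv i (pderiv j (Mo w g)) = pderiv i (Mo w (pderiv j f)) := fun i j => by
    rw [hw.pd_Mo (smooth_one hgs), hw.pd_Mo (smooth_one (contDiff_pd hgs j)), pp,
      hw.pd_Mo (hp1 j)]
  have cb : Continuous fun x => ∑ i, b i * pderiv i z x :=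
    continuous_finsetSum _ fun i _ => continuous_const.mul (continuous_pd hz1 i)
  set G2 : E n → ℝ := fun x => aD2 (fun _ => A1) f x - ∑ i, b i * pderiv i z x with hG2
  have cG2 : Continuous G2 := (continuous_aD2 hf A1).sub cb
  have ag : ∀ x, aD2 (fun _ => A1) (Mo w g) x = Mo w G2 x + ∑ i, b i * pderiv i (Mo w z) x := by
    intro x
    have e1 : aD2 (fun _ => A1) g = aD2 (fun _ => A1) f := by
      funext y
      simp only [aD2, pp]
    have i1 : ∀ i, Integrable fun t => b i * (w t * pderiv i z (x - t)) := fun i =>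
      (hw.int_mul (continuous_pd hz1 i) x).const_mul _
    rw [hw.Mo_aD2 hgs, e1]
    simp only [hw.pd_Mo hz1, Mo, smul_eq_mul, ← integral_const_mul]
    rw [← integral_finsetSum _ fun i _ => i1 i,
      ← integral_add (hw.int_mul cG2 x) (integrable_finsetSum _ fun i _ => i1 i)]
    refine integral_congr_ae (Eventually.of_forall fun t => ?_)
    simp only [hG2, mul_sub, Finset.mul_sum, mul_left_comm (w t)]
    ring
  have B1 := hw.Mo_bound (R := 1 / 16) (G := fun _ _ => 0) (δ := δ) (by linarith) cG2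
    (fun _ => contDiff_const) (by simpa [divE] using hd2) (fun _ => by simpa using hδ)
  have e16 : (1 / 2 / 8 : ℝ) = 1 / 16 := by norm_num
  rw [e16] at Q2
  have sumb : ∀ (a : Fin n → ℝ) (t : ℝ), (∀ i, |a i| ≤ t) → |∑ i, b i * a i| ≤ n * hi * t := by
    intro a t ha
    refine (Finset.abs_sum_le_sum_abs _ _).trans ?_
    refine (Finset.sum_le_sum (g := fun _ => hi * t) fun i _ => ?_).trans_eq (by simp; ring)
    rw [abs_mul]
    exact mul_le_mul (hb i) (ha i) (abs_nonneg _) hhi.le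
  have L1 : ∫ x in ball (0 : E n) (1 / 16), (Mo w g x) ^ 2 ≤ (2 * (C0 + 1) * ε) ^ 2 := by
    have h1 := l2_tri (a := fun x => -(g x - Mo w g x)) (b := g)
      (hgs.continuous.sub mg.continuous).neg hgs.continuous 0 (1 / 16)
    have e : ∀ x, -(g x - Mo w g x) + g x = Mo w g x := fun x => by ring
    simp only [e, neg_sq] at h1
    have h2 := hw.l2_sub hσ0.le (smooth_one hgs) (R := 1 / 16) (by linarith)
    rw [hg, gg] at h2
    have h3 := int_ball_mono (h := fun x => g x ^ 2) (hgs.continuous.pow 2)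
      (fun x => sq_nonneg _) 0 (show (1 / 16 : ℝ) ≤ 1 by norm_num)
    set J := ∫ x in ball (0 : E n) 1, ∑ l, (pderiv l f x - p l) ^ 2 with hJ
    have hJ0 : 0 ≤ J := integral_nonneg fun x => by positivity
    have h4 : J ≤ C0 * ε ^ 2 := hy1.trans (mul_le_mul_of_nonneg_left (by linarith) hC0.le)
    have h5 : σ ^ 2 * J ≤ C0 * ε ^ 2 := (mul_le_of_le_one_left hJ0 hσ1).trans h4
    have h6 : C0 * J ≤ C0 * (C0 * ε ^ 2) := mul_le_mul_of_nonneg_left h4 hC0.le
    have h7 : ∫ x in ball (0 : E n) 1, g x ^ 2 ≤ C0 * J := hy2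
    have h8 : ∫ x in ball (0 : E n) (1 / 16), (g x - Mo w g x) ^ 2 ≤ σ ^ 2 * J := h2
    have h9 : 0 ≤ C0 * ε ^ 2 := by positivity
    exact ar1 hC0.le h1 (by linarith [sq_nonneg ε]) (by linarith)
  have Q1 := H1 A1 (Mo w g) ((1 + n) * (W * δ) + n * hi * (n * q2)) _ hA1 mg (by positivity)
    (fun x hx => by
      rw [ag]
      refine (abs_add_le _ _).trans (add_le_add (B1.1 x hx) ?_)
      exact sumb _ _ fun i => ((Q2 x hx).1 i).trans (le_mul_of_one_le_left hq20 hn1))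
    (fun x hx y hy => by
      have e : aD2 (fun _ => A1) (Mo w g) x - aD2 (fun _ => A1) (Mo w g) y
          = (Mo w G2 x - Mo w G2 y)
            + ∑ i, b i * (pderiv i (Mo w z) x - pderiv i (Mo w z) y) := by
        simp only [ag, mul_sub, Finset.sum_sub_distrib]
        ring
      have h1 := sumb _ (n * q2 * ‖x - y‖) fun i => lip_ball (smooth_one (contDiff_pd mz i))
        (fun t ht k => (Q2 t ht).2 k i) hq20 hx hy
      rw [e]
      refine (abs_add_le _ _).trans ((add_le_add (B1.2 x hx y hy) h1).trans_eq ?_)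
      ring) L1
  set q1 := C1 * ((1 + n) * (W * δ) + n * hi * (n * q2) + 2 * (C0 + 1) * ε) with hq1
  have hq10 : 0 ≤ q1 := by positivity
  have eq1 : q1 = a1 * ε + b1 * δ := by rw [hq1, eq2, ha1, hb1]; ring
  simp only [ppm] at Q1
  -- conclusion
  refine ⟨Mo w z 0, fun l => Mo w (pderiv l f) 0, hw.abs_Mo_le hzM 0,
    fun l => hw.abs_Mo_le (fun x => hfM x l) 0, ?_⟩
  have N2 := hw.near hσ0.le hz1 hθ (by linarith) hq20 fun x hx =>
    (Q2 x (closedBall_subset_closedBall (by linarith) hx)).1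
  have N1 := fun l => hw.near hσ0.le (hp1 l) hθ (by linarith) hq10 fun x hx i =>
    (Q1 x (closedBall_subset_closedBall (by linarith) hx)).2 i l
  have il : ∀ l, IntegrableOn (fun x => (pderiv l f x - Mo w (pderiv l f) 0) ^ 2)
      (ball (0 : E n) θ) := fun l => intOn_ball (((hp1 l).continuous.sub continuous_const).pow 2) 0 θ
  have iz : IntegrableOn (fun x => (z x - Mo w z 0) ^ 2) (ball (0 : E n) θ) :=
    intOn_ball ((hz.continuous.sub continuous_const).pow 2) 0 θ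
  simp only [osc_sq]
  rw [integral_add iz (integrable_finsetSum _ fun l _ => il l),
    integral_finsetSum _ fun l _ => il l]
  have N3 := Finset.sum_le_sum fun l (_ : l ∈ Finset.univ) => N1 l
  rw [Finset.sum_add_distrib, ← Finset.mul_sum, ← Finset.mul_sum,
    ← integral_finsetSum _ fun l _ => intOn_ball (continuous_gsq (hp1 l)) 0 1] at N3
  simp only [Finset.sum_const, Finset.card_univ, Fintype.card_fin, nsmul_eq_mul] at N3
  have s2 := sq_comb hq20 eq2.le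
  have s1 := sq_comb hq10 eq1.le
  have hθn : 0 < θ ^ n := by positivity
  have t1 : σ ^ 2 * ((∫ x in ball (0 : E n) 1, gsq z x)
      + ∫ x in ball (0 : E n) 1, ∑ l, gsq (pderiv l f) x) ≤ θ ^ n * θ ^ 2 * ε ^ 2 :=
    mul_le_mul hσ2 hsplit (by positivity) (by positivity)
  have hθ2 : θ ^ 2 ≤ 1 := pow_le_one₀ hθ.le (by linarith)
  set T := 2 * om n * n ^ 2 with hT
  have hT0 : 0 ≤ T := by positivity
  have t2 : q2 ^ 2 + n * q1 ^ 2 ≤ (2 * a2 ^ 2 + n * (2 * a1 ^ 2)) * ε ^ 2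
      + (2 * b2 ^ 2 + n * (2 * b1 ^ 2)) * δ ^ 2 := by
    have := mul_le_mul_of_nonneg_left s1 (show (0 : ℝ) ≤ n by positivity)
    linarith
  have t3 : θ ^ 2 * ((2 * b2 ^ 2 + n * (2 * b1 ^ 2)) * δ ^ 2)
      ≤ (2 * b2 ^ 2 + n * (2 * b1 ^ 2)) * δ ^ 2 := mul_le_of_le_one_left (by positivity) hθ2
  have t4 : θ ^ n * T * (θ ^ 2 * (q2 ^ 2 + n * q1 ^ 2)) ≤ θ ^ n * T *
      (θ ^ 2 * ((2 * a2 ^ 2 + n * (2 * a1 ^ 2)) * ε ^ 2)
        + (2 * b2 ^ 2 + n * (2 * b1 ^ 2)) * δ ^ 2) := by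
    refine mul_le_mul_of_nonneg_left ?_ (by positivity)
    have := mul_le_mul_of_nonneg_left t2 (sq_nonneg θ)
    linarith
  have t5 : 0 ≤ θ ^ n * δ ^ 2 := by positivity
  have t6 : 2 * (θ ^ n * om n * (n * q2 * θ) ^ 2) + n * (2 * (θ ^ n * om n * (n * q1 * θ) ^ 2))
      = θ ^ n * T * (θ ^ 2 * (q2 ^ 2 + n * q1 ^ 2)) := by rw [hT]; ring
  linarith

end Crest.Agent.N346.An

end
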