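import Crest.Agent.N346.An.Defs
import Crest.Agent.N346.Basic
import Crest.Agent.R238.GapMol
import Crest.Agent.R236.Poinc

/-!
Row 346, An: mollifier estimates used in the excess decay (helper53).
-/

set_option autoImplicit false
open MeasureTheory Filter Topology Set Metric
open scoped ContDiff ENNReal
open Crest.GeometryTopology.CoordMetric
open Crest.MathPhysics.ExteriorData
open Crest.Agent.R238.Gap.Mol (Mo)
open Crest.Agent.N346.Bs

noncomputable section

namespace Crest.Agent.N346.An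

variable {n : ℕ}

/-- a mollifier of width `σ` whose derivatives of order `≤ 2` are bounded by `W` -/
structure Kern (σ W : ℝ) (w : E n → ℝ) : Prop where
  sm : ContDiff ℝ ∞ w
  nn : ∀ t, 0 ≤ w t
  one : ∫ t, w t = 1
  supp : ∀ t, σ ≤ ‖t‖ → w t = 0
  b0 : ∀ t, |w t| ≤ W
  b1 : ∀ t, ‖fderiv ℝ w t‖ ≤ W
  b2 : ∀ t k, ‖fderiv ℝ (pderiv k w) t‖ ≤ W

theorem Kern.cs {σ W : ℝ} {w : E n → ℝ} (h : Kern σ W w) : HasCompactSupport w :=
  hasCompactSupport_of_far (R := σ) fun y hy => h.supp y hy.le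

theorem Kern.cont {σ W : ℝ} {w : E n → ℝ} (h : Kern σ W w) : Continuous w := h.sm.continuous

theorem Kern.int {σ W : ℝ} {w : E n → ℝ} (h : Kern σ W w) : Integrable w :=
  h.cont.integrable_of_hasCompactSupport h.cs

theorem Kern.W_nonneg {σ W : ℝ} {w : E n → ℝ} (h : Kern σ W w) : 0 ≤ W :=
  (abs_nonneg _).trans (h.b0 0)

theorem exists_kern (n : ℕ) {σ : ℝ} (hσ : 0 < σ) : ∃ (W : ℝ) (w : E n → ℝ), Kern σ W w := by
  let b : ContDiffBump (0 : E n) := ⟨σ / 2, σ, by positivity, by linarith⟩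
  have hs : ContDiff ℝ ∞ (b.normed volume) := b.contDiff_normed
  have hc : HasCompactSupport (b.normed volume) := b.hasCompactSupport_normed
  obtain ⟨W0, h0⟩ := hs.continuous.bounded_above_of_compact_support hc
  obtain ⟨W1, h1⟩ := (hs.continuous_fderiv (by simp)).bounded_above_of_compact_support
    (hc.fderiv ℝ)
  have h2 : ∀ k, ∃ W2, ∀ t, ‖fderiv ℝ (pderiv k (b.normed volume)) t‖ ≤ W2 := fun k =>
    ((contDiff_pd hs k).continuous_fderiv (by simp)).bounded_above_of_compact_support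
      ((hasCompactSupport_pd hc k).fderiv ℝ)
  choose W2 h2 using h2
  have p0 : 0 ≤ W0 := (norm_nonneg _).trans (h0 0)
  have p1 : 0 ≤ W1 := (norm_nonneg _).trans (h1 0)
  have p2 : ∀ k, 0 ≤ W2 k := fun k => (norm_nonneg _).trans (h2 k 0)
  have p3 : 0 ≤ ∑ k, W2 k := Finset.sum_nonneg fun k _ => p2 k
  refine ⟨W0 + W1 + ∑ k, W2 k, b.normed volume, hs, fun t => b.nonneg_normed t,
    b.integral_normed, fun t ht => ?_, fun t => ?_, fun t => ?_, fun t k => ?_⟩
  · have : t ∉ Function.support (b.normed volume) := by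
      rw [b.support_normed_eq]
      simpa [b] using ht
    simpa using this
  · have := h0 t
    rw [Real.norm_eq_abs] at this
    linarith
  · linarith [h1 t]
  · have := Finset.single_le_sum (f := W2) (fun k _ => p2 k) (Finset.mem_univ k)
    linarith [h2 k t]

variable {σ W : ℝ} {w : E n → ℝ}

theorem Mo_eq (w h : E n → ℝ) (x : E n) : Mo w h x = ∫ s, w (x - s) * h s := by
  unfold Mo
  rw [← integral_sub_left_eq_self (fun s => w (x - s) * h s) volume x]
  simp

theorem Kern.smooth (hw : Kern σ W w) {h : E n → ℝ} (hh : Continuous h) :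
    ContDiff ℝ ∞ (Mo w h) := R238.Gap.Mol.contDiff_Mo hw.sm hw.cs hh

theorem Kern.pd_Mo (hw : Kern σ W w) {h : E n → ℝ} (hh : ContDiff ℝ 1 h) (i : Fin n) :
    pderiv i (Mo w h) = Mo w (pderiv i h) := by
  funext x
  have h1 := R238.Gap.Mol.Mo_clm hw.cont hw.cs (hh.continuous_fderiv one_ne_zero)
    (ContinuousLinearMap.apply ℝ ℝ (EuclideanSpace.single i (1 : ℝ) : E n)) x
  unfold pderiv
  rw [R238.Gap.Mol.fderiv_Mo hw.cont hw.cs hh]
  exact h1

theorem Kern.abs_Mo_le (hw : Kern σ W w) {h : E n → ℝ} {B : ℝ} (hB : ∀ x, |h x| ≤ B) (x : E n) :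
    |Mo w h x| ≤ B := R238.Gap.Mol.norm_Mo_le hw.cont hw.cs hw.nn hw.one (h := h) hB x

theorem Kern.int_mul (hw : Kern σ W w) {h : E n → ℝ} (hh : Continuous h) (x : E n) :
    Integrable fun t => w t * h (x - t) := R238.Gap.Mol.integrable_int hw.cont hw.cs hh x

theorem Kern.Mo_aD2 (hw : Kern σ W w) {h : E n → ℝ} (hh : ContDiff ℝ ∞ h)
    (A : Matrix (Fin n) (Fin n) ℝ) (x : E n) :
    aD2 (fun _ => A) (Mo w h) x = Mo w (aD2 (fun _ => A) h) x := by
  have c2 : ∀ i j, Continuous (pderiv i (pderiv j h)) := fun i j =>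
    (contDiff_pd (contDiff_pd hh j) i).continuous
  have e : ∀ i j, pderiv i (pderiv j (Mo w h)) = Mo w (pderiv i (pderiv j h)) := fun i j => by
    rw [hw.pd_Mo (smooth_one hh), hw.pd_Mo (smooth_one (contDiff_pd hh j))]
  have i : ∀ i j, Integrable fun t => w t * (A i j * pderiv i (pderiv j h) (x - t)) := fun i j =>
    hw.int_mul (h := fun y => A i j * pderiv i (pderiv j h) y) (continuous_const.mul (c2 i j)) x
  simp only [aD2, e, Mo, smul_eq_mul, Finset.mul_sum]
  rw [integral_finsetSum _ fun k _ => integrable_finsetSum _ fun j _ => i k j]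
  refine Finset.sum_congr rfl fun k _ => ?_
  rw [integral_finsetSum _ fun j _ => i k j]
  refine Finset.sum_congr rfl fun j _ => ?_
  rw [← integral_const_mul]
  exact integral_congr_ae (Eventually.of_forall fun t => by ring)

/-! ### `L²` distance to the mollification -/

theorem gsq_eq (u : E n → ℝ) (x : E n) : gsq u x = ‖fderiv ℝ u x‖ ^ 2 := by
  rw [← sum_pd_sq]
  simp only [gsq, sq]

theorem continuous_gsq {u : E n → ℝ} (hu : ContDiff ℝ 1 u) : Continuous (gsq u) :=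
  continuous_finsetSum _ fun i _ => (continuous_pd hu i).pow 2

theorem intOn_ball {h : E n → ℝ} (hh : Continuous h) (x0 : E n) (r : ℝ) :
    IntegrableOn h (ball x0 r) :=
  (hh.continuousOn.integrableOn_compact (isCompact_closedBall x0 r)).mono_set ball_subset_closedBall

theorem sq_lintegral_le {f : ℝ → ℝ≥0∞} (hf : AEMeasurable f (volume.restrict (Icc (0 : ℝ) 1))) :
    (∫⁻ t in Icc (0 : ℝ) 1, f t) ^ 2 ≤ ∫⁻ t in Icc (0 : ℝ) 1, f t ^ 2 := by
  have h := ENNReal.lintegral_mul_le_Lp_mul_Lq (volume.restrict (Icc (0 : ℝ) 1))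
    Real.HolderConjugate.two_two hf (aemeasurable_const (b := (1 : ℝ≥0∞)))
  simp only [Pi.mul_apply, mul_one, lintegral_const, Measure.restrict_apply,
    MeasurableSet.univ, univ_inter, Real.volume_Icc, sub_zero, ENNReal.ofReal_one,
    ENNReal.rpow_ofNat, one_pow, ENNReal.one_rpow] at h
  calc (∫⁻ t in Icc (0 : ℝ) 1, f t) ^ 2
      ≤ ((∫⁻ t in Icc (0 : ℝ) 1, f t ^ 2) ^ (1 / 2 : ℝ)) ^ 2 := by gcongr
    _ = _ := by
      rw [← ENNReal.rpow_natCast, ← ENNReal.rpow_mul]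
      norm_num

/-- translation estimate -/
theorem trans_l2 {u : E n → ℝ} (hu : ContDiff ℝ 1 u) {R : ℝ} (hR : R + σ ≤ 1) {t : E n}
    (ht : ‖t‖ ≤ σ) :
    ∫⁻ x in ball (0 : E n) R, ‖u x - u (x - t)‖ₑ ^ 2
      ≤ ENNReal.ofReal σ ^ 2 * ∫⁻ x in ball (0 : E n) 1, ‖fderiv ℝ u x‖ₑ ^ 2 := by
  have hm : Measurable fun x => ‖fderiv ℝ u x‖ₑ ^ 2 := (measurable_fderiv ℝ u).enorm.pow_const 2
  have hle : ∀ x : E n, ‖u x - u (x - t)‖ₑ ^ 2 ≤ ENNReal.ofReal σ ^ 2 *
      ∫⁻ s in Icc (0 : ℝ) 1, ‖fderiv ℝ u (x - (1 - s) • t)‖ₑ ^ 2 := by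
    intro x
    have h1 := Crest.Agent.R236.Poinc.diff_le isOpen_univ convex_univ hu.contDiffOn
      (mem_univ (x - t)) (mem_univ x) (d := σ) (by simpa [dist_eq_norm] using ht)
    have e : ∀ s : ℝ, (1 - s) • (x - t) + s • x = x - (1 - s) • t := fun s => by
      simp only [smul_sub, sub_smul, one_smul]
      abel
    simp only [e] at h1
    have h2 : AEMeasurable (fun s : ℝ => ‖fderiv ℝ u (x - (1 - s) • t)‖ₑ)
        (volume.restrict (Icc (0 : ℝ) 1)) :=
      ((measurable_fderiv ℝ u).enorm.comp (by fun_prop)).aemeasurable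
    calc ‖u x - u (x - t)‖ₑ ^ 2 ≤ (ENNReal.ofReal σ *
          ∫⁻ s in Icc (0 : ℝ) 1, ‖fderiv ℝ u (x - (1 - s) • t)‖ₑ) ^ 2 := by gcongr
      _ = ENNReal.ofReal σ ^ 2 *
          (∫⁻ s in Icc (0 : ℝ) 1, ‖fderiv ℝ u (x - (1 - s) • t)‖ₑ) ^ 2 := by rw [mul_pow]
      _ ≤ _ := by
        gcongr
        exact sq_lintegral_le h2
  have hne : ENNReal.ofReal σ ^ 2 ≠ ⊤ := ENNReal.pow_ne_top ENNReal.ofReal_ne_top
  have hsh : ∀ s ∈ Icc (0 : ℝ) 1, ∫⁻ x in ball (0 : E n) R, ‖fderiv ℝ u (x - (1 - s) • t)‖ₑ ^ 2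
      ≤ ∫⁻ x in ball (0 : E n) 1, ‖fderiv ℝ u x‖ₑ ^ 2 := by
    intro s hs
    rw [← lintegral_indicator measurableSet_ball, ← lintegral_indicator measurableSet_ball,
      ← lintegral_sub_right_eq_self
        ((ball (0 : E n) 1).indicator fun x => ‖fderiv ℝ u x‖ₑ ^ 2) ((1 - s) • t)]
    refine lintegral_mono fun x => ?_
    by_cases hx : x ∈ ball (0 : E n) R
    · have h1 : ‖(1 - s) • t‖ ≤ σ := by
        rw [norm_smul, Real.norm_eq_abs, abs_of_nonneg (by linarith [hs.2])]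
        nlinarith [norm_nonneg t, hs.1, hs.2]
      have h2 : x - (1 - s) • t ∈ ball (0 : E n) 1 := by
        rw [mem_ball_zero_iff] at hx ⊢
        linarith [norm_sub_le x ((1 - s) • t)]
      rw [indicator_of_mem hx, indicator_of_mem h2]
    · rw [indicator_of_notMem hx]
      exact zero_le
  calc _ ≤ ∫⁻ x in ball (0 : E n) R, ENNReal.ofReal σ ^ 2 *
        ∫⁻ s in Icc (0 : ℝ) 1, ‖fderiv ℝ u (x - (1 - s) • t)‖ₑ ^ 2 := lintegral_mono hle
    _ = ENNReal.ofReal σ ^ 2 * ∫⁻ s in Icc (0 : ℝ) 1, ∫⁻ x in ball (0 : E n) R,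
        ‖fderiv ℝ u (x - (1 - s) • t)‖ₑ ^ 2 := by
      rw [lintegral_const_mul' _ _ hne, lintegral_lintegral_swap]
      exact (hm.comp (f := fun p : E n × ℝ => p.1 - (1 - p.2) • t) (by fun_prop)).aemeasurable
    _ ≤ ENNReal.ofReal σ ^ 2 * ∫⁻ _ in Icc (0 : ℝ) 1,
        ∫⁻ x in ball (0 : E n) 1, ‖fderiv ℝ u x‖ₑ ^ 2 := by
      exact mul_le_mul_right (setLIntegral_mono' measurableSet_Icc hsh) _
    _ = _ := by simp

theorem Kern.jensen (hw : Kern σ W w) {d : E n → ℝ} (hd : Continuous d) :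
    (∫ t, w t * d t) ^ 2 ≤ ∫ t, w t * d t ^ 2 := by
  have i1 : Integrable fun t => w t * d t :=
    (hw.cont.mul hd).integrable_of_hasCompactSupport hw.cs.mul_right
  have i2 : Integrable fun t => w t * d t ^ 2 :=
    (hw.cont.mul (hd.pow 2)).integrable_of_hasCompactSupport hw.cs.mul_right
  set m := ∫ t, w t * d t with hm
  have h0 : 0 ≤ ∫ t, w t * (d t - m) ^ 2 :=
    integral_nonneg fun t => mul_nonneg (hw.nn t) (sq_nonneg _)
  have e : ∫ t, w t * (d t - m) ^ 2 = (∫ t, w t * d t ^ 2) - 2 * m * m + m ^ 2 * 1 := by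
    have i3 : Integrable fun t => w t * d t ^ 2 - 2 * m * (w t * d t) := i2.sub (i1.const_mul _)
    have e1 : ∫ t, w t * (d t - m) ^ 2
        = ∫ t, (w t * d t ^ 2 - 2 * m * (w t * d t) + m ^ 2 * w t) :=
      integral_congr_ae (Eventually.of_forall fun t => by ring)
    rw [e1, integral_add i3 (hw.int.const_mul _), integral_sub i2 (i1.const_mul _),
      integral_const_mul, integral_const_mul, hw.one]
  nlinarith

theorem enorm_sq (a : ℝ) : ‖a‖ₑ ^ 2 = ENNReal.ofReal (a ^ 2) := by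
  rw [← ofReal_norm, ← ENNReal.ofReal_pow (norm_nonneg _), Real.norm_eq_abs, sq_abs]

/-- `‖u - u_σ‖₂ ≤ σ ‖∇u‖₂` -/
theorem Kern.l2_sub (hw : Kern σ W w) (hσ : 0 ≤ σ) {u : E n → ℝ} (hu : ContDiff ℝ 1 u) {R : ℝ}
    (hR : R + σ ≤ 1) :
    ∫ x in ball (0 : E n) R, (u x - Mo w u x) ^ 2 ≤ σ ^ 2 * ∫ x in ball (0 : E n) 1, gsq u x := by
  have hc := hu.continuous
  have hpt : ∀ x, ENNReal.ofReal ((u x - Mo w u x) ^ 2)
      ≤ ∫⁻ t, ENNReal.ofReal (w t) * ‖u x - u (x - t)‖ₑ ^ 2 := by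
    intro x
    have hd : Continuous fun t => u x - u (x - t) := by fun_prop
    have e : u x - Mo w u x = ∫ t, w t * (u x - u (x - t)) := by
      simp only [mul_sub, Mo, smul_eq_mul]
      rw [integral_sub (hw.int.mul_const _) (hw.int_mul hc x), integral_mul_const, hw.one, one_mul]
    have i2 : Integrable fun t => w t * (u x - u (x - t)) ^ 2 :=
      (hw.cont.mul (hd.pow 2)).integrable_of_hasCompactSupport hw.cs.mul_right
    rw [e]
    refine (ENNReal.ofReal_le_ofReal (hw.jensen hd)).trans_eq ?_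
    rw [ofReal_integral_eq_lintegral_ofReal i2
      (Eventually.of_forall fun t => mul_nonneg (hw.nn t) (sq_nonneg _))]
    refine lintegral_congr fun t => ?_
    rw [ENNReal.ofReal_mul (hw.nn t), enorm_sq]
  have hg := continuous_gsq hu
  have hg0 : ∀ x, 0 ≤ gsq u x := fun x => Finset.sum_nonneg fun i _ => sq_nonneg _
  have hE : ∫⁻ x in ball (0 : E n) 1, ‖fderiv ℝ u x‖ₑ ^ 2
      = ENNReal.ofReal (∫ x in ball (0 : E n) 1, gsq u x) := by
    rw [ofReal_integral_eq_lintegral_ofReal (intOn_ball hg 0 1) (Eventually.of_forall hg0)]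
    refine lintegral_congr fun x => ?_
    rw [gsq_eq, ← ofReal_norm, ← ENNReal.ofReal_pow (norm_nonneg _)]
  have hI0 : 0 ≤ ∫ x in ball (0 : E n) 1, gsq u x := integral_nonneg hg0
  have hcs : Continuous fun x => (u x - Mo w u x) ^ 2 := (hc.sub (hw.smooth hc).continuous).pow 2
  rw [← ENNReal.ofReal_le_ofReal_iff (by positivity),
    ofReal_integral_eq_lintegral_ofReal (intOn_ball hcs 0 R)
      (Eventually.of_forall fun x => sq_nonneg _), ENNReal.ofReal_mul (sq_nonneg _), ← hE,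
    ENNReal.ofReal_pow hσ]
  set J := ENNReal.ofReal σ ^ 2 * ∫⁻ x in ball (0 : E n) 1, ‖fderiv ℝ u x‖ₑ ^ 2 with hJ
  have hwm : Measurable fun t => ENNReal.ofReal (w t) := hw.cont.measurable.ennreal_ofReal
  calc _ ≤ ∫⁻ x in ball (0 : E n) R, ∫⁻ t, ENNReal.ofReal (w t) * ‖u x - u (x - t)‖ₑ ^ 2 :=
        lintegral_mono hpt
    _ = ∫⁻ t, ∫⁻ x in ball (0 : E n) R, ENNReal.ofReal (w t) * ‖u x - u (x - t)‖ₑ ^ 2 := by
      rw [lintegral_lintegral_swap]
      have h1 : Continuous fun p : E n × E n => u p.1 - u (p.1 - p.2) := by fun_prop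
      exact ((hwm.comp measurable_snd).mul (h1.measurable.enorm.pow_const 2)).aemeasurable
    _ ≤ ∫⁻ t, ENNReal.ofReal (w t) * J := by
      refine lintegral_mono fun t => ?_
      rw [lintegral_const_mul' _ _ ENNReal.ofReal_ne_top]
      by_cases ht : σ ≤ ‖t‖
      · simp [hw.supp t ht]
      · gcongr
        exact trans_l2 hu hR (not_le.1 ht).le
    _ = J := by
      rw [lintegral_mul_const _ hwm, ← ofReal_integral_eq_lintegral_ofReal hw.int
        (Eventually.of_forall hw.nn), hw.one]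
      simp

/-! ### `L¹` data give `C^{0,1}` bounds -/

theorem abs_int_le {φ h : E n → ℝ} {a δ : ℝ} (hh : Continuous h) (ha : ∀ s, |φ s| ≤ a)
    (h0 : ∀ s, s ∉ ball (0 : E n) 1 → φ s = 0) (hδ : ∫ s in ball (0 : E n) 1, |h s| ≤ δ) :
    |∫ s, φ s * h s| ≤ a * δ := by
  have ha0 : 0 ≤ a := (abs_nonneg _).trans (ha 0)
  rw [← setIntegral_eq_integral_of_forall_compl_eq_zero (s := ball (0 : E n) 1)
    fun s hs => by rw [h0 s hs, zero_mul]]
  have i1 : IntegrableOn (fun s => a * |h s|) (ball (0 : E n) 1) :=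
    (intOn_ball hh.abs 0 1).const_mul a
  refine (norm_integral_le_of_norm_le (f := fun s => φ s * h s) i1
    (Eventually.of_forall fun s => ?_)).trans ?_
  · rw [Real.norm_eq_abs, abs_mul]
    exact mul_le_mul_of_nonneg_right (ha s) (abs_nonneg _)
  · rw [integral_const_mul]
    exact mul_le_mul_of_nonneg_left hδ ha0

theorem dual_le {φ H : E n → ℝ} {G : VectorField n} {a δ : ℝ} (hφ : ContDiff ℝ 1 φ)
    (hc : HasCompactSupport φ) (hH : Continuous H) (hG : ∀ k, ContDiff ℝ 1 fun x => G x k)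
    (ha : ∀ s, |φ s| ≤ a) (ha1 : ∀ s k, |pderiv k φ s| ≤ a)
    (h0 : ∀ s, s ∉ ball (0 : E n) 1 → φ s = 0)
    (h1 : ∀ s k, s ∉ ball (0 : E n) 1 → pderiv k φ s = 0)
    (hδ : ∫ s in ball (0 : E n) 1, |H s - divE G s| ≤ δ)
    (hδ1 : ∀ k, ∫ s in ball (0 : E n) 1, |G s k| ≤ δ) :
    |∫ s, φ s * H s| ≤ (1 + n) * (a * δ) := by
  have cd : Continuous (divE G) := continuous_finsetSum _ fun i _ => continuous_pd (hG i) i
  have i1 : Integrable fun s => φ s * (H s - divE G s) :=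
    (hφ.continuous.mul (hH.sub cd)).integrable_of_hasCompactSupport hc.mul_right
  have i2 : Integrable fun s => φ s * divE G s :=
    (hφ.continuous.mul cd).integrable_of_hasCompactSupport hc.mul_right
  have e : ∫ s, φ s * H s = (∫ s, φ s * (H s - divE G s)) - ∑ k, ∫ s, pderiv k φ s * G s k := by
    rw [← integral_finsetSum (f := fun k s => pderiv k φ s * G s k) _ fun k _ =>
      ((continuous_pd hφ k).mul
      (hG k).continuous).integrable_of_hasCompactSupport (hasCompactSupport_pd hc k).mul_right,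
      sub_eq_add_neg, ← ibp_divE hφ hc hG, ← integral_add i1 i2]
    exact integral_congr_ae (Eventually.of_forall fun t => by ring)
  have b1 := abs_int_le (h := fun s => H s - divE G s) (hH.sub cd) ha h0 hδ
  have b2 : |∑ k, ∫ s, pderiv k φ s * G s k| ≤ n * (a * δ) := by
    refine (Finset.abs_sum_le_sum_abs _ _).trans ?_
    refine (Finset.sum_le_sum fun k _ => abs_int_le (hG k).continuous (fun s => ha1 s k)
      (fun s hs => h1 s k hs) (hδ1 k)).trans_eq ?_
    simp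
  rw [e]
  refine (abs_sub _ _).trans ?_
  linarith

theorem pd_refl {w : E n → ℝ} (hw : ContDiff ℝ 1 w) (x s : E n) (k : Fin n) :
    pderiv k (fun s => w (x - s)) s = -pderiv k w (x - s) := by
  have h : HasFDerivAt (fun s => w (x - s))
      ((fderiv ℝ w (x - s)).comp (-ContinuousLinearMap.id ℝ (E n))) s :=
    (hw.differentiable one_ne_zero _).hasFDerivAt.comp s ((hasFDerivAt_id s).const_sub x)
  simp [pderiv, h.fderiv]

theorem lip_of {w : E n → ℝ} (hw : ContDiff ℝ 1 w) {W : ℝ} (h : ∀ t, ‖fderiv ℝ w t‖ ≤ W)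
    (x y : E n) : |w x - w y| ≤ W * ‖x - y‖ :=
  convex_univ.norm_image_sub_le_of_norm_fderiv_le (fun t _ => hw.differentiable one_ne_zero t)
    (fun t _ => h t) (mem_univ y) (mem_univ x)

/-- sup and Lipschitz bound of the mollification of `H = (H - div G) + div G` -/
theorem Kern.Mo_bound (hw : Kern σ W w) {H : E n → ℝ} {G : VectorField n} {δ R : ℝ}
    (hR : R + σ < 1) (hH : Continuous H) (hG : ∀ k, ContDiff ℝ 1 fun x => G x k)
    (hδ : ∫ s in ball (0 : E n) 1, |H s - divE G s| ≤ δ)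
    (hδ1 : ∀ k, ∫ s in ball (0 : E n) 1, |G s k| ≤ δ) :
    (∀ x ∈ closedBall (0 : E n) R, |Mo w H x| ≤ (1 + n) * (W * δ)) ∧
      ∀ x ∈ closedBall (0 : E n) R, ∀ y ∈ closedBall (0 : E n) R,
        |Mo w H x - Mo w H y| ≤ (1 + n) * (W * δ) * ‖x - y‖ := by
  have h1 := smooth_one hw.sm
  have sm : ∀ x : E n, ContDiff ℝ 1 fun s => w (x - s) := fun x =>
    h1.comp (contDiff_const.sub contDiff_id)
  have far : ∀ x ∈ closedBall (0 : E n) R, ∀ s, s ∉ ball (0 : E n) 1 → σ < ‖x - s‖ := by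
    intro x hx s hs
    rw [mem_closedBall_zero_iff] at hx
    rw [mem_ball_zero_iff, not_lt] at hs
    have := norm_sub_norm_le s x
    rw [norm_sub_rev] at this
    linarith
  have z0 : ∀ x ∈ closedBall (0 : E n) R, ∀ s, s ∉ ball (0 : E n) 1 → w (x - s) = 0 :=
    fun x hx s hs => hw.supp _ (far x hx s hs).le
  have z1 : ∀ x ∈ closedBall (0 : E n) R, ∀ s k, s ∉ ball (0 : E n) 1 →
      pderiv k (fun s => w (x - s)) s = 0 := fun x hx s k hs => by
    rw [pd_refl h1, pd_of_far hw.supp (far x hx s hs), neg_zero]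
  have cs : ∀ x ∈ closedBall (0 : E n) R, HasCompactSupport fun s => w (x - s) := fun x hx =>
    hasCompactSupport_of_far (R := 1) fun s hs => z0 x hx s (by simpa using hs.le)
  refine ⟨fun x hx => ?_, fun x hx y hy => ?_⟩
  · rw [Mo_eq]
    refine dual_le (sm x) (cs x hx) hH hG (fun s => hw.b0 _) (fun s k => ?_) (z0 x hx) (z1 x hx)
      hδ hδ1
    rw [pd_refl h1, abs_neg]
    exact (abs_pd_le _ _ _).trans (hw.b1 _)
  · have i : ∀ x ∈ closedBall (0 : E n) R, Integrable fun s => w (x - s) * H s := fun x hx =>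
      ((sm x).continuous.mul hH).integrable_of_hasCompactSupport (cs x hx).mul_right
    have e : ∀ s k, pderiv k (fun s => w (x - s) - w (y - s)) s
        = pderiv k (fun s => w (x - s)) s - pderiv k (fun s => w (y - s)) s := fun s k =>
      pd_sub ((sm x).differentiable one_ne_zero s) ((sm y).differentiable one_ne_zero s) k
    have key := dual_le (φ := fun s => w (x - s) - w (y - s)) (a := W * ‖x - y‖)
      ((sm x).sub (sm y)) ((cs x hx).sub (cs y hy)) hH hG
      (fun s => by simpa using lip_of h1 hw.b1 (x - s) (y - s))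
      (fun s k => by
        rw [e, pd_refl h1, pd_refl h1, neg_sub_neg, abs_sub_comm]
        simpa using lip_of (smooth_one (contDiff_pd hw.sm k)) (hw.b2 · k) (x - s) (y - s))
      (fun s hs => by rw [z0 x hx s hs, z0 y hy s hs, sub_zero])
      (fun s k hs => by rw [e, z1 x hx s k hs, z1 y hy s k hs, sub_zero]) hδ hδ1
    rw [Mo_eq, Mo_eq, ← integral_sub (i x hx) (i y hy)]
    simp only [sub_mul] at key
    exact key.trans_eq (by ring)

end Crest.Agent.N346.An

end
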